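import Vale.Agent.P095.Outer.Reindex

/-!
# P095 equivariant property Gamma: infinitely many commuting reindexed copies
-/

noncomputable section

namespace Vale.Agent.P095.Gamma

open Filter Topology BoundedContinuousFunction Vale.Agent.P101

universe u

variable {A : Type u} [CStarAlgebra A] {ω : Filter ℕ}

/-- Countably many central classes along `ω` and countably many null sequences along `ω` can be
reindexed, infinitely many times over, to central classes along `atTop` which *-commute for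
different copies, the null sequences staying null. -/
theorem exists_reindex_seq [TopologicalSpace.SeparableSpace A] [ω.NeBot] {ι κ : Type*}
    [Countable ι] [Nonempty ι] [Countable κ]
    (F : ι → ℕ →ᵇ A) (hF : ∀ i, seqMk A ω (F i) ∈ centSub A ω)
    (R : κ → ℕ →ᵇ A) (hR : ∀ i, seqMk A ω (R i) = 0) :
    ∃ k : ℕ → C(ℕ, ℕ), (∀ s i, reMk (k s) (F i) ∈ centSub A atTop) ∧
      (∀ s i, reMk (k s) (R i) = 0) ∧
      ∀ s t, s ≠ t → ∀ i l, StarCommute (reMk (k s) (F i)) (reMk (k t) (F l)) := by
  obtain ⟨a, ha⟩ := TopologicalSpace.exists_dense_seq A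
  obtain ⟨e, he⟩ := exists_surjective_nat ι
  obtain ⟨r, hr⟩ := exists_surjective_nat (Option κ)
  let η : ℕ → ℝ := fun n => 1 / ((n : ℝ) + 1)
  have hη : ∀ n, 0 < η n := fun n => by positivity
  have hη0 : Tendsto η atTop (𝓝 0) := tendsto_one_div_add_atTop_nhds_zero_nat
  let R' : Option κ → ℕ →ᵇ A := fun o => o.elim 0 R
  have hR' : ∀ i, seqMk A ω (R' i) = 0 := by
    rintro (_ | i)
    exacts [map_zero _, hR i]
  have hP : ∀ n, ∀ᶠ j in ω, ∀ p ∈ Set.Iic n, ‖R' (r p) j‖ < η n := fun n =>
    (Set.finite_Iic n).eventually_all.2 fun p _ =>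
      (seqMk_eq_zero.1 (hR' (r p))).eventually (gt_mem_nhds (hη n))
  choose k hk1 hk2 hk3 using fun n => exists_picks (fun p : Fin (n + 1) => F (e p))
    (fun p => hF _) _ (hP n) a n (hη n) (n + 1)
  let K : ℕ → C(ℕ, ℕ) := fun s =>
    ⟨fun n => if h : s < n + 1 then k n ⟨s, h⟩ else n, continuous_of_discreteTopology⟩
  have hK : ∀ s n (h : s < n + 1), K s n = k n ⟨s, h⟩ := fun s n h => dif_pos h
  have lim : ∀ f : ℕ →ᵇ A, (∀ᶠ n in atTop, ‖f n‖ ≤ η n) → seqMk A atTop f = 0 := fun f hf =>
    seqMk_eq_zero.2 (squeeze_zero' (Eventually.of_forall fun n => norm_nonneg _) hf hη0)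
  refine ⟨K, fun s i => ?_, fun s i => ?_, fun s t hst i l => ?_⟩
  · obtain ⟨q, rfl⟩ := he i
    rw [reMk_apply, mem_centSub]
    intro b
    rw [Metric.tendsto_nhds]
    intro ε hε
    have hM : 0 < ε / (4 * (‖F (e q)‖ + 1)) := by positivity
    obtain ⟨p, hp⟩ := ha.exists_dist_lt b hM
    filter_upwards [eventually_ge_atTop p, eventually_ge_atTop q, eventually_ge_atTop s,
      hη0.eventually (gt_mem_nhds (half_pos hε))] with n h1 h2 h3 h4
    rw [Real.dist_eq, sub_zero, abs_of_nonneg (norm_nonneg _)]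
    show ‖b * F (e q) (K s n) - F (e q) (K s n) * b‖ < ε
    set z := F (e q) (K s n) with hz
    have hc : ‖a p * z - z * a p‖ < η n := by
      rw [hz, hK s n (by omega)]
      exact hk2 n ⟨s, by omega⟩ ⟨q, by omega⟩ p h1
    have hX : ‖z‖ ≤ ‖F (e q)‖ + 1 := ((F (e q)).norm_coe_le_norm _).trans (by linarith)
    rw [dist_eq_norm] at hp
    have key : b * z - z * b = ((b - a p) * z - z * (b - a p)) + (a p * z - z * a p) := by
      noncomm_ring
    have e1 : ‖(b - a p) * z‖ ≤ ε / (4 * (‖F (e q)‖ + 1)) * (‖F (e q)‖ + 1) :=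
      (norm_mul_le _ _).trans (mul_le_mul hp.le hX (norm_nonneg _) hM.le)
    have e2 : ‖z * (b - a p)‖ ≤ ε / (4 * (‖F (e q)‖ + 1)) * (‖F (e q)‖ + 1) := by
      refine (norm_mul_le _ _).trans ?_
      rw [mul_comm]
      exact mul_le_mul hp.le hX (norm_nonneg _) hM.le
    have e3 := norm_sub_le ((b - a p) * z) (z * (b - a p))
    have hval : ε / (4 * (‖F (e q)‖ + 1)) * (‖F (e q)‖ + 1) = ε / 4 := by field_simp
    rw [key]
    refine (norm_add_le _ _).trans_lt ?_
    linarith
  · obtain ⟨p, hp⟩ := hr (some i)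
    refine lim _ ?_
    filter_upwards [eventually_ge_atTop p, eventually_ge_atTop s] with n h1 h2
    have := hk1 n ⟨s, by omega⟩ p h1
    rw [hp] at this
    show ‖R i (K s n)‖ ≤ η n
    rw [hK s n (by omega)]
    exact this.le
  · have main : ∀ s t, t < s → ∀ i l,
        Commute (reMk (K t) (F l)) (reMk (K s) (F i)) ∧
          Commute (star (reMk (K t) (F l))) (reMk (K s) (F i)) := by
      intro s t hts i l
      obtain ⟨p, rfl⟩ := he i
      obtain ⟨q, rfl⟩ := he l
      have hev : ∀ᶠ n in atTop,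
          ‖F (e q) (K t n) * F (e p) (K s n) - F (e p) (K s n) * F (e q) (K t n)‖ ≤ η n ∧
          ‖star (F (e q) (K t n)) * F (e p) (K s n) -
            F (e p) (K s n) * star (F (e q) (K t n))‖ ≤ η n := by
        filter_upwards [eventually_ge_atTop p, eventually_ge_atTop q, eventually_ge_atTop s]
          with n h1 h2 h3
        rw [hK s n (by omega), hK t n (by omega)]
        obtain ⟨c1, c2⟩ := hk3 n ⟨s, by omega⟩ ⟨t, by omega⟩ hts ⟨p, by omega⟩ ⟨q, by omega⟩
        exact ⟨c1.le, c2.le⟩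
      simp only [reMk_apply, Commute, SemiconjBy, ← map_star, ← map_mul,
        ← sub_eq_zero (b := seqMk A atTop _), ← map_sub]
      exact ⟨lim _ (hev.mono fun n h => h.1), lim _ (hev.mono fun n h => h.2)⟩
    rcases lt_or_gt_of_ne hst with h | h
    · exact ⟨(main t s h l i).1, by simpa using ((main t s h l i).2).star_star⟩
    · exact ⟨(main s t h i l).1.symm, (main s t h i l).2.symm⟩

end Vale.Agent.P095.Gamma
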