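import Vale.Agent.P095.Gamma.Defs

/-!
# P095 equivariant property Gamma: tracial states and their `L²` seminorms
-/

noncomputable section

namespace Vale.Agent.P095.Gamma

universe u

open scoped ComplexOrder

variable {B : Type u} [CStarAlgebra B] {τ : B →ₗ[ℂ] ℂ}

namespace IsTrace

variable (hτ : IsTrace B τ)
include hτ

set_option linter.unusedSectionVars false

theorem re_nonneg (a : B) : 0 ≤ (τ (star a * a)).re := (Complex.le_def.1 (hτ.nonneg a)).1

theorem im_eq_zero (a : B) : (τ (star a * a)).im = 0 := (Complex.le_def.1 (hτ.nonneg a)).2.symm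

theorem re_nonneg' (a : B) : 0 ≤ (τ (a * star a)).re := by
  rw [hτ.comm]; exact hτ.re_nonneg a

theorem l2_sq (a : B) : l2 τ a ^ 2 = (τ (star a * a)).re := Real.sq_sqrt (hτ.re_nonneg a)

theorem l2_nonneg (a : B) : 0 ≤ l2 τ a := Real.sqrt_nonneg _

theorem conj_map (a b : B) : (starRingEnd ℂ) (τ (star a * b)) = τ (star b * a) := by
  have h1 := hτ.im_eq_zero (a + b)
  have h2 := hτ.im_eq_zero (a + Complex.I • b)
  have ea := hτ.im_eq_zero a
  have eb := hτ.im_eq_zero b
  simp only [star_add, add_mul, mul_add, map_add, star_smul, smul_mul_assoc, mul_smul_comm,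
    map_smul, smul_eq_mul, Complex.star_def, Complex.conj_I, smul_add, smul_smul,
    Complex.add_im, Complex.mul_im, Complex.neg_re, Complex.neg_im, Complex.I_re, Complex.I_im,
    Complex.mul_re, ea, eb] at h1 h2
  apply Complex.ext <;> simp only [Complex.conj_re, Complex.conj_im] <;> linarith

theorem map_star (a : B) : τ (star a) = (starRingEnd ℂ) (τ a) := by
  simpa using (hτ.conj_map 1 a).symm

theorem im_of_sa {a : B} (ha : star a = a) : (τ a).im = 0 := by
  have h := hτ.map_star a
  rw [ha] at h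
  have := congrArg Complex.im h
  simp only [Complex.conj_im] at this
  linarith

/-- Cauchy–Schwarz. -/
theorem norm_map_mul_le (a b : B) : ‖τ (star a * b)‖ ≤ l2 τ a * l2 τ b := by
  have hA := hτ.re_nonneg a
  have hC := hτ.re_nonneg b
  set z := τ (star a * b) with hz
  have key : ∀ t : ℝ, 0 ≤ (τ (star b * b)).re + 2 * t * ‖z‖ ^ 2 +
      t ^ 2 * ‖z‖ ^ 2 * (τ (star a * a)).re := by
    intro t
    have h := hτ.re_nonneg (b + ((t : ℂ) * z) • a)
    simp only [star_add, add_mul, mul_add, star_smul, smul_mul_assoc, mul_smul_comm, map_add,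
      map_smul, smul_eq_mul, ← hτ.conj_map a b, ← hz, star_mul', Complex.star_def,
      Complex.conj_ofReal] at h
    rw [Complex.sq_norm, Complex.normSq_apply]
    simp only [Complex.add_re, Complex.mul_re, Complex.mul_im, Complex.conj_re, Complex.conj_im,
      Complex.ofReal_re, Complex.ofReal_im, hτ.im_eq_zero a] at h
    nlinarith [h]
  have h1 : ‖z‖ ^ 2 ≤ (τ (star a * a)).re * (τ (star b * b)).re := by
    rcases hA.eq_or_lt with h0 | h0
    · by_contra hne
      push Not at hne
      rw [← h0, zero_mul] at hne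
      have hp : 0 < ‖z‖ ^ 2 := hne
      have := key (-((τ (star b * b)).re + 1) / (2 * ‖z‖ ^ 2))
      rw [← h0, mul_zero, add_zero, show 2 * (-((τ (star b * b)).re + 1) / (2 * ‖z‖ ^ 2)) * ‖z‖ ^ 2 =
        -((τ (star b * b)).re + 1) by
          have : ‖z‖ ≠ 0 := fun h => by simp [h] at hp
          field_simp] at this
      linarith
    · have := key (-1 / (τ (star a * a)).re)
      field_simp at this
      nlinarith
  rw [← Real.sqrt_sq (norm_nonneg z), l2, l2, ← Real.sqrt_mul hA]
  exact Real.sqrt_le_sqrt h1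

theorem norm_map_le (a : B) : ‖τ a‖ ≤ l2 τ a := by
  simpa [l2, hτ.map_one] using hτ.norm_map_mul_le 1 a

theorem l2_add_le (a b : B) : l2 τ (a + b) ≤ l2 τ a + l2 τ b := by
  have h := hτ.norm_map_mul_le a b
  have h' : (τ (star a * b)).re ≤ l2 τ a * l2 τ b := (Complex.re_le_norm _).trans h
  have e : (τ (star b * a)).re = (τ (star a * b)).re := by
    rw [← hτ.conj_map a b, Complex.conj_re]
  refine Real.sqrt_le_iff.2 ⟨add_nonneg (hτ.l2_nonneg a) (hτ.l2_nonneg b), ?_⟩
  simp only [star_add, add_mul, mul_add, map_add, Complex.add_re]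
  nlinarith [hτ.l2_sq a, hτ.l2_sq b]

theorem l2_smul (c : ℂ) (a : B) : l2 τ (c • a) = ‖c‖ * l2 τ a := by
  rw [← Real.sqrt_sq (norm_nonneg c), l2, l2, ← Real.sqrt_mul (sq_nonneg _)]
  congr 1
  simp only [star_smul, smul_mul_assoc, mul_smul_comm, smul_smul, map_smul, smul_eq_mul,
    Complex.star_def]
  rw [Complex.mul_conj', ← Complex.ofReal_pow, Complex.re_ofReal_mul]

theorem l2_star (a : B) : l2 τ (star a) = l2 τ a := by
  rw [l2, l2, star_star, hτ.comm]

theorem l2_neg (a : B) : l2 τ (-a) = l2 τ a := by simp [l2]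

theorem l2_zero : l2 τ (0 : B) = 0 := by simp [l2]

theorem l2_sub_le (a b c : B) : l2 τ (a - c) ≤ l2 τ (a - b) + l2 τ (b - c) := by
  simpa using hτ.l2_add_le (a - b) (b - c)

theorem l2_sum_le {ι : Type*} (s : Finset ι) (a : ι → B) :
    l2 τ (∑ i ∈ s, a i) ≤ ∑ i ∈ s, l2 τ (a i) := by
  classical
  induction s using Finset.induction_on with
  | empty => simp [hτ.l2_zero]
  | insert i s hi ih =>
    rw [Finset.sum_insert hi, Finset.sum_insert hi]
    exact (hτ.l2_add_le _ _).trans (by linarith)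

/-- Left multiplication is bounded by the norm. -/
theorem l2_mul_le (a b : B) : l2 τ (a * b) ≤ ‖a‖ * l2 τ b := by
  let _ : PartialOrder B := CStarAlgebra.spectralOrder B
  have _ : StarOrderedRing B := CStarAlgebra.spectralOrderedRing B
  have hle : star b * (star a * a) * b ≤ ‖star a * a‖ • (star b * b) :=
    CStarAlgebra.star_left_conjugate_le_norm_smul
  obtain ⟨d, hd⟩ := CStarAlgebra.nonneg_iff_eq_star_mul_self.1 (sub_nonneg.2 hle)
  have h0 := hτ.re_nonneg d
  rw [← hd, map_sub, Complex.sub_re, ← Complex.coe_smul, map_smul, smul_eq_mul,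
    Complex.re_ofReal_mul] at h0
  refine Real.sqrt_le_iff.2 ⟨mul_nonneg (norm_nonneg _) (hτ.l2_nonneg _), ?_⟩
  rw [mul_pow, hτ.l2_sq, pow_two, ← CStarRing.norm_star_mul_self]
  rw [show star (a * b) * (a * b) = star b * (star a * a) * b by simp [mul_assoc]]
  linarith

/-- Right multiplication is bounded by the norm. -/
theorem l2_mul_le' (a b : B) : l2 τ (a * b) ≤ l2 τ a * ‖b‖ := by
  rw [← hτ.l2_star (a * b), star_mul, mul_comm]
  exact (hτ.l2_mul_le _ _).trans (by rw [norm_star, hτ.l2_star])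

theorem l2_one : l2 τ (1 : B) = 1 := by simp [l2, hτ.map_one]

theorem l2_le_norm (a : B) : l2 τ a ≤ ‖a‖ := by
  simpa [hτ.l2_one] using hτ.l2_mul_le a 1

theorem norm_map_le_norm (a : B) : ‖τ a‖ ≤ ‖a‖ := (hτ.norm_map_le a).trans (hτ.l2_le_norm a)

/-- Traces are continuous. -/
theorem continuous : Continuous τ :=
  (τ.mkContinuous 1 fun a => by simpa using hτ.norm_map_le_norm a).continuous

theorem sq_le (a : B) : ‖τ a‖ ^ 2 ≤ (τ (star a * a)).re := by
  rw [← hτ.l2_sq a]
  exact pow_le_pow_left₀ (norm_nonneg _) (hτ.norm_map_le a) 2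

/-- The variance of a self-adjoint element. -/
theorem l2_sub_map_sq {a : B} (ha : star a = a) :
    l2 τ (a - τ a • (1 : B)) ^ 2 = (τ (a * a)).re - (τ a).re ^ 2 := by
  rw [hτ.l2_sq]
  simp only [star_sub, star_smul, ha, star_one, sub_mul, mul_sub, smul_mul_assoc, one_mul,
    mul_smul_comm, mul_one, map_sub, map_smul, smul_eq_mul, hτ.map_one,
    Complex.star_def]
  simp [hτ.im_of_sa ha]
  ring

end IsTrace

namespace SlotSystem

variable {G : Type*} [Group G] (S : SlotSystem B G)

theorem act_h_mem {P : Set ℕ} (g : G) {s : ℕ} (hs : s ∈ P) : S.act g (S.h s) ∈ S.gen P :=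
  StarSubalgebra.le_topologicalClosure _ (StarAlgebra.subset_adjoin ℂ _ ⟨g, s, hs, rfl⟩)

theorem gen_mono {P Q : Set ℕ} (h : P ⊆ Q) : S.gen P ≤ S.gen Q :=
  StarSubalgebra.topologicalClosure_mono (StarAlgebra.adjoin_mono fun _ ⟨g, s, hs, e⟩ =>
    ⟨g, s, h hs, e⟩)

theorem genBase_mono {P Q : Set ℕ} (h : P ⊆ Q) : S.genBase P ≤ S.genBase Q :=
  StarSubalgebra.topologicalClosure_mono (StarAlgebra.adjoin_mono
    (Set.union_subset_union_right _ fun _ ⟨g, s, hs, e⟩ => ⟨g, s, h hs, e⟩))

theorem gen_le_genBase (P : Set ℕ) : S.gen P ≤ S.genBase P :=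
  StarSubalgebra.topologicalClosure_mono (StarAlgebra.adjoin_mono Set.subset_union_right)

theorem base_le_genBase (P : Set ℕ) : S.base ≤ S.genBase P := fun _ ha =>
  StarSubalgebra.le_topologicalClosure _ (StarAlgebra.subset_adjoin ℂ _ (Or.inl ha))

theorem continuous_act (g : G) : Continuous (S.act g) :=
  AddMonoidHomClass.continuous_of_bound (S.act g) 1 fun x => by
    simpa using NonUnitalStarAlgHom.norm_apply_le (S.act g) x

theorem act_mem_gen {P : Set ℕ} (g : G) {x : B} (hx : x ∈ S.gen P) : S.act g x ∈ S.gen P := by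
  have hle : StarAlgebra.adjoin ℂ {x | ∃ k, ∃ s ∈ P, S.act k (S.h s) = x} ≤
      (S.gen P).comap (S.act g) := by
    refine StarAlgebra.adjoin_le ?_
    rintro _ ⟨k, s, hs, rfl⟩
    show S.act g (S.act k (S.h s)) ∈ S.gen P
    rw [← S.act_mul]
    exact S.act_h_mem _ hs
  exact (StarSubalgebra.isClosed_topologicalClosure _).closure_subset
    (map_mem_closure (S.continuous_act g) hx hle)

theorem act_mem_genBase {P : Set ℕ} (g : G) {x : B} (hx : x ∈ S.genBase P) :
    S.act g x ∈ S.genBase P := by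
  have hle : StarAlgebra.adjoin ℂ ((S.base : Set B) ∪ {x | ∃ k, ∃ s ∈ P, S.act k (S.h s) = x}) ≤
      (S.genBase P).comap (S.act g) := by
    refine StarAlgebra.adjoin_le ?_
    rintro x (hx | ⟨k, s, hs, rfl⟩)
    · exact S.base_le_genBase P (S.act_base g x hx)
    · show S.act g (S.act k (S.h s)) ∈ S.genBase P
      rw [← S.act_mul]
      exact S.gen_le_genBase P (S.act_h_mem _ hs)
  exact (StarSubalgebra.isClosed_topologicalClosure _).closure_subset
    (map_mem_closure (S.continuous_act g) hx hle)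

/-- Translates of good traces are good. -/
theorem Good.comp_act {τ : B →ₗ[ℂ] ℂ} (hτ : S.Good τ) (g : G) :
    S.Good (τ.comp (S.act g).toAlgHom.toLinearMap) where
  trace :=
    ⟨fun a => by simpa [map_star] using hτ.trace.nonneg (S.act g a), by simpa using hτ.trace.map_one,
      fun a b => by simpa using hτ.trace.comm (S.act g a) (S.act g b)⟩
  indep P d hd e he := by
    simpa using hτ.indep P _ (S.act_mem_gen g hd) _ (S.act_mem_genBase g he)
  mean k s := by simpa [← S.act_mul] using hτ.mean (g * k) s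
  var k s := by simpa [← S.act_mul] using hτ.var (g * k) s

/-- Disjoint sets of slots are independent. -/
theorem Good.map_mul {τ : B →ₗ[ℂ] ℂ} (hτ : S.Good τ) {P Q : Set ℕ} (h : Disjoint P Q) {d e : B}
    (hd : d ∈ S.gen P) (he : e ∈ S.gen Q) : τ (d * e) = τ d * τ e :=
  hτ.indep P d hd e (S.genBase_mono (fun _ hq hp => h.ne_of_mem hp hq rfl)
    (S.gen_le_genBase Q he))

end SlotSystem

end Vale.Agent.P095.Gamma
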