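import Vale.Agent.P095.Gamma.Specs
import Vale.Agent.P095.Gamma.L2
import Vale.Agent.P101.Common

/-!
# P095 equivariant property Gamma: slot systems from commuting dimension-drop generators

Commuting translates of dimension-drop generators give a slot system with `h = y* y - y y*`, and
every extremal trace on an algebra generated by them and the base is good.
-/

noncomputable section

namespace Vale.Agent.P095.Gamma

open Vale.Agent.P101

universe u v

section Rel

variable {B : Type u} [CStarAlgebra B] {y v : B}

/-- The distinguished element of a pair of dimension-drop generators. -/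
def dropElem (y : B) : B := star y * y - y * star y

theorem star_dropElem (y : B) : star (dropElem y) = dropElem y := by simp [dropElem]

theorem map_dropElem {C : Type*} [CStarAlgebra C] (φ : B →⋆ₐ[ℂ] C) (y : B) :
    φ (dropElem y) = dropElem (φ y) := by simp [dropElem, map_star]

theorem dropElem_mul_self (h1 : y * y = 0) :
    dropElem y * dropElem y = star y * (y * star y) * y + y * (star y * y) * star y := by
  have h1' : star y * star y = 0 := by rw [← star_mul, h1, star_zero]
  have e1 : star y * y * (y * star y) = 0 := by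
    rw [← mul_assoc, mul_assoc (star y) y y, h1, mul_zero, zero_mul]
  have e2 : y * star y * (star y * y) = 0 := by
    rw [← mul_assoc, mul_assoc y (star y) (star y), h1', mul_zero, zero_mul]
  simp only [dropElem, sub_mul, mul_sub, e1, e2, sub_zero, zero_sub, sub_neg_eq_add, mul_assoc]

theorem norm_gen_le_one (h2 : star v * v = 1 - star y * y - y * star y) : ‖y‖ ≤ 1 ∧ ‖v‖ ≤ 1 := by
  let _ : PartialOrder B := CStarAlgebra.spectralOrder B
  let _ : StarOrderedRing B := CStarAlgebra.spectralOrderedRing B
  have e : (1 : B) = star v * v + star y * y + y * star y := by rw [h2]; abel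
  have key : ∀ z : B, star z * z ≤ 1 → ‖z‖ ≤ 1 := fun z hz => by
    have h := (CStarAlgebra.norm_le_one_iff_of_nonneg _ (star_mul_self_nonneg z)).2 hz
    rw [CStarRing.norm_star_mul_self] at h
    nlinarith [norm_nonneg z]
  refine ⟨key y ?_, key v ?_⟩ <;> rw [e]
  · exact le_trans (le_add_of_nonneg_left (star_mul_self_nonneg v))
      (le_add_of_nonneg_right (mul_star_self_nonneg y))
  · exact le_trans (le_add_of_nonneg_right (star_mul_self_nonneg y))
      (le_add_of_nonneg_right (mul_star_self_nonneg y))

theorem norm_dropElem_le (h1 : y * y = 0) (h2 : star v * v = 1 - star y * y - y * star y) :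
    ‖dropElem y‖ ≤ 1 := by
  let _ : PartialOrder B := CStarAlgebra.spectralOrder B
  let _ : StarOrderedRing B := CStarAlgebra.spectralOrderedRing B
  have hsum : star y * y + y * star y ≤ 1 := by
    rw [show (1 : B) = star v * v + (star y * y + y * star y) by rw [h2]; abel]
    exact le_add_of_nonneg_left (star_mul_self_nonneg v)
  have ha : star y * y ≤ 1 := (le_add_of_nonneg_right (mul_star_self_nonneg y)).trans hsum
  have hb : y * star y ≤ 1 := (le_add_of_nonneg_left (star_mul_self_nonneg y)).trans hsum
  have hsq : dropElem y * dropElem y ≤ 1 := by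
    rw [dropElem_mul_self h1]
    refine le_trans (add_le_add ?_ ?_) hsum
    · simpa using star_left_conjugate_le_conjugate hb y
    · simpa using star_left_conjugate_le_conjugate ha (star y)
  have h0 : 0 ≤ dropElem y * dropElem y := by
    simpa [star_dropElem] using star_mul_self_nonneg (dropElem y)
  have h := (CStarAlgebra.norm_le_one_iff_of_nonneg _ h0).2 hsq
  have e : ‖dropElem y * dropElem y‖ = ‖dropElem y‖ * ‖dropElem y‖ := by
    have := CStarRing.norm_star_mul_self (x := dropElem y)
    rwa [star_dropElem] at this
  nlinarith [norm_nonneg (dropElem y)]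

theorem IsTrace.map_dropElem_eq_zero {τ : B →ₗ[ℂ] ℂ} (hτ : IsTrace B τ) (y : B) :
    τ (dropElem y) = 0 := by
  rw [dropElem, map_sub, hτ.comm, sub_self]

theorem IsTrace.two_ninths_le {τ : B →ₗ[ℂ] ℂ} (hτ : IsTrace B τ) (h1 : y * y = 0)
    (h2 : star v * v = 1 - star y * y - y * star y) (h3 : y * star y * v = v) :
    (2 / 9 : ℝ) ≤ (τ (dropElem y * dropElem y)).re := by
  set a := star y * y with ha
  have hv : (τ (star v * v)).re ≤ (τ a).re := by
    have e : star v * v = star (star y * v) * (star y * v) := by
      rw [star_mul, star_star]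
      conv_lhs => arg 2; rw [← h3]
      simp only [mul_assoc]
    have hle : l2 τ (star y * v) ≤ l2 τ (star y) :=
      (hτ.l2_mul_le' _ _).trans (mul_le_of_le_one_right (hτ.l2_nonneg _) (norm_gen_le_one h2).2)
    rw [e, ← hτ.l2_sq, ha, ← hτ.l2_sq, ← hτ.l2_star y]
    exact pow_le_pow_left₀ (hτ.l2_nonneg _) hle 2
  have hone : (τ (star v * v)).re + (τ a).re + (τ (y * star y)).re = 1 := by
    have := congrArg (fun b => (τ b).re) h2
    simp only [map_sub, Complex.sub_re, hτ.map_one, Complex.one_re] at this
    linarith
  rw [hτ.comm y] at hone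
  have hthird : 1 / 3 ≤ (τ a).re := by linarith
  have hsq : (τ a).re ^ 2 ≤ (τ (a * a)).re := by
    have h := hτ.sq_le a
    rw [show star a = a by simp [ha]] at h
    refine le_trans ?_ h
    rw [← sq_abs]
    exact pow_le_pow_left₀ (abs_nonneg _) (Complex.abs_re_le_norm _) 2
  have e1 : τ (y * (star y * y) * star y) = τ (a * a) := by
    rw [hτ.comm (y * (star y * y)), ha, mul_assoc]
  rw [dropElem_mul_self h1, map_add, Complex.add_re, e1,
    show star y * (y * star y) * y = a * a by simp only [ha, mul_assoc]]
  nlinarith

end Rel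

/-- Commuting translation stable pairs of dimension-drop generators over a base. -/
structure SlotData (B : Type u) [CStarAlgebra B] (G : Type v) [Group G] where
  /-- The action. -/
  act : G → B →⋆ₐ[ℂ] B
  act_one : ∀ x, act 1 x = x
  act_mul : ∀ g k x, act (g * k) x = act g (act k x)
  /-- The base subalgebra. -/
  base : StarSubalgebra ℂ B
  act_base : ∀ g, ∀ a ∈ base, act g a ∈ base
  /-- The square-zero generators. -/
  y : ℕ → B
  /-- The second generators. -/
  v : ℕ → B
  sq : ∀ s, y s * y s = 0
  sum : ∀ s, star (v s) * v s = 1 - star (y s) * y s - y s * star (y s)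
  keep : ∀ s, y s * star (y s) * v s = v s
  comm : ∀ s t, s ≠ t → ∀ g k, StarCommute (act g (y s)) (act k (y t)) ∧
    StarCommute (act g (y s)) (act k (v t)) ∧ StarCommute (act g (v s)) (act k (v t))
  comm_base : ∀ g s, ∀ a ∈ base, Commute (act g (y s)) a ∧ Commute (act g (v s)) a
  dense : (StarAlgebra.adjoin ℂ
    ((base : Set B) ∪ {x | ∃ g s, act g (y s) = x ∨ act g (v s) = x})).topologicalClosure = ⊤

namespace SlotData

variable {B : Type u} [CStarAlgebra B] {G : Type v} [Group G] (D : SlotData B G)

/-- The translates of the generators of the slots in `P`. -/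
def slotSet (P : Set ℕ) : Set B := {x | ∃ g, ∃ s ∈ P, D.act g (D.y s) = x ∨ D.act g (D.v s) = x}

/-- The slot system of the elements `y* y - y y*`. -/
def toSystem : SlotSystem B G where
  act := D.act
  act_one := D.act_one
  act_mul := D.act_mul
  base := D.base
  act_base := D.act_base
  h s := dropElem (D.y s)
  h_sa s := star_dropElem _
  h_norm s := norm_dropElem_le (D.sq s) (D.sum s)
  comm g k s t hst := by
    obtain ⟨c1, c2⟩ := (D.comm s t hst g k).1
    have c1' := c1.star_star
    have c2' : Commute (star (D.act g (D.y s))) (D.act k (D.y t)) := by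
      simpa using c2.star_star
    simp only [map_dropElem]
    exact (((c1'.mul_right c2').mul_left (c2.mul_right c1)).sub_right
        ((c2'.mul_right c1').mul_left (c1.mul_right c2))).sub_left
      (((c2.mul_right c1).mul_left (c1'.mul_right c2')).sub_right
        ((c1.mul_right c2).mul_left (c2'.mul_right c1')))
  comm_base g s a ha := by
    have h1 := (D.comm_base g s a ha).1
    have h2 : Commute (star (D.act g (D.y s))) a := by
      simpa using ((D.comm_base g s (star a) (star_mem ha)).1).star_star
    simp only [map_dropElem]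
    exact (h2.mul_left h1).sub_left (h1.mul_left h2)

theorem starCommute_slotSet {P : Set ℕ} {x z : B} (hx : x ∈ D.slotSet P)
    (hz : z ∈ (D.base : Set B) ∪ D.slotSet Pᶜ) : StarCommute x z := by
  obtain ⟨g, s, hs, hx⟩ := hx
  rcases hz with hz | ⟨k, t, ht, hz⟩
  · have hb := D.comm_base g s z hz
    have hb' := D.comm_base g s (star z) (star_mem hz)
    rcases hx with rfl | rfl
    · exact ⟨hb.1, hb'.1⟩
    · exact ⟨hb.2, hb'.2⟩
  · have hst : s ≠ t := fun e => ht (e ▸ hs)
    have c := D.comm s t hst g k
    rcases hx with rfl | rfl <;> rcases hz with rfl | rfl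
    · exact c.1
    · exact c.2.1
    · exact StarCommute.symm (D.comm t s hst.symm k g).2.1
    · exact c.2.2

theorem act_dropElem_mem {P : Set ℕ} (g : G) {s : ℕ} (hs : s ∈ P) {K : StarSubalgebra ℂ B}
    (hK : D.slotSet P ⊆ K) : D.toSystem.act g (D.toSystem.h s) ∈ K := by
  show D.act g (dropElem (D.y s)) ∈ K
  have hy : D.act g (D.y s) ∈ K := hK ⟨g, s, hs, Or.inl rfl⟩
  rw [map_dropElem]
  exact sub_mem (mul_mem (star_mem hy) hy) (mul_mem hy (star_mem hy))

/-- Every extremal trace is good. -/
theorem good_of_extremal (hprod : ProductStatement.{u}) {τ : B →ₗ[ℂ] ℂ}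
    (hτ : IsExtremalTrace B τ) : D.toSystem.Good τ where
  trace := hτ.toIsTrace
  mean g s := by
    show τ (D.act g (dropElem (D.y s))) = 0
    rw [map_dropElem]
    exact hτ.toIsTrace.map_dropElem_eq_zero _
  var g s := by
    show (2 / 9 : ℝ) ≤ (τ (D.act g (dropElem (D.y s)) * D.act g (dropElem (D.y s)))).re
    rw [map_dropElem]
    refine hτ.toIsTrace.two_ninths_le (v := D.act g (D.v s)) ?_ ?_ ?_
    · rw [← map_mul, D.sq, map_zero]
    · simp only [← map_star, ← map_mul, D.sum s, map_sub, map_one]
    · simp only [← map_star, ← map_mul, D.keep s]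
  indep P d hd e he := by
    set K := (StarAlgebra.adjoin ℂ (D.slotSet P)).topologicalClosure with hK
    set L := (StarAlgebra.adjoin ℂ ((D.base : Set B) ∪ D.slotSet Pᶜ)).topologicalClosure with hL
    have hcK : D.slotSet P ⊆ K := fun x hx =>
      StarSubalgebra.le_topologicalClosure _ (StarAlgebra.subset_adjoin ℂ _ hx)
    have hcL : (D.base : Set B) ∪ D.slotSet Pᶜ ⊆ L := fun x hx =>
      StarSubalgebra.le_topologicalClosure _ (StarAlgebra.subset_adjoin ℂ _ hx)
    have hd' : d ∈ K := by
      refine StarSubalgebra.topologicalClosure_minimal (StarAlgebra.adjoin_le ?_)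
        (StarSubalgebra.isClosed_topologicalClosure _) hd
      rintro _ ⟨g, s, hs, rfl⟩
      exact D.act_dropElem_mem g hs hcK
    have he' : e ∈ L := by
      refine StarSubalgebra.topologicalClosure_minimal (StarAlgebra.adjoin_le ?_)
        (StarSubalgebra.isClosed_topologicalClosure _) he
      rintro x (hx | ⟨g, s, hs, rfl⟩)
      · exact hcL (Or.inl hx)
      · exact D.act_dropElem_mem g hs fun x hx => hcL (Or.inr hx)
    have h1 : ∀ x ∈ K, ∀ z ∈ L, StarCommute x z := by
      intro x hx z hz
      have hxc : x ∈ StarSubalgebra.centralizer ℂ ((D.base : Set B) ∪ D.slotSet Pᶜ) :=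
        StarSubalgebra.topologicalClosure_minimal (StarAlgebra.adjoin_le fun a ha =>
          mem_centralizer_of_starCommute fun b hb => D.starCommute_slotSet ha hb)
          (isClosed_centralizer _) hx
      have hzc : z ∈ StarSubalgebra.centralizer ℂ {x} := by
        refine StarSubalgebra.topologicalClosure_minimal (StarAlgebra.adjoin_le fun b hb =>
          mem_centralizer_of_starCommute ?_) (isClosed_centralizer _) hz
        rintro _ rfl
        exact (starCommute_of_mem_centralizer hxc hb).symm
      exact (starCommute_of_mem_centralizer hzc rfl).symm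
    refine hprod B τ hτ K L (fun x hx z hz => (h1 x hx z hz).1) ?_ d hd' e he'
    refine eq_top_iff.2 (D.dense ▸ StarSubalgebra.topologicalClosure_mono
      (StarAlgebra.adjoin_le ?_))
    rintro x (hx | ⟨g, s, hx⟩)
    · exact (le_sup_right : L ≤ K ⊔ L) (hcL (Or.inl hx))
    · by_cases hs : s ∈ P
      · exact (le_sup_left : K ≤ K ⊔ L) (hcK ⟨g, s, hs, hx⟩)
      · exact (le_sup_right : L ≤ K ⊔ L) (hcL (Or.inr ⟨g, s, hs, hx⟩))

end SlotData

end Vale.Agent.P095.Gamma
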