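import Vale.Agent.P095.Base
import Vale.Agent.P095.Gamma.Reindex
import Vale.Agent.P095.Gamma.SlotData

/-!
# P095 equivariant property Gamma: from partitions in the sequence algebra to the algebra

Infinitely many commuting slots in the sequence algebra give a slot system on the algebra generated
by them and the constants; its partitions of unity are lifted levelwise, and bounds in all traces
of the levels follow by passing to limit traces.
-/

noncomputable section

namespace Vale.Agent.P095.Gamma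

open Filter Topology BoundedContinuousFunction Vale.Agent.P101
open scoped ComplexOrder

universe u v

section Traces

variable {A : Type u} [CStarAlgebra A]

/-- Bounds in all traces of the sequence algebra hold, up to a margin, in all traces of the late
levels. -/
theorem eventually_trace_le (X : ℕ →ᵇ A) {r ε : ℝ} (hr : r < ε)
    (h : ∀ σ : SeqQuot A (atTop : Filter ℕ) →ₗ[ℂ] ℂ, IsTrace _ σ → ‖σ (seqMk A atTop X)‖ ≤ r) :
    ∀ᶠ n in atTop, ∀ τ : A →ₗ[ℂ] ℂ, IsTrace A τ → ‖τ (X n)‖ ≤ ε := by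
  by_contra hne
  set bad : Set ℕ := {n | ∃ τ : A →ₗ[ℂ] ℂ, IsTrace A τ ∧ ε < ‖τ (X n)‖} with hbad
  have hf : ∃ᶠ n in atTop, n ∈ bad := by
    rw [Filter.not_eventually] at hne
    refine hne.mono fun n hn => ?_
    push Not at hn
    exact hn
  haveI : (atTop ⊓ 𝓟 bad).NeBot := inf_principal_neBot_iff.2 fun U hU =>
    (hf.and_eventually hU).exists.imp fun x hx => ⟨hx.2, hx.1⟩
  obtain ⟨U, hU⟩ := Ultrafilter.exists_le (atTop ⊓ 𝓟 bad)
  have hUtop : (U : Filter ℕ) ≤ atTop := hU.trans inf_le_left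
  have hUbad : ∀ᶠ n in (U : Filter ℕ), n ∈ bad :=
    (hU.trans inf_le_right) (mem_principal_self _)
  obtain ⟨N, τ₀, hτ₀, -⟩ := hUbad.exists
  classical
  let τ : ℕ → (A →ₗ[ℂ] ℂ) := fun n => if hn : n ∈ bad then hn.choose else τ₀
  have hτ : ∀ n, IsTrace A (τ n) := fun n => by
    simp only [τ]; split_ifs with hn
    · exact hn.choose_spec.1
    · exact hτ₀
  have hbig : ∀ᶠ n in (U : Filter ℕ), ε < ‖τ n (X n)‖ := hUbad.mono fun n hn => by
    simp only [τ, dif_pos hn]; exact hn.choose_spec.2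
  have hlim : ∀ f : ℕ →ᵇ A, ∃ c, Tendsto (fun n => τ n (f n)) U (𝓝 c) := fun f => by
    obtain ⟨c, -, hc⟩ := (isCompact_closedBall (0 : ℂ) ‖f‖).ultrafilter_le_nhds
      (U.map fun n => τ n (f n)) (le_principal_iff.2 (Filter.mem_map.2
        (Eventually.of_forall fun n => by
          simpa using ((hτ n).norm_map_le_norm _).trans (f.norm_coe_le_norm n))))
    exact ⟨c, hc⟩
  choose L hL using hlim
  have hwd : ∀ f g, seqMk A atTop f = seqMk A atTop g → L f = L g := by
    intro f g hfg
    refine tendsto_nhds_unique (hL f) ?_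
    have h0 : Tendsto (fun n => τ n (f n) - τ n (g n)) U (𝓝 0) := by
      refine squeeze_zero_norm (fun n => ?_) ((seqMk_eq_iff.1 hfg).mono_left hUtop)
      rw [← map_sub]
      exact (hτ n).norm_map_le_norm _
    simpa using h0.add (hL g)
  let σ' : SeqQuot A (atTop : Filter ℕ) → ℂ := fun x =>
    L (Function.surjInv seqMk_surjective x)
  have hσ : ∀ f, σ' (seqMk A atTop f) = L f := fun f =>
    hwd _ _ (Function.surjInv_eq seqMk_surjective _)
  let σ : SeqQuot A (atTop : Filter ℕ) →ₗ[ℂ] ℂ :=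
    { toFun := σ'
      map_add' := fun x y => by
        obtain ⟨f, rfl⟩ := seqMk_surjective x
        obtain ⟨g, rfl⟩ := seqMk_surjective y
        rw [← map_add, hσ, hσ, hσ]
        refine tendsto_nhds_unique (hL _) ?_
        simpa using (hL f).add (hL g)
      map_smul' := fun c x => by
        obtain ⟨f, rfl⟩ := seqMk_surjective x
        rw [← map_smul, hσ, hσ]
        refine tendsto_nhds_unique (hL _) ?_
        simpa using (hL f).const_mul c }
  have hσt : IsTrace _ σ := by
    refine ⟨fun x => ?_, ?_, fun x y => ?_⟩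
    · obtain ⟨f, rfl⟩ := seqMk_surjective x
      show (0 : ℂ) ≤ σ' (star (seqMk A atTop f) * seqMk A atTop f)
      rw [← map_star, ← map_mul, hσ, Complex.le_def]
      refine ⟨ge_of_tendsto ((Complex.continuous_re.tendsto _).comp (hL (star f * f)))
        (Eventually.of_forall fun n => (hτ n).re_nonneg (f n)), ?_⟩
      refine (tendsto_nhds_unique ((Complex.continuous_im.tendsto _).comp (hL (star f * f))) ?_).symm
      simpa [Function.comp_def, fun n => (hτ n).im_eq_zero (f n)] using tendsto_const_nhds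
    · show σ' 1 = 1
      rw [← map_one (seqMk A atTop), hσ]
      refine tendsto_nhds_unique (hL _) ?_
      simp [fun n => (hτ n).map_one]
    · obtain ⟨f, rfl⟩ := seqMk_surjective x
      obtain ⟨g, rfl⟩ := seqMk_surjective y
      show σ' (_ * _) = σ' (_ * _)
      rw [← map_mul, ← map_mul, hσ, hσ]
      refine tendsto_nhds_unique (hL _) ?_
      simpa [fun n => (hτ n).comm (f n) (g n)] using hL (g * f)
  have hle : ε ≤ ‖σ (seqMk A atTop X)‖ := by
    show ε ≤ ‖σ' (seqMk A atTop X)‖
    rw [hσ]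
    exact ge_of_tendsto (hL X).norm (hbig.mono fun n hn => hn.le)
  linarith [h σ hσt]

/-- A bound on the norm of a class bounds the late entries, up to a margin. -/
theorem eventually_norm_le (f : ℕ →ᵇ A) {r ε : ℝ} (hr : r < ε) (h : ‖seqMk A atTop f‖ ≤ r) :
    ∀ᶠ n in atTop, ‖f n‖ ≤ ε := by
  obtain ⟨y, hy, hyn⟩ := Submodule.Quotient.norm_mk_lt (S := nullSeq A atTop) (seqMk A atTop f)
    (show (0 : ℝ) < (ε - r) / 2 by linarith)
  have hd : seqMk A atTop f = seqMk A atTop y := hy.symm
  filter_upwards [(seqMk_eq_iff.1 hd).eventually (gt_mem_nhds (show (0 : ℝ) < (ε - r) / 2 by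
    linarith))] with n hn
  have h1 := norm_le_norm_sub_add (f n) (y n)
  have h2 := y.norm_coe_le_norm n
  linarith

end Traces

section Build

variable {A : Type u} [CStarAlgebra A]

/-- Constant sequences. -/
def constHom : A →⋆ₐ[ℂ] SeqQuot A (atTop : Filter ℕ) :=
  (seqMk A atTop).comp
    { toFun := fun a => BoundedContinuousFunction.const ℕ a
      map_one' := rfl
      map_mul' := fun _ _ => rfl
      map_zero' := rfl
      map_add' := fun _ _ => rfl
      commutes' := fun _ => rfl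
      map_star' := fun _ => rfl }

/-- The algebra generated by the constants and a set. -/
def bigAlg (gens : Set (SeqQuot A (atTop : Filter ℕ))) :
    StarSubalgebra ℂ (SeqQuot A (atTop : Filter ℕ)) :=
  (StarAlgebra.adjoin ℂ (Set.range constHom ∪ gens)).topologicalClosure

instance bigAlg.isClosed (gens : Set (SeqQuot A (atTop : Filter ℕ))) :
    IsClosed (bigAlg gens : Set (SeqQuot A (atTop : Filter ℕ))) :=
  StarSubalgebra.isClosed_topologicalClosure _

instance bigAlg.instCStarAlgebra (gens : Set (SeqQuot A (atTop : Filter ℕ))) :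
    CStarAlgebra (bigAlg gens) := StarSubalgebra.cstarAlgebra _

theorem subset_bigAlg (gens : Set (SeqQuot A (atTop : Filter ℕ))) :
    Set.range constHom ∪ gens ⊆ bigAlg gens := fun _ hx =>
  StarSubalgebra.le_topologicalClosure _ (StarAlgebra.subset_adjoin ℂ _ hx)

theorem adjoin_bigAlg_eq_top (gens : Set (SeqQuot A (atTop : Filter ℕ)))
    (s : Set (bigAlg gens)) (hs : ∀ x : bigAlg gens,
      (x : SeqQuot A atTop) ∈ Set.range constHom ∪ gens → x ∈ s) :
    (StarAlgebra.adjoin ℂ s).topologicalClosure = ⊤ := by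
  refine eq_top_iff.2 fun x _ => ?_
  show x ∈ closure ((StarAlgebra.adjoin ℂ s : StarSubalgebra ℂ (bigAlg gens)) : Set (bigAlg gens))
  rw [closure_subtype]
  refine closure_mono ?_ x.2
  have h : StarAlgebra.adjoin ℂ (Set.range constHom ∪ gens) ≤
      (StarAlgebra.adjoin ℂ s).map (bigAlg gens).subtype :=
    StarAlgebra.adjoin_le fun z hz =>
      ⟨⟨z, subset_bigAlg gens hz⟩, StarAlgebra.subset_adjoin ℂ _ (hs _ hz), rfl⟩
  exact h

/-- The real functional calculus of a C*-algebra. -/
def rcfc {B : Type u} [CStarAlgebra B] (f : ℝ → ℝ) (z : B) : B := cfc f z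

theorem map_rcfc {B C : Type u} [CStarAlgebra B] [CStarAlgebra C] (φ : B →⋆ₐ[ℂ] C) (f : ℝ → ℝ)
    (hf : Continuous f) {z : B} (hz : IsSelfAdjoint z) : φ (rcfc f z) = rcfc f (φ z) :=
  StarAlgHom.map_cfc (φ.restrictScalars ℝ) f z hf.continuousOn
    (AddMonoidHomClass.continuous_of_bound φ 1 fun x => by
      simpa only [one_mul] using NonUnitalStarAlgHom.norm_apply_le φ x) hz (hz.map φ)

/-- A positive cfc is a square. -/
theorem exists_cfc_eq_star_mul_self {B : Type u} [CStarAlgebra B] (f : ℝ → ℝ) (hf : Continuous f)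
    (h0 : ∀ x, 0 ≤ f x) (z : B) : ∃ b, rcfc f z = star b * b := by
  refine ⟨cfc (fun x => Real.sqrt (f x)) z, ?_⟩
  unfold rcfc
  rw [(cfc_predicate (fun x => Real.sqrt (f x)) z : IsSelfAdjoint _).star_eq, ← cfc_mul _ _ _ (by fun_prop) (by fun_prop)]
  exact cfc_congr fun t _ => (Real.mul_self_sqrt (h0 t)).symm

/-- Evaluation at a level. -/
def evalAt (n : ℕ) : (ℕ →ᵇ A) →⋆ₐ[ℂ] A where
  toFun f := f n
  map_one' := rfl
  map_mul' _ _ := rfl
  map_zero' := rfl
  map_add' _ _ := rfl
  commutes' _ := rfl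
  map_star' _ := rfl

theorem continuous_starAlgHom {B C : Type u} [CStarAlgebra B] [CStarAlgebra C] (φ : B →⋆ₐ[ℂ] C) :
    Continuous φ :=
  AddMonoidHomClass.continuous_of_bound φ 1 fun x => by
    simpa only [one_mul] using NonUnitalStarAlgHom.norm_apply_le φ x

variable {G : Type v} [Group G]

/-- Equivariant property Gamma from commuting slots in the sequence algebra. -/
theorem hasEquivariantGamma_of (hprod : ProductStatement.{u}) (hext : ExtremalStatement.{u})
    (hpart : PartitionStatement.{u, v}) [TopologicalSpace.SeparableSpace A]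
    (hdd : HasCentralDimensionDrop A) [Countable G] [DecidableEq G] (hG : IsFolnerGroup G)
    (α : G →* (A ≃⋆ₐ[ℂ] A)) : HasEquivariantGamma A α := by
  classical
  obtain ⟨y₀, v₀, hy₀, hv₀, hrel1, hrel2, hrel3⟩ := hdd
  obtain ⟨Y, rfl, hY⟩ := exists_rep_of_isCentralSeq hy₀
  obtain ⟨V, rfl, hV⟩ := exists_rep_of_isCentralSeq hv₀
  let F : G × Bool → ℕ →ᵇ A := fun p => seqComp (α p.1).toStarAlgHom (cond p.2 Y V)
  have hF : ∀ i, seqMk A atTop (F i) ∈ centSub A atTop := by
    rintro ⟨g, b⟩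
    rw [mem_centSub]
    intro a
    have hcent : seqMk A atTop (cond b Y V) ∈ centSub A atTop := by cases b <;> assumption
    refine squeeze_zero (fun n => norm_nonneg _) (fun n => ?_)
      (mem_centSub.1 hcent ((α g).symm a))
    show ‖a * α g (cond b Y V n) - α g (cond b Y V n) * a‖ ≤ _
    have h := NonUnitalStarAlgHom.norm_apply_le (α g).toStarAlgHom
      ((α g).symm a * cond b Y V n - cond b Y V n * (α g).symm a)
    simpa using h
  let R : Fin 3 → ℕ →ᵇ A :=
    ![Y * Y, star V * V - (1 - star Y * Y - Y * star Y), Y * star Y * V - V]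
  have hR : ∀ i, seqMk A atTop (R i) = 0 := by
    rw [Fin.forall_fin_succ, Fin.forall_fin_succ, Fin.forall_fin_one]
    exact ⟨seqMk_eq_zero.2 hrel1, seqMk_eq_zero.2 hrel2, seqMk_eq_zero.2 hrel3⟩
  obtain ⟨k, hkF, hkR, hkC⟩ := exists_reindex_seq F hF R hR
  let β : G → SeqQuot A (atTop : Filter ℕ) →⋆ₐ[ℂ] SeqQuot A atTop :=
    fun g => seqAct atTop (α g).toStarAlgHom
  have hβ1 : ∀ x, β 1 x = x := fun x => by
    obtain ⟨f, rfl⟩ := seqMk_surjective x
    show seqMk A atTop (seqComp (α 1).toStarAlgHom f) = _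
    congr 1
    ext n
    simp
  have hβmul : ∀ g h x, β (g * h) x = β g (β h x) := fun g h x => by
    obtain ⟨f, rfl⟩ := seqMk_surjective x
    show seqMk A atTop (seqComp (α (g * h)).toStarAlgHom f) =
      seqMk A atTop (seqComp (α g).toStarAlgHom (seqComp (α h).toStarAlgHom f))
    congr 1
    ext n
    simp
  let ys : ℕ → SeqQuot A (atTop : Filter ℕ) := fun s => reMk (k s) Y
  let vs : ℕ → SeqQuot A (atTop : Filter ℕ) := fun s => reMk (k s) V
  have hy : ∀ g s, β g (ys s) = reMk (k s) (F (g, true)) := fun g s => rfl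
  have hv : ∀ g s, β g (vs s) = reMk (k s) (F (g, false)) := fun g s => rfl
  let gens : Set (SeqQuot A (atTop : Filter ℕ)) := {x | ∃ g s, β g (ys s) = x ∨ β g (vs s) = x}
  have hβconst : ∀ g a, β g (constHom a) = constHom (α g a) := fun g a => rfl
  have hβpres : ∀ g, ∀ x : bigAlg gens, β g x ∈ bigAlg gens := by
    rintro g ⟨x, hx⟩
    have hle : StarAlgebra.adjoin ℂ (Set.range constHom ∪ gens) ≤
        (bigAlg gens).comap (β g) := by
      refine StarAlgebra.adjoin_le ?_
      rintro _ (⟨a, rfl⟩ | ⟨h, s, rfl | rfl⟩) <;> show β g _ ∈ bigAlg gens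
      · rw [hβconst]; exact subset_bigAlg gens (Or.inl ⟨_, rfl⟩)
      · rw [← hβmul]; exact subset_bigAlg gens (Or.inr ⟨g * h, s, Or.inl rfl⟩)
      · rw [← hβmul]; exact subset_bigAlg gens (Or.inr ⟨g * h, s, Or.inr rfl⟩)
    exact (bigAlg.isClosed gens).closure_subset
      (map_mem_closure (continuous_starAlgHom (β g)) hx hle)
  let act : G → bigAlg gens →⋆ₐ[ℂ] bigAlg gens := fun g =>
    StarAlgHom.codRestrict ((β g).comp (bigAlg gens).subtype) (bigAlg gens) (hβpres g)
  let cst : A →⋆ₐ[ℂ] bigAlg gens :=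
    StarAlgHom.codRestrict constHom (bigAlg gens) fun a => subset_bigAlg gens (Or.inl ⟨a, rfl⟩)
  have hmem1 : ∀ s, ys s ∈ bigAlg gens := fun s =>
    subset_bigAlg gens (Or.inr ⟨1, s, Or.inl (hβ1 _)⟩)
  have hmem2 : ∀ s, vs s ∈ bigAlg gens := fun s =>
    subset_bigAlg gens (Or.inr ⟨1, s, Or.inr (hβ1 _)⟩)
  let D : SlotData (bigAlg gens) G :=
    { act := act
      act_one := fun x => Subtype.ext (hβ1 _)
      act_mul := fun g h x => Subtype.ext (hβmul g h _)
      base := cst.range
      act_base := by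
        rintro g _ ⟨a, rfl⟩
        exact ⟨α g a, Subtype.ext (hβconst g a).symm⟩
      y := fun s => ⟨ys s, hmem1 s⟩
      v := fun s => ⟨vs s, hmem2 s⟩
      sq := fun s => Subtype.ext (by
        show reMk (k s) Y * reMk (k s) Y = 0
        rw [← map_mul]; exact hkR s 0)
      sum := fun s => Subtype.ext (by
        show star (reMk (k s) V) * reMk (k s) V =
          1 - star (reMk (k s) Y) * reMk (k s) Y - reMk (k s) Y * star (reMk (k s) Y)
        rw [← sub_eq_zero]
        simp only [← map_one (reMk (A := A) (k s)), ← map_star, ← map_mul, ← map_sub]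
        exact hkR s 1)
      keep := fun s => Subtype.ext (by
        show reMk (k s) Y * star (reMk (k s) Y) * reMk (k s) V = reMk (k s) V
        rw [← sub_eq_zero]
        simp only [← map_star, ← map_mul, ← map_sub]
        exact hkR s 2)
      comm := fun s t hst g h => by
        have c1 := hkC s t hst (g, true) (h, true)
        have c2 := hkC s t hst (g, true) (h, false)
        have c3 := hkC s t hst (g, false) (h, false)
        exact ⟨⟨Subtype.ext c1.1, Subtype.ext c1.2⟩, ⟨Subtype.ext c2.1, Subtype.ext c2.2⟩,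
          ⟨Subtype.ext c3.1, Subtype.ext c3.2⟩⟩
      comm_base := by
        rintro g s _ ⟨a, rfl⟩
        have h1 := ((StarSubalgebra.mem_centralizer_iff ℂ).1 (hkF s (g, true)) _
          ⟨a, rfl⟩).1
        have h2 := ((StarSubalgebra.mem_centralizer_iff ℂ).1 (hkF s (g, false)) _
          ⟨a, rfl⟩).1
        exact ⟨Subtype.ext h1.symm, Subtype.ext h2.symm⟩
      dense := adjoin_bigAlg_eq_top gens _ (by
        rintro x (⟨a, ha⟩ | ⟨g, s, hx | hx⟩)
        · exact Or.inl ⟨a, Subtype.ext ha⟩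
        · exact Or.inr ⟨g, s, Or.inl (Subtype.ext hx)⟩
        · exact Or.inr ⟨g, s, Or.inr (Subtype.ext hx)⟩) }
  intro m hm ε hε T S
  set C : ℝ := 2 * (1 + ∑ a ∈ S, ‖a‖) with hC
  have hsum0 : 0 ≤ ∑ a ∈ S, ‖a‖ := Finset.sum_nonneg fun a _ => norm_nonneg a
  have hC0 : 0 < C := by rw [hC]; linarith
  set ε₀ := ε / C with hε₀
  have hε₀0 : 0 < ε₀ := div_pos hε hC0
  have hεC : ε₀ * C = ε := div_mul_cancel₀ ε hC0.ne'
  have hεlt : ε₀ < ε := by rw [hC] at hεC; nlinarith
  have hεa : ∀ a ∈ S, ε₀ * ‖a‖ < ε := fun a ha => by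
    have := Finset.single_le_sum (fun b _ => norm_nonneg b) ha
    rw [hC] at hεC
    nlinarith
  obtain ⟨Z, hZgen, hZsa, f, hfc, hf0, hf1, hfinv, hfgood⟩ :=
    hpart (bigAlg gens) G hG D.toSystem m hm ε₀ hε₀0 T
  obtain ⟨Z₁, hZ₁⟩ := seqMk_surjective (Z : SeqQuot A atTop)
  let W : ℕ →ᵇ A := (2⁻¹ : ℂ) • (Z₁ + star Z₁)
  have hWsa : IsSelfAdjoint W := by
    show star W = W
    simp [W, add_comm]
  have hWmk : seqMk A atTop W = (Z : SeqQuot A atTop) := by
    have hZs : star (Z : SeqQuot A atTop) = (Z : SeqQuot A atTop) := congrArg Subtype.val hZsa.star_eq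
    simp only [W, map_smul, map_add, map_star, hZ₁, hZs]
    rw [← two_smul ℂ (Z : SeqQuot A atTop), smul_smul]
    norm_num
  let P : Fin m → ℕ →ᵇ A := fun i => rcfc (f i) W
  let p : Fin m → bigAlg gens := fun i => rcfc (f i) Z
  have hPmk : ∀ i, seqMk A atTop (P i) = (p i : SeqQuot A atTop) := fun i => by
    show seqMk A atTop (rcfc (f i) W) = (bigAlg gens).subtype (rcfc (f i) Z)
    rw [map_rcfc (seqMk A atTop) (f i) (hfc i) hWsa, map_rcfc (bigAlg gens).subtype (f i) (hfc i) hZsa,
      hWmk]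
    rfl
  have hPn : ∀ i n, P i n = rcfc (f i) (W n) := fun i n =>
    map_rcfc (evalAt n) (f i) (hfc i) hWsa
  have hgood : ∀ (x : bigAlg gens) (r : ℝ),
      (∀ σ, D.toSystem.Good σ → ‖σ x‖ ≤ r) →
      ∀ τ : SeqQuot A (atTop : Filter ℕ) →ₗ[ℂ] ℂ, IsTrace _ τ → ‖τ (x : SeqQuot A atTop)‖ ≤ r := by
    intro x r hx τ hτ
    refine hext (bigAlg gens) x r (fun σ hσ => hx σ (D.good_of_extremal hprod hσ))
      (τ.comp (bigAlg gens).subtype.toAlgHom.toLinearMap) ?_
    exact ⟨fun b => hτ.nonneg (b : SeqQuot A atTop), hτ.map_one,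
      fun b c => hτ.comm (b : SeqQuot A atTop) c⟩
  -- centrality
  have hcentral : ∀ i, seqMk A atTop (P i) ∈ centSub A atTop := by
    intro i
    rw [hPmk]
    have hpg : p i ∈ D.toSystem.gen Set.univ := by
      haveI : IsClosed (D.toSystem.gen Set.univ : Set (bigAlg gens)) :=
        StarSubalgebra.isClosed_topologicalClosure _
      exact cfc_mem (𝕜' := ℂ) (f i) hZgen
    have hle : D.toSystem.gen Set.univ ≤ (centSub A atTop).comap (bigAlg gens).subtype := by
      refine StarSubalgebra.topologicalClosure_minimal (StarAlgebra.adjoin_le ?_)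
        ((centSub.isClosed (A := A)).preimage continuous_subtype_val)
      rintro _ ⟨g, s, -, rfl⟩
      show ((act g (dropElem (D.y s)) : bigAlg gens) : SeqQuot A atTop) ∈ centSub A atTop
      rw [map_dropElem]
      exact sub_mem (mul_mem (star_mem (hkF s (g, true))) (hkF s (g, true)))
        (mul_mem (hkF s (g, true)) (star_mem (hkF s (g, true))))
    exact hle hpg
  -- the eventual conditions
  have hev1 : ∀ i, ∀ a ∈ S, ∀ᶠ n in atTop, ‖a * P i n - P i n * a‖ ≤ ε := fun i a _ =>
    (((mem_centSub.1 (hcentral i)) a).eventually (gt_mem_nhds hε)).mono fun n hn => hn.le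
  have hev2 : ∀ i, ∀ g ∈ T, ∀ᶠ n in atTop, ‖α g (P i n) - P i n‖ ≤ ε := by
    intro i g hg
    refine eventually_norm_le (seqComp (α g).toStarAlgHom (P i) - P i) hεlt ?_
    rw [map_sub, ← seqAct_mk, hPmk]
    exact hfinv i g hg
  have hev3 : ∀ i, ∀ a ∈ S, ∀ᶠ n in atTop, ∀ τ : A →ₗ[ℂ] ℂ, IsTrace A τ →
      ‖τ (P i n * a) - τ a / m‖ ≤ ε := by
    intro i a ha
    have h := eventually_trace_le
      (P i * BoundedContinuousFunction.const ℕ a - (m : ℂ)⁻¹ • BoundedContinuousFunction.const ℕ a)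
      (hεa a ha) (by
        intro σ hσ
        have e : seqMk A atTop (P i * BoundedContinuousFunction.const ℕ a -
            (m : ℂ)⁻¹ • BoundedContinuousFunction.const ℕ a) =
            ((p i * cst a - (m : ℂ)⁻¹ • cst a : bigAlg gens) : SeqQuot A atTop) := by
          rw [map_sub, map_mul, map_smul, hPmk]
          rfl
        rw [e]
        refine hgood _ _ (fun ρ hρ => ?_) σ hσ
        have h := (hfgood ρ hρ).1 i (cst a) ⟨a, rfl⟩
        rw [map_sub, map_smul, smul_eq_mul, inv_mul_eq_div]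
        exact h.trans (mul_le_mul_of_nonneg_left (NonUnitalStarAlgHom.norm_apply_le cst a) hε₀0.le))
    refine h.mono fun n hn τ hτ => ?_
    have := hn τ hτ
    rwa [show (P i * BoundedContinuousFunction.const ℕ a -
      (m : ℂ)⁻¹ • BoundedContinuousFunction.const ℕ a) n = P i n * a - (m : ℂ)⁻¹ • a from rfl,
      map_sub, map_smul, smul_eq_mul, inv_mul_eq_div] at this
  have hev4 : ∀ i j, i ≠ j → ∀ᶠ n in atTop, ∀ τ : A →ₗ[ℂ] ℂ, IsTrace A τ →
      ‖τ (P i n * P j n)‖ ≤ ε := by
    intro i j hij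
    refine eventually_trace_le (P i * P j) hεlt fun σ hσ => ?_
    rw [map_mul (seqMk A atTop), hPmk i, hPmk j]
    exact hgood (p i * p j) _ (fun ρ hρ => (hfgood ρ hρ).2 i j hij) σ hσ
  obtain ⟨n, hn⟩ := ((eventually_all.2 fun i => S.eventually_all.2 (hev1 i)).and
    ((eventually_all.2 fun i => T.eventually_all.2 (hev2 i)).and
    ((eventually_all.2 fun i => S.eventually_all.2 (hev3 i)).and
    (eventually_all.2 fun i => eventually_all.2 fun j =>
      Filter.eventually_imp_distrib_left.2 (hev4 i j))))).exists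
  refine ⟨fun i => P i n, fun i => ?_, ?_, hn.1, hn.2.1,
    fun τ hτ => ⟨fun i a ha => hn.2.2.1 i a ha τ hτ, fun i j hij => hn.2.2.2 i j hij τ hτ⟩⟩
  · show ∃ b, P i n = star b * b
    rw [hPn]
    exact exists_cfc_eq_star_mul_self _ (hfc i) (hf0 i) _
  · simp only [hPn, rcfc]
    rw [← cfc_sum (fun i => f i) (W n) Finset.univ (fun i _ => (hfc i).continuousOn)]
    rw [show (∑ i, f i) = fun _ => (1 : ℝ) from funext fun x => by simp [hf1 x]]
    exact cfc_const_one ℝ (W n) (hWsa.map (evalAt n))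

end Build

end Vale.Agent.P095.Gamma
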