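import Mathlib

/-!
# P095 equivariant property Gamma: shared definitions

`HasEquivariantGamma` is the finitary form of equivariant uniform property Gamma.  The proof runs in
an abstract `SlotSystem`: a unital C*-algebra generated by a base subalgebra (the constants) and
mutually commuting, translation stable slots, each containing a self-adjoint contraction which has
trace zero and uniformly positive second moment in every good trace.
-/

noncomputable section

namespace Vale.Agent.P095.Gamma

universe u v

open scoped ComplexOrder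

section Statement

variable (A : Type u) [CStarAlgebra A]

/-- A tracial state. -/
structure IsTrace (τ : A →ₗ[ℂ] ℂ) : Prop where
  nonneg : ∀ a : A, 0 ≤ τ (star a * a)
  map_one : τ 1 = 1
  comm : ∀ a b : A, τ (a * b) = τ (b * a)

/-- A Følner group: every finite set has almost invariant finite nonempty sets. -/
def IsFolnerGroup (G : Type v) [Group G] [DecidableEq G] : Prop :=
  ∀ (T : Finset G) (ε : ℝ), 0 < ε → ∃ F : Finset G, F.Nonempty ∧
    ∀ g ∈ T, ((symmDiff (F.image (g * ·)) F).card : ℝ) ≤ ε * F.card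

/-- Equivariant uniform property Gamma: for every `k`, almost central, almost invariant positive
partitions of unity with `k` members, almost orthogonal and independent of given elements in all
tracial states. -/
def HasEquivariantGamma {G : Type v} [Group G] (α : G →* (A ≃⋆ₐ[ℂ] A)) : Prop :=
  ∀ k : ℕ, 0 < k → ∀ ε : ℝ, 0 < ε → ∀ (T : Finset G) (S : Finset A),
    ∃ p : Fin k → A, (∀ i, ∃ b : A, p i = star b * b) ∧ ∑ i, p i = 1 ∧
      (∀ i, ∀ a ∈ S, ‖a * p i - p i * a‖ ≤ ε) ∧ (∀ i, ∀ g ∈ T, ‖α g (p i) - p i‖ ≤ ε) ∧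
      ∀ τ : A →ₗ[ℂ] ℂ, IsTrace A τ →
        (∀ i, ∀ a ∈ S, ‖τ (p i * a) - τ a / k‖ ≤ ε) ∧ ∀ i j, i ≠ j → ‖τ (p i * p j)‖ ≤ ε

end Statement

section Abstract

/-- A tracial state admitting no other tracial state below a positive multiple of it. -/
structure IsExtremalTrace (B : Type u) [CStarAlgebra B] (τ : B →ₗ[ℂ] ℂ) : Prop
    extends IsTrace B τ where
  eq_of_le : ∀ (σ : B →ₗ[ℂ] ℂ) (c : ℝ), IsTrace B σ → 0 < c →
    (∀ b : B, (c : ℂ) * σ (star b * b) ≤ τ (star b * b)) → σ = τ

variable (B : Type u) [CStarAlgebra B] (G : Type v) [Group G]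

/-- Mutually commuting slots stable under an action, commuting with a base subalgebra. -/
structure SlotSystem where
  /-- The action. -/
  act : G → B →⋆ₐ[ℂ] B
  act_one : ∀ x, act 1 x = x
  act_mul : ∀ g k x, act (g * k) x = act g (act k x)
  /-- The base subalgebra. -/
  base : StarSubalgebra ℂ B
  act_base : ∀ g, ∀ a ∈ base, act g a ∈ base
  /-- The distinguished element of each slot. -/
  h : ℕ → B
  h_sa : ∀ s, star (h s) = h s
  h_norm : ∀ s, ‖h s‖ ≤ 1
  comm : ∀ g k s t, s ≠ t → Commute (act g (h s)) (act k (h t))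
  comm_base : ∀ g s, ∀ a ∈ base, Commute (act g (h s)) a

variable {B G}

/-- The closed algebra of the translates of the slots in `P`. -/
def SlotSystem.gen (S : SlotSystem B G) (P : Set ℕ) : StarSubalgebra ℂ B :=
  (StarAlgebra.adjoin ℂ {x | ∃ g, ∃ s ∈ P, S.act g (S.h s) = x}).topologicalClosure

/-- The same together with the base. -/
def SlotSystem.genBase (S : SlotSystem B G) (P : Set ℕ) : StarSubalgebra ℂ B :=
  (StarAlgebra.adjoin ℂ ((S.base : Set B) ∪ {x | ∃ g, ∃ s ∈ P, S.act g (S.h s) = x})).topologicalClosure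

/-- A trace in which disjoint sets of slots and the base are independent, and every translate of
every slot element has mean zero and second moment at least `2/9`. -/
structure SlotSystem.Good (S : SlotSystem B G) (τ : B →ₗ[ℂ] ℂ) : Prop where
  trace : IsTrace B τ
  indep : ∀ (P : Set ℕ), ∀ d ∈ S.gen P, ∀ e ∈ S.genBase Pᶜ, τ (d * e) = τ d * τ e
  mean : ∀ g s, τ (S.act g (S.h s)) = 0
  var : ∀ g s, (2 / 9 : ℝ) ≤ (τ (S.act g (S.h s) * S.act g (S.h s))).re

/-- The `L²`-seminorm of a trace. -/
def l2 (τ : B →ₗ[ℂ] ℂ) (a : B) : ℝ := Real.sqrt (τ (star a * a)).re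

/-- The slots of pool `i` with `M` members. -/
def pool (i M : ℕ) : Set ℕ := {n | ∃ s < M, n = Nat.pair i s}

/-- The slots of the pools in `I`. -/
def poolUnion (I : Set ℕ) : Set ℕ := {n | (Nat.unpair n).1 ∈ I}

/-- The normalised sum over a pool of the translates by `g`. -/
def SlotSystem.poolSum (S : SlotSystem B G) (i M : ℕ) (g : G) : B :=
  ((1 / Real.sqrt M : ℝ) : ℂ) • ∑ s ∈ Finset.range M, S.act g (S.h (Nat.pair i s))

end Abstract

end Vale.Agent.P095.Gamma
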