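import Vale.Agent.P095.Gamma.Defs

/-!
# P095 equivariant property Gamma: statements of the modules

See notes/P095_gamma_helper21.md.  Each statement is proved in the file named in its docstring.
-/

noncomputable section

namespace Vale.Agent.P095.Gamma

universe u v

open scoped symmDiff

/-- `Product.lean`: an extremal trace is multiplicative on two commuting generating subalgebras. -/
def ProductStatement : Prop :=
  ∀ (B : Type u) [CStarAlgebra B] (τ : B →ₗ[ℂ] ℂ), IsExtremalTrace B τ →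
    ∀ D E : StarSubalgebra ℂ B, (∀ d ∈ D, ∀ e ∈ E, Commute d e) →
      (D ⊔ E).topologicalClosure = ⊤ → ∀ d ∈ D, ∀ e ∈ E, τ (d * e) = τ d * τ e

/-- `Product.lean`: linear bounds pass from extremal traces to all traces. -/
def ExtremalStatement : Prop :=
  ∀ (B : Type u) [CStarAlgebra B] (x : B) (r : ℝ),
    (∀ σ : B →ₗ[ℂ] ℂ, IsExtremalTrace B σ → ‖σ x‖ ≤ r) →
      ∀ τ : B →ₗ[ℂ] ℂ, IsTrace B τ → ‖τ x‖ ≤ r

/-- The quadratic form of a list of translates in a pool. -/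
def poolVar {B : Type u} [CStarAlgebra B] {G : Type v} [Group G] (S : SlotSystem B G) (i M : ℕ)
    {n : ℕ} (g : Fin n → G) (w : Fin n → ℝ) : B :=
  ((1 / M : ℝ) : ℂ) • ∑ s ∈ Finset.range M,
    (∑ j, (w j : ℂ) • S.act (g j) (S.h (Nat.pair i s))) *
      (∑ j, (w j : ℂ) • S.act (g j) (S.h (Nat.pair i s)))

/-- The product of the exponentials of a list of translates of a pool sum. -/
def poolWord {B : Type u} [CStarAlgebra B] {G : Type v} [Group G] (S : SlotSystem B G) (i M : ℕ)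
    {n : ℕ} (g : Fin n → G) (w : Fin n → ℝ) : B :=
  (List.ofFn fun j => NormedSpace.exp ((Complex.I * (w j : ℂ)) • S.poolSum i M (g j))).prod

/-- `Pool.lean`: the value of a word in a pool is `exp (-Q/2)`, and an element estimates it. -/
def PoolStatement : Prop :=
  ∀ (n : ℕ) (R ε : ℝ), 0 < ε → ∃ M₀ : ℕ, 0 < M₀ ∧ ∀ (B : Type u) [CStarAlgebra B] (G : Type v)
    [Group G] (S : SlotSystem B G) (M : ℕ), M₀ ≤ M → ∀ (i : ℕ) (g : Fin n → G) (w : Fin n → ℝ),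
      (∀ j, |w j| ≤ R) → ∃ e ∈ S.gen (pool i M), star e = e ∧ ‖e‖ ≤ 1 ∧
        ∀ τ : B →ₗ[ℂ] ℂ, S.Good τ →
          ‖τ (poolWord S i M g w) - Complex.exp (-(τ (poolVar S i M g w)) / 2)‖ ≤ ε ∧
          l2 τ (e - τ (poolWord S i M g w) • (1 : B)) ≤ ε

/-- `Eta.lean`: almost invariant self-adjoint elements of uniformly positive variance with an
element estimating their mean. -/
def EtaStatement : Prop :=
  ∀ (B : Type u) [CStarAlgebra B] (G : Type v) [Group G] [DecidableEq G] (S : SlotSystem B G)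
    (F : Finset G), F.Nonempty → ∃ H : ℝ, ∀ δ : ℝ, 0 < δ → ∀ i₀ : ℕ,
      ∃ i₁, i₀ ≤ i₁ ∧ ∃ η a : B, η ∈ S.gen (poolUnion (Set.Ico i₀ i₁)) ∧
        a ∈ S.gen (poolUnion (Set.Ico i₀ i₁)) ∧ star η = η ∧ star a = a ∧ ‖η‖ ≤ H ∧
        ∀ τ : B →ₗ[ℂ] ℂ, S.Good τ →
          l2 τ (a - τ η • (1 : B)) ≤ δ ∧ (τ (η * η)).re ≤ 2 ∧
          1 / 2 ≤ (τ (η * η)).re - (τ η).re ^ 2 ∧
          ∀ g : G, l2 τ (S.act g η - η) ^ 2 ≤
            ((F.image (g * ·) ∆ F).card : ℝ) / F.card + δ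

/-- `Variance.lean`: bounded elements, almost invariant in norm, of uniformly positive variance. -/
def VarianceStatement : Prop :=
  ∀ (B : Type u) [CStarAlgebra B] (G : Type v) [Group G] [DecidableEq G], IsFolnerGroup G →
    ∀ (S : SlotSystem B G) (T : Finset G) (ε : ℝ), 0 < ε → ∀ i₀ : ℕ,
      ∃ i₁, i₀ ≤ i₁ ∧ ∃ b ∈ S.gen (poolUnion (Set.Ico i₀ i₁)), star b = b ∧ ‖b‖ ≤ 5 ∧
        (∀ g ∈ T, ‖S.act g b - b‖ ≤ ε) ∧
        ∀ τ : B →ₗ[ℂ] ℂ, S.Good τ → 1 / 40 ≤ (τ (b * b)).re - (τ b).re ^ 2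

/-- `Phase.lean`: almost invariant partitions of unity, independent of the base. -/
def PartitionStatement : Prop :=
  ∀ (B : Type u) [CStarAlgebra B] (G : Type v) [Group G] [DecidableEq G], IsFolnerGroup G →
    ∀ (S : SlotSystem B G) (k : ℕ), 0 < k → ∀ (ε : ℝ), 0 < ε → ∀ (T : Finset G),
      ∃ Z ∈ S.gen Set.univ, IsSelfAdjoint Z ∧ ∃ f : Fin k → ℝ → ℝ,
        (∀ i, Continuous (f i)) ∧ (∀ i x, 0 ≤ f i x) ∧ (∀ x, ∑ i, f i x = 1) ∧
        (∀ i, ∀ g ∈ T, ‖S.act g (cfc (f i) Z) - cfc (f i) Z‖ ≤ ε) ∧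
        ∀ τ : B →ₗ[ℂ] ℂ, S.Good τ →
          (∀ i, ∀ a ∈ S.base, ‖τ (cfc (f i) Z * a) - τ a / k‖ ≤ ε * ‖a‖) ∧
          ∀ i j, i ≠ j → ‖τ (cfc (f i) Z * cfc (f j) Z)‖ ≤ ε

end Vale.Agent.P095.Gamma
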