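import Vale.Agent.P095.Gamma.L2
import Vale.Agent.P095.Gamma.Specs

/-!
# P095 equivariant property Gamma: extremal traces

An extremal trace is multiplicative on two commuting generating subalgebras: the point of the unit
interval of one algebra closest in `L²` to a given element of the other one is central, hence a
scalar by extremality.  Linear bounds pass from extremal traces to all traces by Krein–Milman.
-/

noncomputable section

namespace Vale.Agent.P095.Gamma

universe u

open Filter Topology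
open scoped ComplexOrder

variable {B : Type u} [CStarAlgebra B] {τ : B →ₗ[ℂ] ℂ}

/-- The self-adjoint elements of `D` within distance one half of one half. -/
def unitInterval' (D : StarSubalgebra ℂ B) : Set B :=
  {a | a ∈ D ∧ star a = a ∧ ‖a - (1 / 2 : ℂ) • (1 : B)‖ ≤ 1 / 2}

variable {D : StarSubalgebra ℂ B}

theorem scalar_mem_unitInterval (hn : ‖(1 : B)‖ ≤ 1) {t : ℝ} (h0 : 0 ≤ t) (h1 : t ≤ 1) :
    (t : ℂ) • (1 : B) ∈ unitInterval' D := by
  refine ⟨D.smul_mem (one_mem D) _, by simp [star_smul], ?_⟩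
  rw [← sub_smul, norm_smul, show (t : ℂ) - 1 / 2 = ((t - 1 / 2 : ℝ) : ℂ) by push_cast; ring,
    Complex.norm_real, Real.norm_eq_abs]
  exact (mul_le_of_le_one_right (abs_nonneg _) hn).trans (abs_le.2 ⟨by linarith, by linarith⟩)

theorem one_sub_mem_unitInterval {a : B} (ha : a ∈ unitInterval' D) :
    1 - a ∈ unitInterval' D := by
  refine ⟨sub_mem (one_mem D) ha.1, by simp [ha.2.1], ?_⟩
  rw [show (1 : B) - a - (1 / 2 : ℂ) • (1 : B) = -(a - (1 / 2 : ℂ) • (1 : B)) by module, norm_neg]
  exact ha.2.2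

theorem combo_mem_unitInterval {a b : B} (ha : a ∈ unitInterval' D) (hb : b ∈ unitInterval' D)
    {s : ℝ} (h0 : 0 ≤ s) (h1 : s ≤ 1) :
    ((1 - s : ℝ) : ℂ) • a + (s : ℂ) • b ∈ unitInterval' D := by
  refine ⟨add_mem (D.smul_mem ha.1 _) (D.smul_mem hb.1 _), ?_, ?_⟩
  · simp [star_add, star_smul, ha.2.1, hb.2.1]
  rw [show ((1 - s : ℝ) : ℂ) • a + (s : ℂ) • b - (1 / 2 : ℂ) • (1 : B) =
    ((1 - s : ℝ) : ℂ) • (a - (1 / 2 : ℂ) • (1 : B)) + (s : ℂ) • (b - (1 / 2 : ℂ) • (1 : B)) by
      push_cast; module]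
  refine (norm_add_le _ _).trans ?_
  rw [norm_smul, norm_smul, Complex.norm_real, Complex.norm_real, Real.norm_of_nonneg h0,
    Real.norm_of_nonneg (by linarith : (0 : ℝ) ≤ 1 - s)]
  nlinarith [ha.2.2, hb.2.2, norm_nonneg (a - (1 / 2 : ℂ) • (1 : B)),
    norm_nonneg (b - (1 / 2 : ℂ) • (1 : B))]

/-- A linear map vanishing on the unit interval of a subalgebra vanishes on the subalgebra. -/
theorem eq_zero_of_unitInterval (L : B →ₗ[ℂ] ℂ) (hn : ‖(1 : B)‖ ≤ 1)
    (h : ∀ a ∈ unitInterval' D, L a = 0) {x : B} (hx : x ∈ D) : L x = 0 := by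
  have h1 : L (1 : B) = 0 := by
    have := h _ (scalar_mem_unitInterval (D := D) hn (zero_le_one (α := ℝ)) le_rfl)
    simpa using this
  have hsa : ∀ y ∈ D, star y = y → L y = 0 := by
    intro y hy hys
    set N : ℝ := 2 * (‖y‖ + 1) with hN
    have hN0 : 0 < N := by positivity
    have hm : (1 / 2 : ℂ) • (1 : B) + ((1 / N : ℝ) : ℂ) • y ∈ unitInterval' D := by
      refine ⟨add_mem (D.smul_mem (one_mem D) _) (D.smul_mem hy _),
        by simp [star_add, star_smul, hys], ?_⟩
      rw [add_sub_cancel_left, norm_smul, Complex.norm_real, Real.norm_of_nonneg (by positivity),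
        div_mul_eq_mul_div, one_mul, div_le_iff₀ hN0, hN]
      linarith [norm_nonneg y]
    have e := h _ hm
    rw [map_add, map_smul, map_smul, h1, smul_zero, zero_add, smul_eq_mul] at e
    exact (mul_eq_zero.1 e).resolve_left (by simp [hN0.ne'])
  have hd : x = (1 / 2 : ℂ) • (x + star x) +
      (-Complex.I / 2) • (Complex.I • (x - star x)) := by
    rw [smul_smul, show -Complex.I / 2 * Complex.I = 1 / 2 by
      rw [div_mul_eq_mul_div, neg_mul, Complex.I_mul_I, neg_neg]]
    module
  rw [hd, map_add, map_smul L (1 / 2 : ℂ) (x + star x),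
    map_smul L (-Complex.I / 2) (Complex.I • (x - star x)),
    hsa _ (add_mem hx (star_mem hx)) (by simp [star_add, add_comm]),
    hsa _ (D.smul_mem (sub_mem hx (star_mem hx)) _)
      (by simp only [star_smul, star_sub, star_star, Complex.star_def, Complex.conj_I]; module)]
  simp

namespace IsTrace

variable (hτ : IsTrace B τ)
include hτ

theorem norm_one_le : ‖(1 : B)‖ ≤ 1 := by
  have : Nontrivial B := nontrivial_of_ne (1 : B) 0 fun h => by simpa [h] using hτ.map_one
  exact CStarRing.norm_one.le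

theorem parallelogram (x y : B) :
    l2 τ (x + y) ^ 2 + l2 τ (x - y) ^ 2 = 2 * l2 τ x ^ 2 + 2 * l2 τ y ^ 2 := by
  simp only [hτ.l2_sq, star_add, star_sub, add_mul, mul_add, sub_mul, mul_sub, map_add, map_sub,
    Complex.add_re, Complex.sub_re]
  ring

/-- A trace weighted by an element of the unit interval is nonnegative. -/
theorem weighted_re_nonneg {a : B} (ha : a ∈ unitInterval' D) (x : B) :
    0 ≤ (τ (a * (star x * x))).re ∧ (τ (a * (star x * x))).im = 0 := by
  refine ⟨?_, ?_⟩
  · set h := a - (1 / 2 : ℂ) • (1 : B) with hh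
    have ea : a = h + (1 / 2 : ℂ) • (1 : B) := by rw [hh]; abel
    have e : τ (h * (star x * x)) = τ (star (star x) * (h * star x)) := by
      rw [star_star, ← mul_assoc x h (star x), hτ.comm (x * h) (star x), ← mul_assoc (star x) x h,
        hτ.comm (star x * x) h]
    have hb := (hτ.norm_map_mul_le (star x) (h * star x)).trans
      (mul_le_mul_of_nonneg_left ((hτ.l2_mul_le h (star x)).trans
        (mul_le_mul_of_nonneg_right ha.2.2 (hτ.l2_nonneg _))) (hτ.l2_nonneg _))
    rw [← e, hτ.l2_star] at hb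
    have hr := (Complex.abs_re_le_norm _).trans hb
    rw [ea, add_mul, smul_mul_assoc, one_mul, map_add, map_smul, Complex.add_re, smul_eq_mul,
      Complex.mul_re, hτ.im_eq_zero]
    norm_num
    nlinarith [abs_le.1 hr, hτ.l2_sq x]
  · have h := hτ.map_star (a * (star x * x))
    rw [star_mul, star_mul, star_star, ha.2.1, hτ.comm (star x * x) a] at h
    have := congrArg Complex.im h
    simp only [Complex.conj_im] at this
    linarith

theorem mem_Icc_of_unitInterval {a : B} (ha : a ∈ unitInterval' D) :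
    (τ a).re ∈ Set.Icc (0 : ℝ) 1 := by
  have h0 := (hτ.weighted_re_nonneg ha 1).1
  have h1 := (hτ.weighted_re_nonneg (one_sub_mem_unitInterval ha) 1).1
  simp [hτ.map_one] at h0 h1
  exact ⟨h0, h1⟩

theorem l2_le_one {a : B} (ha : a ∈ unitInterval' D) : l2 τ a ≤ 1 := by
  refine (hτ.l2_le_norm a).trans ?_
  calc ‖a‖ = ‖(a - (1 / 2 : ℂ) • (1 : B)) + (1 / 2 : ℂ) • (1 : B)‖ := by rw [sub_add_cancel]
    _ ≤ ‖a - (1 / 2 : ℂ) • (1 : B)‖ + ‖(1 / 2 : ℂ) • (1 : B)‖ := norm_add_le _ _
    _ ≤ 1 := by
      rw [norm_smul]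
      norm_num
      linarith [ha.2.2, hτ.norm_one_le]

end IsTrace

/-- An element of a closed unital subalgebra almost commuting in `L²` with the unitaries of the
subalgebra and with a commuting generating subalgebra has asymptotically scalar weights. -/
theorem tendsto_scalar (hext : IsExtremalTrace B τ) {D E : StarSubalgebra ℂ B}
    (hD : IsClosed (D : Set B)) (hc : ∀ d ∈ D, ∀ e ∈ E, Commute d e)
    (hg : (D ⊔ E).topologicalClosure = ⊤) (a : ℕ → B) (ha : ∀ n, a n ∈ unitInterval' D)
    (hcau : ∀ n m : ℕ, l2 τ (a n - a m) ^ 2 ≤ 2 / (n + 1) + 2 / (m + 1))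
    (hu : ∀ u ∈ unitary B, u ∈ D →
      Tendsto (fun n => l2 τ (a n * u - u * a n)) atTop (𝓝 0)) :
    ∃ t ∈ Set.Icc (0 : ℝ) 1, Tendsto (fun n => l2 τ (a n - (t : ℂ) • (1 : B))) atTop (𝓝 0) := by
  have hτ := hext.toIsTrace
  let U : Set B := {b | Tendsto (fun n => l2 τ (a n * b - b * a n)) atTop (𝓝 0)}
  have hUadd : ∀ x ∈ U, ∀ y ∈ U, x + y ∈ U := fun x hx y hy => squeeze_zero
    (g := fun n => l2 τ (a n * x - x * a n) + l2 τ (a n * y - y * a n))
    (fun n => hτ.l2_nonneg _) (fun n => by
      rw [show a n * (x + y) - (x + y) * a n = (a n * x - x * a n) + (a n * y - y * a n) by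
        rw [mul_add, add_mul]; abel]
      exact hτ.l2_add_le _ _) (by simpa using Tendsto.add hx hy)
  have hUsmul : ∀ (c : ℂ), ∀ x ∈ U, c • x ∈ U := fun c x hx => by
    simpa [U, smul_mul_assoc, ← smul_sub, hτ.l2_smul] using hx.const_mul ‖c‖
  have hUone : (1 : B) ∈ U := by simp [U, hτ.l2_zero]
  have hUmul : ∀ x ∈ U, ∀ y ∈ U, x * y ∈ U := fun x hx y hy => squeeze_zero
    (g := fun n => l2 τ (a n * x - x * a n) * ‖y‖ + ‖x‖ * l2 τ (a n * y - y * a n))
    (fun n => hτ.l2_nonneg _) (fun n => by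
      rw [show a n * (x * y) - x * y * a n = (a n * x - x * a n) * y + x * (a n * y - y * a n) by
        rw [sub_mul, mul_sub, mul_assoc, mul_assoc, mul_assoc]; abel]
      exact (hτ.l2_add_le _ _).trans (add_le_add (hτ.l2_mul_le' _ _) (hτ.l2_mul_le _ _)))
    (by simpa using (Tendsto.mul_const ‖y‖ hx).add (Tendsto.const_mul ‖x‖ hy))
  have hUstar : ∀ x ∈ U, star x ∈ U := fun x hx => by
    refine Tendsto.congr (fun n => ?_) hx
    rw [← hτ.l2_star, star_sub, star_mul, star_mul, (ha n).2.1, ← hτ.l2_neg, neg_sub]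
  let W : StarSubalgebra ℂ B :=
    { carrier := U
      mul_mem' := fun {x y} hx hy => hUmul x hx y hy
      add_mem' := fun {x y} hx hy => hUadd x hx y hy
      one_mem' := hUone
      zero_mem' := by simpa using hUsmul 0 _ hUone
      algebraMap_mem' := fun c => by simpa [Algebra.algebraMap_eq_smul_one] using hUsmul c _ hUone
      star_mem' := fun {x} hx => hUstar x hx }
  have hW : IsClosed (W : Set B) := by
    refine isClosed_of_closure_subset fun b hb => ?_
    show Tendsto _ _ _
    rw [Metric.tendsto_atTop]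
    intro ε hε
    obtain ⟨y, hy, hby⟩ := Metric.mem_closure_iff.1 hb (ε / 4) (by linarith)
    obtain ⟨N, hN⟩ := Metric.tendsto_atTop.1 (show Tendsto _ _ _ from hy) (ε / 4) (by linarith)
    refine ⟨N, fun n hn => ?_⟩
    have h := hN n hn
    rw [Real.dist_eq, sub_zero, abs_of_nonneg (hτ.l2_nonneg _)] at h ⊢
    rw [dist_eq_norm] at hby
    have e1 : l2 τ (a n * (b - y)) ≤ ‖b - y‖ := (hτ.l2_mul_le' _ _).trans
      (mul_le_of_le_one_left (norm_nonneg _) (hτ.l2_le_one (ha n)))
    have e2 : l2 τ ((b - y) * a n) ≤ ‖b - y‖ := (hτ.l2_mul_le _ _).trans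
      (mul_le_of_le_one_right (norm_nonneg _) (hτ.l2_le_one (ha n)))
    rw [show a n * b - b * a n =
      a n * (b - y) + (-((b - y) * a n)) + (a n * y - y * a n) by
        rw [mul_sub, sub_mul]; abel]
    refine (lt_of_le_of_lt ((hτ.l2_add_le _ _).trans (add_le_add_left (hτ.l2_add_le _ _) _)) ?_)
    rw [hτ.l2_neg]
    linarith
  have hDW : D ≤ W := by
    intro x hx
    let _ : CStarAlgebra D := StarSubalgebra.cstarAlgebra D (h_closed := hD)
    obtain ⟨u, c, hxu, -⟩ := CStarAlgebra.exists_sum_four_unitary (⟨x, hx⟩ : D)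
    have h : x = ∑ i, c i • ((u i : D) : B) := by
      have := congrArg (Subtype.val : D → B) hxu
      simpa using this
    rw [h]
    refine sum_mem fun i _ => W.smul_mem (hu _ ?_ (u i : D).2) _
    exact Unitary.map_mem D.subtype (u i).2
  have hEW : E ≤ W := fun x hx => by
    have : (fun n => l2 τ (a n * x - x * a n)) = fun _ => (0 : ℝ) := funext fun n => by
      rw [(hc _ (ha n).1 x hx).eq, sub_self, hτ.l2_zero]
    show Tendsto _ _ _
    rw [this]
    exact tendsto_const_nhds
  have hall : ∀ b : B, Tendsto (fun n => l2 τ (a n * b - b * a n)) atTop (𝓝 0) := fun b =>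
    show b ∈ W from StarSubalgebra.topologicalClosure_minimal (sup_le hDW hEW) hW
      (by rw [hg]; exact StarSubalgebra.mem_top)
  have hlim : ∀ b : B, ∃ z, Tendsto (fun n => τ (a n * b)) atTop (𝓝 z) := fun b => by
    refine cauchySeq_tendsto_of_complete (cauchySeq_of_le_tendsto_0
      (fun N : ℕ => Real.sqrt (4 / ((N : ℝ) + 1)) * l2 τ b) (fun n m N hn hm => ?_) ?_)
    · rw [dist_eq_norm, ← map_sub, ← sub_mul]
      have := hτ.norm_map_mul_le (a n - a m) b
      rw [star_sub, (ha n).2.1, (ha m).2.1] at this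
      refine this.trans (mul_le_mul_of_nonneg_right (Real.le_sqrt_of_sq_le ?_) (hτ.l2_nonneg _))
      refine (hcau n m).trans ?_
      rw [show (4 : ℝ) / ((N : ℝ) + 1) = 2 / ((N : ℝ) + 1) + 2 / ((N : ℝ) + 1) by ring]
      gcongr
    · have h4 : Tendsto (fun N : ℕ => (4 : ℝ) / ((N : ℝ) + 1)) atTop (𝓝 0) :=
        tendsto_const_nhds.div_atTop (tendsto_natCast_atTop_atTop.atTop_add tendsto_const_nhds)
      simpa using (h4.sqrt).mul_const (l2 τ b)
  choose ψ₀ hψ using hlim
  let ψ : B →ₗ[ℂ] ℂ :=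
    { toFun := ψ₀
      map_add' := fun x y => tendsto_nhds_unique (hψ _)
        (((hψ x).add (hψ y)).congr fun n => by simp [mul_add])
      map_smul' := fun c x => tendsto_nhds_unique (hψ _)
        (((hψ x).const_mul c).congr fun n => by simp) }
  have hcomm : ∀ x y, ψ (x * y) = ψ (y * x) := fun x y => by
    refine tendsto_nhds_unique (hψ _) ?_
    have h0 : Tendsto (fun n => τ ((a n * x - x * a n) * y)) atTop (𝓝 0) :=
      squeeze_zero_norm (fun n => (hτ.norm_map_le _).trans (hτ.l2_mul_le' _ _))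
        (by simpa using (hall x).mul_const ‖y‖)
    refine (((hψ (y * x)).add h0).congr fun n => ?_).congr' EventuallyEq.rfl |>.trans ?_
    · rw [sub_mul, map_sub, mul_assoc (a n) x y, mul_assoc x (a n) y, hτ.comm x (a n * y),
        mul_assoc (a n) y x]
      ring
    · simp [ψ]
  have hψpos : ∀ x, 0 ≤ (ψ (star x * x)).re ∧ (ψ (star x * x)).im = 0 := fun x => by
    refine ⟨ge_of_tendsto' ((Complex.continuous_re.tendsto _).comp (hψ _))
      (fun n => (hτ.weighted_re_nonneg (ha n) x).1), ?_⟩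
    exact tendsto_nhds_unique ((Complex.continuous_im.tendsto _).comp (hψ _))
      (tendsto_const_nhds.congr fun n => ((hτ.weighted_re_nonneg (ha n) x).2).symm)
  have hψle : ∀ x, (ψ (star x * x)).re ≤ (τ (star x * x)).re := fun x =>
    le_of_tendsto' ((Complex.continuous_re.tendsto _).comp (hψ _)) fun n => by
      have := (hτ.weighted_re_nonneg (one_sub_mem_unitInterval (ha n)) x).1
      rw [sub_mul, one_mul, map_sub, Complex.sub_re] at this
      simp only [Function.comp_apply]
      linarith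
  set t := (ψ 1).re with ht
  have hψone : ψ 1 = (t : ℂ) := by
    have := (hψpos 1).2
    simp only [star_one, one_mul] at this
    apply Complex.ext <;> simp [ht, this]
  have ht01 : t ∈ Set.Icc (0 : ℝ) 1 := by
    have h0 := (hψpos 1).1
    have h1 := hψle 1
    simp only [star_one, one_mul, hτ.map_one, Complex.one_re] at h0 h1
    exact ⟨h0, h1⟩
  have ht1 : (0 : ℝ) < 1 + t := by linarith [ht01.1]
  have hne : ((1 : ℂ) + t) ≠ 0 := by exact_mod_cast ht1.ne'
  let σ : B →ₗ[ℂ] ℂ := ((1 : ℂ) + t)⁻¹ • (τ + ψ)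
  have hσ : IsTrace B σ := by
    refine ⟨fun x => Complex.le_def.2 ⟨?_, ?_⟩, by
      simp [σ, hτ.map_one, hψone]; field_simp,
      fun x y => by simp [σ, hτ.comm x y, hcomm x y]⟩
    · simp only [σ, LinearMap.smul_apply, LinearMap.add_apply, smul_eq_mul]
      rw [← Complex.ofReal_one, ← Complex.ofReal_add, ← Complex.ofReal_inv, Complex.zero_re,
        Complex.re_ofReal_mul]
      exact mul_nonneg (inv_nonneg.2 ht1.le) (add_nonneg (hτ.re_nonneg x) (hψpos x).1)
    · simp only [σ, LinearMap.smul_apply, LinearMap.add_apply, smul_eq_mul]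
      rw [← Complex.ofReal_one, ← Complex.ofReal_add, ← Complex.ofReal_inv, Complex.zero_im,
        Complex.im_ofReal_mul, Complex.add_im, hτ.im_eq_zero, (hψpos x).2, add_zero, mul_zero]
  have hσle : ∀ x, (((1 + t) / 2 : ℝ) : ℂ) * σ (star x * x) ≤ τ (star x * x) := fun x => by
    simp only [σ, LinearMap.smul_apply, LinearMap.add_apply, smul_eq_mul, ← mul_assoc]
    rw [show (((1 + t) / 2 : ℝ) : ℂ) * ((1 : ℂ) + t)⁻¹ = ((1 / 2 : ℝ) : ℂ) by
      push_cast; field_simp]
    refine Complex.le_def.2 ⟨?_, ?_⟩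
    · rw [Complex.re_ofReal_mul, Complex.add_re]
      linarith [hψle x]
    · rw [Complex.im_ofReal_mul, Complex.add_im, hτ.im_eq_zero, (hψpos x).2, add_zero, mul_zero]
  have hστ := hext.eq_of_le σ ((1 + t) / 2) hσ (by linarith) hσle
  have hψτ : ∀ b, ψ b = (t : ℂ) * τ b := fun b => by
    have := LinearMap.congr_fun hστ b
    simp only [σ, LinearMap.smul_apply, LinearMap.add_apply, smul_eq_mul] at this
    field_simp at this
    linear_combination this
  refine ⟨t, ht01, ?_⟩
  have hta : Tendsto (fun n => (τ (a n)).re) atTop (𝓝 t) := by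
    have := (Complex.continuous_re.tendsto _).comp (hψ 1)
    simpa [Function.comp_def, ht, ψ] using this
  have hsq : ∀ n : ℕ, |(τ (a n * a n)).re - t * (τ (a n)).re| ≤ Real.sqrt (2 / ((n : ℝ) + 1)) := by
    intro n
    have h1 : Tendsto (fun m => (τ (a n * (a n - a m))).re) atTop
        (𝓝 ((τ (a n * a n)).re - t * (τ (a n)).re)) := by
      have h2 := ((Complex.continuous_re.tendsto _).comp (hψ (a n))).const_sub (τ (a n * a n)).re
      rw [show ψ₀ (a n) = (t : ℂ) * τ (a n) from hψτ (a n), Complex.re_ofReal_mul] at h2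
      refine h2.congr fun m => ?_
      simp only [Function.comp_apply, mul_sub, map_sub, Complex.sub_re, hτ.comm (a n) (a m)]
    have h3 : Tendsto (fun m : ℕ => Real.sqrt (2 / ((n : ℝ) + 1) + 2 / ((m : ℝ) + 1))) atTop
        (𝓝 (Real.sqrt (2 / ((n : ℝ) + 1)))) := by
      have h4 : Tendsto (fun m : ℕ => (2 : ℝ) / ((m : ℝ) + 1)) atTop (𝓝 0) :=
        tendsto_const_nhds.div_atTop (tendsto_natCast_atTop_atTop.atTop_add tendsto_const_nhds)
      simpa using (h4.const_add (2 / ((n : ℝ) + 1))).sqrt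
    refine le_of_tendsto_of_tendsto' h1.abs h3 fun m => ?_
    have h5 := hτ.norm_map_mul_le (a n) (a n - a m)
    rw [(ha n).2.1] at h5
    exact ((Complex.abs_re_le_norm _).trans h5).trans ((mul_le_of_le_one_left (hτ.l2_nonneg _)
      (hτ.l2_le_one (ha n))).trans (Real.le_sqrt_of_sq_le (hcau n m)))
  have hq : Tendsto (fun n => l2 τ (a n - (t : ℂ) • (1 : B)) ^ 2) atTop (𝓝 0) := by
    have h2 : Tendsto (fun n : ℕ => (2 : ℝ) / ((n : ℝ) + 1)) atTop (𝓝 0) :=
      tendsto_const_nhds.div_atTop (tendsto_natCast_atTop_atTop.atTop_add tendsto_const_nhds)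
    have h3 : Tendsto (fun n => (τ (a n * a n)).re - t * (τ (a n)).re) atTop (𝓝 0) :=
      squeeze_zero_norm hsq (by simpa using h2.sqrt)
    have h4 := h3.add ((hta.sub_const t).const_mul (-t))
    rw [sub_self, mul_zero, add_zero] at h4
    refine h4.congr fun n => ?_
    simp only [hτ.l2_sq, star_sub, star_smul, (ha n).2.1, star_one, sub_mul, mul_sub,
      smul_mul_assoc, one_mul, mul_smul_comm, mul_one, map_sub, map_smul, smul_eq_mul, hτ.map_one,
      Complex.star_def, Complex.conj_ofReal, Complex.sub_re, Complex.re_ofReal_mul, Complex.ofReal_re]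
    ring
  have := hq.sqrt
  simpa [Real.sqrt_sq (hτ.l2_nonneg _)] using this

/-- Independence of a subalgebra element and an element of the other unit interval. -/
theorem product_unitInterval (hext : IsExtremalTrace B τ) {D E : StarSubalgebra ℂ B}
    (hD : IsClosed (D : Set B)) (hc : ∀ d ∈ D, ∀ e ∈ E, Commute d e)
    (hg : (D ⊔ E).topologicalClosure = ⊤) {d e : B} (hd : d ∈ unitInterval' D)
    (he : e ∈ unitInterval' E) : τ (d * e) = τ d * τ e := by
  have hτ := hext.toIsTrace
  have hn := hτ.norm_one_le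
  let K := unitInterval' D
  have : Nonempty K := ⟨⟨_, hd⟩⟩
  let q : B → ℝ := fun a => l2 τ (e - a) ^ 2
  have hqb : BddBelow (Set.range fun a : K => q a) :=
    ⟨0, by rintro _ ⟨a, rfl⟩; exact sq_nonneg _⟩
  set I := ⨅ a : K, q a with hI
  have hIle : ∀ a ∈ K, I ≤ q a := fun a ha => ciInf_le hqb ⟨a, ha⟩
  have hex : ∀ n : ℕ, ∃ a : K, q a < I + 1 / ((n : ℝ) + 1) := fun n =>
    exists_lt_of_ciInf_lt (lt_add_of_pos_right _ (by positivity))
  choose a ha using hex
  have hclose : ∀ x ∈ K, ∀ y ∈ K, l2 τ (x - y) ^ 2 ≤ 2 * (q x - I) + 2 * (q y - I) := by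
    intro x hx y hy
    have h := hτ.parallelogram (e - x) (e - y)
    have hm := hIle _ (combo_mem_unitInterval hx hy (by norm_num : (0 : ℝ) ≤ 1 / 2) (by norm_num))
    simp only [q] at hm ⊢
    rw [show e - x + (e - y) = (2 : ℂ) • (e - (((1 - 1 / 2 : ℝ) : ℂ) • x +
        ((1 / 2 : ℝ) : ℂ) • y)) by push_cast; module, hτ.l2_smul,
      show e - x - (e - y) = -(x - y) by abel, hτ.l2_neg] at h
    norm_num [mul_pow] at h hm ⊢
    linarith
  have hcau : ∀ n m : ℕ, l2 τ ((a n : B) - a m) ^ 2 ≤ 2 / ((n : ℝ) + 1) + 2 / ((m : ℝ) + 1) :=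
    fun n m => by
      have := hclose _ (a n).2 _ (a m).2
      have e1 := ha n
      have e2 := ha m
      have f1 : 2 / ((n : ℝ) + 1) = 2 * (1 / ((n : ℝ) + 1)) := by ring
      have f2 : 2 / ((m : ℝ) + 1) = 2 * (1 / ((m : ℝ) + 1)) := by ring
      linarith
  have hu : ∀ u ∈ unitary B, u ∈ D →
      Tendsto (fun n => l2 τ ((a n : B) * u - u * a n)) atTop (𝓝 0) := by
    intro u hu huD
    have h1 := Unitary.star_mul_self_of_mem hu
    have h2 := Unitary.mul_star_self_of_mem hu
    have hnu : ‖u‖ ≤ 1 := by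
      have := CStarRing.norm_star_mul_self (x := u)
      rw [h1] at this
      nlinarith [norm_nonneg u]
    have hconj : ∀ x : B, l2 τ (star u * x * u) ≤ l2 τ x := fun x =>
      (hτ.l2_mul_le' _ _).trans ((mul_le_of_le_one_right (hτ.l2_nonneg _) hnu).trans
        ((hτ.l2_mul_le _ _).trans (mul_le_of_le_one_left (hτ.l2_nonneg _) (by rwa [norm_star]))))
    have hue : e = star u * e * u := by
      rw [mul_assoc, ← (hc u huD e he.1).eq, ← mul_assoc, h1, one_mul]
    have h4 : Tendsto (fun n : ℕ => Real.sqrt (4 / ((n : ℝ) + 1))) atTop (𝓝 0) := by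
      simpa using ((tendsto_const_nhds (x := (4 : ℝ))).div_atTop
        (tendsto_natCast_atTop_atTop.atTop_add tendsto_const_nhds)).sqrt
    refine squeeze_zero (fun n => hτ.l2_nonneg _) (fun n => ?_) h4
    have hbm : star u * a n * u ∈ K := by
      refine ⟨mul_mem (mul_mem (star_mem huD) (a n).2.1) huD, ?_, ?_⟩
      · simp [star_mul, (a n).2.2.1, mul_assoc]
      · rw [show star u * a n * u - (1 / 2 : ℂ) • (1 : B) =
          star u * ((a n : B) - (1 / 2 : ℂ) • (1 : B)) * u by
            rw [mul_sub, sub_mul, mul_smul_comm, smul_mul_assoc, mul_one, h1]]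
        refine (norm_mul_le _ _).trans ((mul_le_of_le_one_right (norm_nonneg _) hnu).trans ?_)
        exact (norm_mul_le _ _).trans ((mul_le_of_le_one_left (norm_nonneg _)
          (by rwa [norm_star])).trans (a n).2.2.2)
    have hqle : q (star u * a n * u) ≤ q (a n) := by
      simp only [q]
      conv_lhs => rw [hue, ← sub_mul, ← mul_sub]
      exact pow_le_pow_left₀ (hτ.l2_nonneg _) (hconj _) 2
    have hd2 := hclose _ hbm _ (a n).2
    have e1 := ha n
    have hle : l2 τ ((a n : B) * u - u * a n) ≤ l2 τ (star u * a n * u - a n) := by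
      rw [show (a n : B) * u - u * a n = u * (star u * a n * u - a n) by
        rw [mul_sub, ← mul_assoc, ← mul_assoc, h2, one_mul]]
      exact (hτ.l2_mul_le _ _).trans (mul_le_of_le_one_left (hτ.l2_nonneg _) hnu)
    refine hle.trans (Real.le_sqrt_of_sq_le ?_)
    rw [show (4 : ℝ) / ((n : ℝ) + 1) = 4 * (1 / ((n : ℝ) + 1)) by ring]
    linarith
  obtain ⟨t, ht, hat⟩ := tendsto_scalar hext hD hc hg (fun n => (a n : B)) (fun n => (a n).2)
    hcau hu
  -- the scalar attains the infimum
  have hqt : q ((t : ℂ) • (1 : B)) ≤ I := by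
    have hlim : Tendsto (fun n : ℕ => (Real.sqrt (I + 1 / ((n : ℝ) + 1)) +
        l2 τ ((a n : B) - (t : ℂ) • (1 : B))) ^ 2) atTop (𝓝 ((Real.sqrt I + 0) ^ 2)) := by
      refine (Tendsto.add ?_ hat).pow 2
      simpa using ((tendsto_one_div_add_atTop_nhds_zero_nat.const_add I)).sqrt
    rw [add_zero, Real.sq_sqrt (le_ciInf fun a => sq_nonneg _)] at hlim
    refine ge_of_tendsto' hlim fun n => ?_
    refine pow_le_pow_left₀ (hτ.l2_nonneg _) ((hτ.l2_sub_le e (a n) _).trans ?_) 2
    exact add_le_add_left (Real.le_sqrt_of_sq_le (ha n).le) _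
  have hmin : ∀ x ∈ K, q ((t : ℂ) • (1 : B)) ≤ q x := fun x hx => hqt.trans (hIle x hx)
  have hexp : ∀ (c : ℝ), q ((c : ℂ) • (1 : B)) =
      (τ (e * e)).re - 2 * c * (τ e).re + c ^ 2 := fun c => by
    simp only [q, hτ.l2_sq, star_sub, star_smul, he.2.1, star_one, sub_mul, mul_sub,
      smul_mul_assoc, one_mul, mul_smul_comm, mul_one, map_sub, map_smul, smul_eq_mul,
      hτ.map_one, Complex.star_def, Complex.conj_ofReal, Complex.sub_re, Complex.re_ofReal_mul,
      Complex.ofReal_re]
    ring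
  have hte : t = (τ e).re := by
    have h01 := hτ.mem_Icc_of_unitInterval he
    have := hmin _ (scalar_mem_unitInterval hn h01.1 h01.2)
    rw [hexp, hexp] at this
    nlinarith [sq_nonneg (t - (τ e).re)]
  have him : (τ e).im = 0 := hτ.im_of_sa he.2.1
  have himd : (τ d).im = 0 := hτ.im_of_sa hd.2.1
  have hvar : ∀ x ∈ K, (τ (x * e)).re - (τ x).re * t ≤ 0 := by
    intro x hx
    set c := (τ (x * e)).re - (τ x).re * t with hcdef
    set v := l2 τ (x - (t : ℂ) • (1 : B)) ^ 2 with hv
    have hineq : ∀ s : ℝ, 0 < s → s ≤ 1 → 2 * c ≤ s * v := by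
      intro s hs0 hs1
      have hxm : (τ (e * x)).re = (τ (x * e)).re := by rw [hτ.comm]
      have h := hmin _ (combo_mem_unitInterval (scalar_mem_unitInterval (D := D) hn ht.1 ht.2) hx
        hs0.le hs1)
      have key : q (((1 - s : ℝ) : ℂ) • ((t : ℂ) • (1 : B)) + (s : ℂ) • x) =
          q ((t : ℂ) • (1 : B)) - 2 * s * c + s ^ 2 * v := by
        simp only [q, hv, hcdef, hτ.l2_sq, star_sub, star_add, star_smul, he.2.1, hx.2.1,
          star_one, sub_mul, mul_sub, add_mul, mul_add, smul_mul_assoc, one_mul, mul_smul_comm,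
          mul_one, map_sub, map_add, map_smul, smul_eq_mul, hτ.map_one, Complex.star_def,
          Complex.conj_ofReal, Complex.sub_re, Complex.add_re, Complex.re_ofReal_mul,
          Complex.ofReal_re, hxm, ← hte]
        ring
      rw [key] at h
      by_contra hne
      push Not at hne
      nlinarith
    by_contra hpos
    push Not at hpos
    have hv0 : 0 ≤ v := sq_nonneg _
    set s := min 1 (c / (v + 1)) with hsdef
    have hs0 : 0 < s := lt_min one_pos (by positivity)
    have := hineq s hs0 (min_le_left _ _)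
    have h2 : s * (v + 1) ≤ c := by
      have := min_le_right (1 : ℝ) (c / (v + 1))
      rw [← hsdef, le_div_iff₀ (by positivity)] at this
      exact this
    nlinarith
  have h1 := hvar d hd
  have h2 := hvar _ (one_sub_mem_unitInterval hd)
  rw [sub_mul, one_mul, map_sub, map_sub, hτ.map_one, Complex.sub_re, Complex.sub_re,
    Complex.one_re, sub_mul, one_mul] at h2
  rw [← hte] at h2
  have himde : (τ (d * e)).im = 0 :=
    hτ.im_of_sa (by rw [star_mul, hd.2.1, he.2.1]; exact (hc d hd.1 e he.1).eq.symm)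
  apply Complex.ext
  · rw [Complex.mul_re, him, himd, ← hte]
    linarith
  · rw [Complex.mul_im, him, himd, himde]
    ring

theorem productStatement : ProductStatement := by
  intro B _ τ hext D E hc hg d hd e he
  have hn := hext.toIsTrace.norm_one_le
  have hc' : ∀ x ∈ D.topologicalClosure, ∀ y ∈ E, Commute x y := by
    intro x hx y hy
    refine closure_minimal (fun z hz => hc z hz y hy) ?_ hx
    exact isClosed_eq (continuous_id.mul continuous_const) (continuous_const.mul continuous_id)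
  have hg' : (D.topologicalClosure ⊔ E).topologicalClosure = ⊤ :=
    top_unique (hg ▸ StarSubalgebra.topologicalClosure_mono
      (sup_le_sup_right D.le_topologicalClosure E))
  have hk := fun (x : B) (hx : x ∈ unitInterval' D.topologicalClosure) (y : B)
      (hy : y ∈ unitInterval' E) =>
    product_unitInterval hext D.isClosed_topologicalClosure hc' hg' hx hy
  have step : ∀ y ∈ unitInterval' E, τ (d * y) = τ d * τ y := fun y hy => by
    have h0 := eq_zero_of_unitInterval (D := D.topologicalClosure)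
      (τ.comp (LinearMap.mulRight ℂ y) - τ y • τ) hn (fun x hx => by
        simp only [LinearMap.sub_apply, LinearMap.comp_apply, LinearMap.mulRight_apply,
          LinearMap.smul_apply, smul_eq_mul, hk x hx y hy]
        ring) (D.le_topologicalClosure hd)
    simp only [LinearMap.sub_apply, LinearMap.comp_apply, LinearMap.mulRight_apply,
      LinearMap.smul_apply, smul_eq_mul] at h0
    linear_combination h0
  have h0 := eq_zero_of_unitInterval (D := E) (τ.comp (LinearMap.mulLeft ℂ d) - τ d • τ) hn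
    (fun y hy => by
      simp only [LinearMap.sub_apply, LinearMap.comp_apply, LinearMap.mulLeft_apply,
        LinearMap.smul_apply, smul_eq_mul, step y hy]
      ring) he
  simp only [LinearMap.sub_apply, LinearMap.comp_apply, LinearMap.mulLeft_apply,
    LinearMap.smul_apply, smul_eq_mul] at h0
  linear_combination h0

/-- The traces, as a set of functions. -/
def traceSet (B : Type u) [CStarAlgebra B] : Set (B → ℂ) :=
  {f | (∀ a b, f (a + b) = f a + f b) ∧ (∀ (c : ℂ) a, f (c • a) = c * f a) ∧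
    (∀ a, 0 ≤ f (star a * a)) ∧ f 1 = 1 ∧ ∀ a b, f (a * b) = f (b * a)}

theorem extremalStatement : ExtremalStatement := by
  intro B _ x r hx τ hτ
  let toLin : ∀ f ∈ traceSet B, B →ₗ[ℂ] ℂ := fun f hf =>
    { toFun := f, map_add' := hf.1, map_smul' := fun c a => by simpa using hf.2.1 c a }
  have htr : ∀ f (hf : f ∈ traceSet B), IsTrace B (toLin f hf) := fun f hf =>
    ⟨hf.2.2.1, hf.2.2.2.1, hf.2.2.2.2⟩
  have hmem : ∀ σ : B →ₗ[ℂ] ℂ, IsTrace B σ → (⇑σ) ∈ traceSet B := fun σ hσ =>
    ⟨map_add σ, fun c a => by simp, hσ.nonneg, hσ.map_one, hσ.comm⟩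
  have hcl : IsClosed (traceSet B) := by
    simp only [traceSet, Set.ofPred_and, Set.ofPred_forall]
    refine .inter (isClosed_iInter fun a => isClosed_iInter fun b =>
        isClosed_eq (by fun_prop) (by fun_prop))
      (.inter (isClosed_iInter fun c => isClosed_iInter fun a =>
        isClosed_eq (by fun_prop) (by fun_prop))
      (.inter (isClosed_iInter fun a => isClosed_Ici.preimage (continuous_apply _))
      (.inter (isClosed_eq (by fun_prop) (by fun_prop)) (isClosed_iInter fun a =>
        isClosed_iInter fun b => isClosed_eq (by fun_prop) (by fun_prop)))))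
  have hcpt : IsCompact (traceSet B) :=
    (isCompact_univ_pi fun b : B => isCompact_closedBall (0 : ℂ) ‖b‖).of_isClosed_subset hcl
      fun f hf b _ => mem_closedBall_zero_iff.2 ((htr f hf).norm_map_le_norm b)
  have hconv : Convex ℝ (traceSet B) := by
    intro f hf g hg s t hs ht hst
    refine ⟨fun a b => ?_, fun c a => ?_, fun a => ?_, ?_, fun a b => ?_⟩ <;>
      simp only [Pi.add_apply, Pi.smul_apply, Complex.real_smul]
    · rw [hf.1, hg.1]; ring
    · rw [hf.2.1, hg.2.1]; ring
    · exact add_nonneg (mul_nonneg (Complex.zero_le_real.2 hs) (hf.2.2.1 a))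
        (mul_nonneg (Complex.zero_le_real.2 ht) (hg.2.2.1 a))
    · rw [hf.2.2.2.1, hg.2.2.2.1, mul_one, mul_one, ← Complex.ofReal_add, hst,
        Complex.ofReal_one]
    · rw [hf.2.2.2.2, hg.2.2.2.2]
  have hext : ∀ f ∈ (traceSet B).extremePoints ℝ, ‖f x‖ ≤ r := by
    intro f hf
    obtain ⟨hfm, hfe⟩ := mem_extremePoints.1 hf
    refine hx (toLin f hfm) { htr f hfm with eq_of_le := fun σ c hσ hc hle => ?_ }
    set s := min c (1 / 2) with hs
    have hs0 : 0 < s := lt_min hc (by norm_num)
    have hs1 : s < 1 := lt_of_le_of_lt (min_le_right _ _) (by norm_num)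
    have h1s : (0 : ℝ) ≤ (1 - s)⁻¹ := inv_nonneg.2 (by linarith)
    have hne : (1 : ℂ) - s ≠ 0 := by
      exact_mod_cast (sub_pos.2 hs1).ne'
    let ρ : B →ₗ[ℂ] ℂ := ((1 : ℂ) - s)⁻¹ • (toLin f hfm - (s : ℂ) • σ)
    have hρ : IsTrace B ρ := by
      refine ⟨fun a => ?_, ?_, fun a b => ?_⟩
      · simp only [ρ, LinearMap.smul_apply, LinearMap.sub_apply, smul_eq_mul]
        refine mul_nonneg ?_ (sub_nonneg.2 (le_trans ?_ (hle a)))
        · rw [← Complex.ofReal_one, ← Complex.ofReal_sub, ← Complex.ofReal_inv]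
          exact Complex.zero_le_real.2 h1s
        · exact mul_le_mul_of_nonneg_right (Complex.real_le_real.2 (min_le_left _ _))
            (hσ.nonneg a)
      · simp [ρ, hσ.map_one, (htr f hfm).map_one, hne]
      · simp [ρ, hσ.comm a b, (htr f hfm).comm a b]
    have hseg : f ∈ openSegment ℝ (⇑σ) (⇑ρ) := by
      refine ⟨s, 1 - s, hs0, by linarith, by ring, funext fun a => ?_⟩
      simp only [ρ, toLin, Pi.add_apply, Pi.smul_apply, Complex.real_smul, LinearMap.smul_apply,
        LinearMap.sub_apply, smul_eq_mul, LinearMap.coe_mk, AddHom.coe_mk, Complex.ofReal_sub,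
        Complex.ofReal_one]
      field_simp
      ring
    exact LinearMap.ext fun a => congrFun (hfe _ (hmem σ hσ) _ (hmem ρ hρ) hseg).1 a
  let H : Set (B → ℂ) := (fun f => f x) ⁻¹' Metric.closedBall 0 r
  have hH : closure (convexHull ℝ ((traceSet B).extremePoints ℝ)) ⊆ H := by
    refine closure_minimal (convexHull_min (fun f hf => mem_closedBall_zero_iff.2 (hext f hf)) ?_)
      (Metric.isClosed_closedBall.preimage (continuous_apply x))
    exact (convex_closedBall (0 : ℂ) r).linear_preimage (LinearMap.proj (R := ℝ) (φ := fun _ : B => ℂ) x)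
  rw [closure_convexHull_extremePoints hcpt hconv] at hH
  exact mem_closedBall_zero_iff.1 (hH (hmem τ hτ))

end Vale.Agent.P095.Gamma
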