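import Vale.Agent.P095.Gamma.L2

/-!
# P095 equivariant property Gamma: traces of square roots

Subadditivity of `τ ∘ sqrt`, a quadratic bound for `τ (sqrt (1 + u))`, and the Powers–Størmer
inequality.
-/

noncomputable section

namespace Vale.Agent.P095.Gamma

universe u

open scoped ComplexOrder

variable {B : Type u} [CStarAlgebra B] [PartialOrder B] [StarOrderedRing B] {τ : B →ₗ[ℂ] ℂ}

/-- The square root by the real functional calculus. -/
def rt (a : B) : B := cfc Real.sqrt a

theorem rt_nonneg (a : B) : 0 ≤ rt a := cfc_nonneg fun x _ => Real.sqrt_nonneg x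

omit [PartialOrder B] [StarOrderedRing B] in
theorem norm_le_of_mem_spectrum {a : B} {x : ℝ} (hx : x ∈ spectrum ℝ a) : |x| ≤ ‖a‖ := by
  rcases subsingleton_or_nontrivial B with h | h
  · simp at hx
  · exact spectrum.norm_le_norm_of_mem hx

theorem star_rt (a : B) : star (rt a) = rt a := (IsSelfAdjoint.of_nonneg (rt_nonneg a)).star_eq

theorem rt_mul_rt {a : B} (ha : 0 ≤ a) : rt a * rt a = a := by
  rw [rt, ← cfc_mul Real.sqrt Real.sqrt a]
  conv_rhs => rw [← cfc_id' ℝ a ha.isSelfAdjoint]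
  exact cfc_congr fun x hx => Real.mul_self_sqrt (spectrum_nonneg_of_nonneg ha hx)

theorem rt_eq_sqrt {a : B} (ha : 0 ≤ a) : rt a = CFC.sqrt a :=
  (CFC.sqrt_unique (rt_mul_rt ha) (rt_nonneg a)).symm

theorem rt_unique {a b : B} (h : b * b = a) (hb : 0 ≤ b) : rt a = b := by
  have ha : 0 ≤ a := by
    rw [← h]
    simpa [(IsSelfAdjoint.of_nonneg hb).star_eq] using star_mul_self_nonneg b
  rw [rt_eq_sqrt ha]
  exact CFC.sqrt_unique h hb

theorem rt_mono {a b : B} (ha : 0 ≤ a) (hab : a ≤ b) : rt a ≤ rt b := by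
  rw [rt_eq_sqrt ha, rt_eq_sqrt (ha.trans hab)]
  exact CFC.sqrt_le_sqrt a b hab

namespace IsTrace

set_option linter.unusedSectionVars false

variable (hτ : IsTrace B τ)
include hτ

theorem map_nonneg {a : B} (ha : 0 ≤ a) : 0 ≤ (τ a).re := by
  obtain ⟨b, rfl⟩ := CStarAlgebra.nonneg_iff_eq_star_mul_self.1 ha
  exact hτ.re_nonneg b

theorem map_mono {a b : B} (hab : a ≤ b) : (τ a).re ≤ (τ b).re := by
  simpa using hτ.map_nonneg (sub_nonneg.2 hab)

theorem map_mul_nonneg {a b : B} (ha : 0 ≤ a) (hb : 0 ≤ b) : 0 ≤ (τ (a * b)).re := by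
  obtain ⟨c, rfl⟩ := CStarAlgebra.nonneg_iff_eq_star_mul_self.1 ha
  rw [mul_assoc, hτ.comm]
  exact hτ.map_nonneg (star_right_conjugate_nonneg hb c)

/-- Subadditivity of `τ ∘ sqrt`. -/
theorem map_rt_add_le {a b : B} (ha : 0 ≤ a) (hb : 0 ≤ b) :
    (τ (rt (a + b))).re ≤ (τ (rt a)).re + (τ (rt b)).re := by
  refine le_of_forall_pos_le_add fun ε hε => ?_
  set d := ε ^ 2 with hd
  have hd0 : 0 < d := by positivity
  have hab : 0 ≤ a + b := add_nonneg ha hb
  -- shifted roots and their inverses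
  let sq : B → B := fun c => cfc (fun x : ℝ => Real.sqrt (x + d)) c
  let isq : B → B := fun c => cfc (fun x : ℝ => (Real.sqrt (x + d))⁻¹) c
  have hcont : ∀ c : B, 0 ≤ c →
      ContinuousOn (fun x : ℝ => (Real.sqrt (x + d))⁻¹) (spectrum ℝ c) := fun c hc =>
    ContinuousOn.inv₀ (by fun_prop) fun x hx =>
      (Real.sqrt_pos.2 (by linarith [spectrum_nonneg_of_nonneg hc hx])).ne'
  have hinv : ∀ c : B, 0 ≤ c → sq c * isq c = 1 ∧ isq c * sq c = 1 := fun c hc => by
    constructor <;>
    · simp only [sq, isq]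
      rw [← cfc_mul _ _ c (by first | exact hcont c hc | fun_prop)
        (by first | exact hcont c hc | fun_prop), ← cfc_const_one ℝ c hc.isSelfAdjoint]
      exact cfc_congr fun x hx => by
        have : Real.sqrt (x + d) ≠ 0 :=
          (Real.sqrt_pos.2 (by linarith [spectrum_nonneg_of_nonneg hc hx])).ne'
        field_simp
  have hsq : ∀ c : B, 0 ≤ c → sq c = rt (c + (d : ℂ) • (1 : B)) := fun c hc => by
    refine (rt_unique ?_ (cfc_nonneg fun x _ => Real.sqrt_nonneg _)).symm
    rw [← cfc_mul _ _ c, cfc_congr (g := fun x : ℝ => x + d) fun x hx =>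
      Real.mul_self_sqrt (by linarith [spectrum_nonneg_of_nonneg hc hx]),
      cfc_add_const d (fun x : ℝ => x) c, cfc_id' ℝ c hc.isSelfAdjoint]
    simp [Algebra.algebraMap_eq_smul_one, Complex.coe_smul]
  have hle : ∀ c : B, 0 ≤ c → c ≤ a + b → isq (a + b) ≤ isq c := fun c hc hcab =>
    CStarAlgebra.inv_le_inv (a := ⟨sq c, isq c, (hinv c hc).1, (hinv c hc).2⟩)
      (b := ⟨sq (a + b), isq (a + b), (hinv _ hab).1, (hinv _ hab).2⟩)
      (cfc_nonneg fun x _ => Real.sqrt_nonneg _) (by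
        show sq c ≤ sq (a + b)
        rw [hsq c hc, hsq _ hab]
        exact rt_mono (add_nonneg hc (by
          rw [Complex.coe_smul]; exact smul_nonneg hd0.le zero_le_one)) (by gcongr))
  have hpiece : ∀ c : B, 0 ≤ c → c ≤ a + b → (τ (c * isq (a + b))).re ≤ (τ (rt c)).re := by
    intro c hc hcab
    calc (τ (c * isq (a + b))).re ≤ (τ (c * isq c)).re := by
          have := hτ.map_mul_nonneg hc (sub_nonneg.2 (hle c hc hcab))
          rw [mul_sub, map_sub, Complex.sub_re] at this
          linarith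
      _ ≤ (τ (rt c)).re := hτ.map_mono (by
          conv_lhs => arg 1; rw [← cfc_id' ℝ c hc.isSelfAdjoint]
          simp only [isq, rt]
          rw [← cfc_mul _ _ c (by fun_prop) (hcont c hc)]
          refine cfc_mono (fun x hx => ?_) (continuousOn_id.mul (hcont c hc))
          have h0 := spectrum_nonneg_of_nonneg hc hx
          rw [mul_inv_le_iff₀ (Real.sqrt_pos.2 (by linarith))]
          calc x = Real.sqrt x * Real.sqrt x := (Real.mul_self_sqrt h0).symm
            _ ≤ Real.sqrt x * Real.sqrt (x + d) := by gcongr; linarith)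
  have h1 := hpiece a ha (le_add_of_nonneg_right hb)
  have h2 := hpiece b hb (le_add_of_nonneg_left ha)
  have h3 : (τ (isq (a + b))).re ≤ ε⁻¹ := by
    have hle1 : isq (a + b) ≤ (ε⁻¹ : ℝ) • (1 : B) := by
      rw [← Algebra.algebraMap_eq_smul_one]
      refine cfc_le_algebraMap _ _ _ (fun x hx => ?_) (hcont _ hab)
      exact inv_anti₀ hε (Real.le_sqrt_of_sq_le (by
        linarith [spectrum_nonneg_of_nonneg hab hx]))
    have := hτ.map_mono hle1
    rwa [← Complex.coe_smul, map_smul, hτ.map_one, smul_eq_mul, mul_one, Complex.ofReal_re] at this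
  have h4 : (τ (rt (a + b))).re ≤ (τ (sq (a + b))).re := hτ.map_mono (by
    simp only [sq, rt]
    exact cfc_mono fun x hx => Real.sqrt_le_sqrt (by linarith))
  have h5 : sq (a + b) = a * isq (a + b) + b * isq (a + b) + (d : ℂ) • isq (a + b) := by
    have e : sq (a + b) * sq (a + b) = a + b + (d : ℂ) • (1 : B) := by
      rw [hsq _ hab, rt_mul_rt (add_nonneg hab (by
        rw [Complex.coe_smul]; exact smul_nonneg hd0.le zero_le_one))]
    calc sq (a + b) = sq (a + b) * (sq (a + b) * isq (a + b)) := by rw [(hinv _ hab).1, mul_one]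
      _ = _ := by rw [← mul_assoc, e, add_mul, add_mul, smul_mul_assoc, one_mul]
  rw [h5, map_add, map_add, map_smul, smul_eq_mul, Complex.add_re, Complex.add_re,
    Complex.re_ofReal_mul] at h4
  have : d * (τ (isq (a + b))).re ≤ ε :=
    (mul_le_mul_of_nonneg_left h3 hd0.le).trans_eq (by rw [hd, pow_two]; field_simp)
  linarith

theorem map_rt_sum_le {ι : Type*} (s : Finset ι) (a : ι → B) (ha : ∀ i ∈ s, 0 ≤ a i) :
    (τ (rt (∑ i ∈ s, a i))).re ≤ ∑ i ∈ s, (τ (rt (a i))).re := by
  classical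
  induction s using Finset.induction_on with
  | empty => simp [rt]
  | insert i s hi ih =>
    rw [Finset.sum_insert hi, Finset.sum_insert hi]
    have h := ih fun j hj => ha j (Finset.mem_insert_of_mem hj)
    have := hτ.map_rt_add_le (ha i (Finset.mem_insert_self i s))
      (Finset.sum_nonneg fun j hj => ha j (Finset.mem_insert_of_mem hj))
    linarith

/-- A quadratic upper bound for the root of `1 + u`. -/
theorem map_rt_one_add_le {u : B} (hu : star u = u) (hn : ‖u‖ ≤ 1) :
    (τ (rt (1 + u))).re ≤ 1 + (τ u).re / 2 - (τ (u * u)).re / 16 := by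
  have hsa : IsSelfAdjoint u := hu
  have hbd : ∀ x ∈ spectrum ℝ u, |x| ≤ 1 := fun x hx =>
    (norm_le_of_mem_spectrum hx).trans hn
  have e1 : (1 + u : B) = cfc (fun x : ℝ => 1 + x) u := by
    rw [cfc_const_add 1 (fun x : ℝ => x) u, cfc_id' ℝ u, (algebraMap ℝ B).map_one]
  have e2 : rt (1 + u) = cfc (fun x : ℝ => Real.sqrt (1 + x)) u := by
    rw [rt, e1, ← cfc_comp' Real.sqrt (fun x : ℝ => 1 + x) u]
  have e3 : cfc (fun x : ℝ => 1 + (1 / 2 * x - 1 / 16 * (x * x))) u =
      1 + ((1 / 2 : ℝ) • u - (1 / 16 : ℝ) • (u * u)) := by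
    rw [cfc_const_add 1 (fun x : ℝ => 1 / 2 * x - 1 / 16 * (x * x)) u, (algebraMap ℝ B).map_one,
      cfc_sub (fun x : ℝ => 1 / 2 * x) (fun x : ℝ => 1 / 16 * (x * x)) u,
      cfc_const_mul (1 / 2) (fun x : ℝ => x) u, cfc_const_mul (1 / 16) (fun x : ℝ => x * x) u,
      cfc_mul (fun x : ℝ => x) (fun x : ℝ => x) u, cfc_id' ℝ u]
  have h := hτ.map_mono (a := rt (1 + u)) (b := 1 + ((1 / 2 : ℝ) • u - (1 / 16 : ℝ) • (u * u))) (by
    rw [e2, ← e3]
    refine cfc_mono fun x hx => ?_
    have hx1 := abs_le.1 (hbd x hx)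
    refine Real.sqrt_le_iff.2 ⟨by nlinarith, ?_⟩
    nlinarith [mul_nonneg (mul_self_nonneg x) (sub_nonneg.2 hx1.2),
      mul_nonneg (mul_self_nonneg x) (mul_self_nonneg x)])
  simp only [← Complex.coe_smul, map_add, map_sub, map_smul, smul_eq_mul, Complex.add_re,
    Complex.sub_re, Complex.re_ofReal_mul, hτ.map_one, Complex.one_re] at h
  linarith

theorem abs_map_mul_le {g p : B} (hg : star g = g) (hn : ‖g‖ ≤ 1) (hp : 0 ≤ p) :
    |(τ (g * p)).re| ≤ (τ p).re := by
  have hsa : IsSelfAdjoint g := hg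
  have hb : ∀ x ∈ spectrum ℝ g, |x| ≤ 1 := fun x hx =>
    (norm_le_of_mem_spectrum hx).trans hn
  have h1 : 0 ≤ 1 - g := by
    rw [sub_nonneg]
    conv_lhs => rw [← cfc_id' ℝ g hsa]
    exact cfc_le_one _ _ fun x hx => (abs_le.1 (hb x hx)).2
  have h2 : 0 ≤ 1 + g := by
    rw [← neg_le_iff_add_nonneg']
    conv_rhs => rw [← cfc_id' ℝ g hsa]
    rw [show (-1 : B) = algebraMap ℝ B (-1) by simp]
    exact algebraMap_le_cfc _ _ _ (fun x hx => (abs_le.1 (hb x hx)).1)
  have a1 := hτ.map_mul_nonneg h1 hp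
  have a2 := hτ.map_mul_nonneg h2 hp
  simp only [sub_mul, add_mul, one_mul, map_sub, map_add, Complex.sub_re, Complex.add_re] at a1 a2
  exact abs_le.2 ⟨by linarith, by linarith⟩

/-- The Powers–Størmer inequality. -/
theorem l2_rt_sub_sq_le {a b p n : B} (ha : 0 ≤ a) (hb : 0 ≤ b) (hp : 0 ≤ p) (hn : 0 ≤ n)
    (h : a + n = b + p) : l2 τ (rt a - rt b) ^ 2 ≤ (τ p).re + (τ n).re := by
  set e := rt a - rt b with he
  set s := rt a + rt b with hs
  have hesa : IsSelfAdjoint e := (rt_nonneg a).isSelfAdjoint.sub (rt_nonneg b).isSelfAdjoint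
  have hes : e * s + s * e = (a - b) + (a - b) := by
    rw [he, hs]
    conv_rhs => rw [← rt_mul_rt ha, ← rt_mul_rt hb]
    noncomm_ring
  have hab : a - b = p - n := by rw [sub_eq_sub_iff_add_eq_add, h, add_comm]
  rw [hτ.l2_sq, hesa.star_eq]
  refine le_of_forall_pos_le_add fun ε hε => ?_
  -- the regularised sign
  set d := (ε / (‖e‖ + 1)) ^ 2 with hd
  have hd0 : 0 < d := by positivity
  have hpos : ∀ x : ℝ, 0 < Real.sqrt (x * x + d) := fun x =>
    Real.sqrt_pos.2 (by nlinarith [mul_self_nonneg x])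
  have hgc : Continuous fun x : ℝ => x / Real.sqrt (x * x + d) :=
    continuous_id.div (by fun_prop) fun x => (hpos x).ne'
  set g := cfc (fun x : ℝ => x / Real.sqrt (x * x + d)) e with hg
  have hgn : ‖g‖ ≤ 1 := norm_cfc_le zero_le_one fun x _ => by
    rw [Real.norm_eq_abs, abs_div, abs_of_pos (hpos x), div_le_one (hpos x)]
    exact Real.abs_le_sqrt (by nlinarith)
  have hgsa : star g = g := (cfc_predicate _ e : IsSelfAdjoint g).star_eq
  have hcomm : Commute g e := by
    rw [hg]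
    exact ((Commute.refl e).cfc_real _).symm.symm
  have hL : (τ (g * (a - b))).re ≤ (τ p).re + (τ n).re := by
    rw [hab, mul_sub, map_sub, Complex.sub_re]
    linarith [abs_le.1 (hτ.abs_map_mul_le hgsa hgn hp), abs_le.1 (hτ.abs_map_mul_le hgsa hgn hn)]
  have hge : τ (g * (a - b)) = τ (g * e * s) := by
    have h2 : τ (g * ((a - b) + (a - b))) = τ (g * e * s) + τ (g * e * s) := by
      rw [← hes, mul_add, map_add, ← mul_assoc, ← mul_assoc, hτ.comm (g * s) e, ← mul_assoc,
        hcomm.eq]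
    rw [mul_add, map_add] at h2
    linear_combination h2 / 2
  -- positive and negative parts of `g * e`
  let fp : ℝ → ℝ := fun x => (max x 0) * (max x 0) / Real.sqrt (x * x + d)
  let fn : ℝ → ℝ := fun x => (max (-x) 0) * (max (-x) 0) / Real.sqrt (x * x + d)
  have hfpc : Continuous fp := Continuous.div (by fun_prop) (by fun_prop) fun x => (hpos x).ne'
  have hfnc : Continuous fn := Continuous.div (by fun_prop) (by fun_prop) fun x => (hpos x).ne'
  have hsplit : g * e = cfc fp e + cfc fn e := by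
    conv_lhs => arg 2; rw [← cfc_id' ℝ e hesa]
    rw [hg, ← cfc_mul _ _ e hgc.continuousOn, ← cfc_add e fp fn hfpc.continuousOn hfnc.continuousOn]
    exact cfc_congr fun x _ => by
      simp only [fp, fn]
      rcases le_total 0 x with hx | hx
      · rw [max_eq_left hx, max_eq_right (neg_nonpos.2 hx)]; ring
      · rw [max_eq_right hx, max_eq_left (neg_nonneg.2 hx)]; ring
  have hfp : 0 ≤ cfc fp e := cfc_nonneg fun x _ =>
    div_nonneg (mul_self_nonneg _) (Real.sqrt_nonneg _)
  have hfn : 0 ≤ cfc fn e := cfc_nonneg fun x _ =>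
    div_nonneg (mul_self_nonneg _) (Real.sqrt_nonneg _)
  have hP := hτ.map_mul_nonneg hfp (add_nonneg (rt_nonneg b) (rt_nonneg b))
  have hN := hτ.map_mul_nonneg hfn (add_nonneg (rt_nonneg a) (rt_nonneg a))
  rw [show rt b + rt b = s - e by rw [hs, he]; abel, mul_sub, map_sub, Complex.sub_re] at hP
  rw [show rt a + rt a = s + e by rw [hs, he]; abel, mul_add, map_add, Complex.add_re] at hN
  have hlow : e * e ≤ cfc fp e * e - cfc fn e * e + algebraMap ℝ B ε := by
    conv_lhs => rw [← cfc_id' ℝ e hesa, ← cfc_mul (fun x : ℝ => x) (fun x : ℝ => x) e]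
    conv_rhs => arg 1; arg 1; arg 2; rw [← cfc_id' ℝ e hesa]
    conv_rhs => arg 1; arg 2; arg 2; rw [← cfc_id' ℝ e hesa]
    rw [← cfc_mul fp (fun x : ℝ => x) e hfpc.continuousOn,
      ← cfc_mul fn (fun x : ℝ => x) e hfnc.continuousOn,
      ← cfc_sub (fun x => fp x * x) (fun x => fn x * x) e (hfpc.mul continuous_id).continuousOn
        (hfnc.mul continuous_id).continuousOn,
      ← cfc_add_const ε (fun x => fp x * x - fn x * x) e
        ((hfpc.mul continuous_id).sub (hfnc.mul continuous_id)).continuousOn]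
    refine cfc_mono (fun x hx => ?_) (by fun_prop)
      (((hfpc.mul continuous_id).sub (hfnc.mul continuous_id)).add continuous_const).continuousOn
    have hxn : |x| ≤ ‖e‖ := norm_le_of_mem_spectrum hx
    have hsd : Real.sqrt (x * x + d) ≤ |x| + ε / (‖e‖ + 1) := by
      refine Real.sqrt_le_iff.2 ⟨by positivity, ?_⟩
      rw [hd]
      nlinarith [abs_mul_abs_self x, mul_nonneg (abs_nonneg x)
        (div_nonneg hε.le (by positivity : (0 : ℝ) ≤ ‖e‖ + 1))]
    have hcase : fp x * x - fn x * x = |x| * (x * x) / Real.sqrt (x * x + d) := by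
      simp only [fp, fn]
      rcases le_total 0 x with hx | hx
      · rw [max_eq_left hx, max_eq_right (neg_nonpos.2 hx), abs_of_nonneg hx]; ring
      · rw [max_eq_right hx, max_eq_left (neg_nonneg.2 hx), abs_of_nonpos hx]; ring
    rw [hcase, ← sub_le_iff_le_add, le_div_iff₀ (hpos x)]
    have hc : |x| * (ε / (‖e‖ + 1)) ≤ ε := by
      rw [← mul_div_assoc, div_le_iff₀ (by positivity)]
      nlinarith [norm_nonneg e]
    rcases le_or_gt (x * x - ε) 0 with h0 | h0
    · exact (mul_nonpos_of_nonpos_of_nonneg h0 (Real.sqrt_nonneg _)).trans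
        (mul_nonneg (abs_nonneg x) (mul_self_nonneg x))
    · refine (mul_le_mul_of_nonneg_left hsd h0.le).trans ?_
      nlinarith [abs_mul_abs_self x, abs_nonneg x, mul_nonneg (abs_nonneg x) h0.le, hc,
        div_nonneg hε.le (by positivity : (0 : ℝ) ≤ ‖e‖ + 1)]
  have hT := hτ.map_mono hlow
  rw [map_add, map_sub, Complex.add_re, Complex.sub_re, Algebra.algebraMap_eq_smul_one,
    ← Complex.coe_smul, map_smul, hτ.map_one, smul_eq_mul, mul_one, Complex.ofReal_re] at hT
  have hgs : (τ (g * e * s)).re = (τ (cfc fp e * s)).re + (τ (cfc fn e * s)).re := by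
    rw [hsplit, add_mul, map_add, Complex.add_re]
  rw [hge] at hL
  linarith

end IsTrace

end Vale.Agent.P095.Gamma
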