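import Vale.Agent.P095.Gamma.EtaWords
import Vale.Agent.P095.Gamma.SqrtTrace

/-!
# P095 equivariant property Gamma: almost invariant elements of positive variance

`η` is the square root of the average over `F` of products `∏ᵢ (1 + sin (3 S) / 2)` over pools.
The Powers–Størmer inequality makes it almost invariant in `L²` for every Følner set `F`.
-/

noncomputable section

namespace Vale.Agent.P095.Gamma

universe u v

open Filter Topology
open scoped symmDiff

variable {B : Type u} [CStarAlgebra B] [PartialOrder B] [StarOrderedRing B] {G : Type v} [Group G]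
set_option linter.unusedSectionVars false

variable (S : SlotSystem B G)

/-- `sin (3 S)` for a translated pool sum. -/
def sine (i M : ℕ) (g : G) : B :=
  (-Complex.I / 2) • (S.pulse i M g 3 - S.pulse i M g (-3))

/-- The factor of pool `i`. -/
def fac (i M : ℕ) (g : G) : B := 1 + (1 / 2 : ℂ) • sine S i M g

/-- The product of the first `n` factors. -/
def dens (i₀ M : ℕ) (g : G) : ℕ → B
  | 0 => 1
  | n + 1 => dens i₀ M g n * fac S (i₀ + n) M g

/-- The product of the roots of the first `n` factors. -/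
def densRt (i₀ M : ℕ) (g : G) : ℕ → B
  | 0 => 1
  | n + 1 => densRt i₀ M g n * rt (fac S (i₀ + n) M g)

theorem star_sine (i M : ℕ) (g : G) : star (sine S i M g) = sine S i M g := by
  rw [sine, star_smul, star_sub, S.star_pulse, S.star_pulse, neg_neg,
    show star (-Complex.I / 2) = -(-Complex.I / 2) by simp [Complex.conj_I, neg_div],
    neg_smul, ← smul_neg, neg_sub]

theorem norm_sine_le (i M : ℕ) (g : G) : ‖sine S i M g‖ ≤ 1 := by
  rw [sine, norm_smul]
  have := norm_sub_le (S.pulse i M g 3) (S.pulse i M g (-3))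
  have h1 := S.norm_pulse_le i M g 3
  have h2 := S.norm_pulse_le i M g (-3)
  rw [norm_div, norm_neg, Complex.norm_I, Complex.norm_ofNat]
  linarith

theorem sine_sq (i M : ℕ) (g : G) :
    sine S i M g * sine S i M g =
      (1 / 4 : ℂ) • ((1 : B) + 1 - S.pulse i M g 6 - S.pulse i M g (-6)) := by
  have e1 : S.pulse i M g 3 * S.pulse i M g 3 = S.pulse i M g 6 := by
    rw [← S.pulse_add]; norm_num
  have e2 : S.pulse i M g 3 * S.pulse i M g (-3) = 1 := by
    rw [← S.pulse_add]; norm_num [S.pulse_zero]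
  have e3 : S.pulse i M g (-3) * S.pulse i M g 3 = 1 := by
    rw [← S.pulse_add]; norm_num [S.pulse_zero]
  have e4 : S.pulse i M g (-3) * S.pulse i M g (-3) = S.pulse i M g (-6) := by
    rw [← S.pulse_add]; norm_num
  rw [sine, smul_mul_smul_comm, sub_mul, mul_sub, mul_sub, e1, e2, e3, e4,
    show (-Complex.I / 2) * (-Complex.I / 2) = -(1 / 4 : ℂ) by
      linear_combination (1 / 4 : ℂ) * Complex.I_mul_I,
    neg_smul, ← smul_neg]
  congr 1
  abel

theorem sine_mem_wordSpan (i : ℕ) (g : G) :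
    (fun M => sine S i M g) ∈ wordSpan S i := by
  have := Submodule.smul_mem (wordSpan S i) (-Complex.I / 2)
    (sub_mem (pulse_mem_wordSpan S i g 3) (pulse_mem_wordSpan S i g (-3)))
  exact this

theorem fac_mem_wordSpan (i : ℕ) (g : G) : (fun M => fac S i M g) ∈ wordSpan S i :=
  add_mem (one_mem_wordSpan S i) (Submodule.smul_mem _ _ (sine_mem_wordSpan S i g))

theorem star_fac (i M : ℕ) (g : G) : star (fac S i M g) = fac S i M g := by
  simp [fac, star_sine]

theorem norm_half_sine (i M : ℕ) (g : G) : ‖(1 / 2 : ℂ) • sine S i M g‖ ≤ 1 / 2 := by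
  rw [norm_smul]
  have := norm_sine_le S i M g
  have h : ‖(1 / 2 : ℂ)‖ = 1 / 2 := by simp
  rw [h]
  linarith

theorem fac_nonneg (i M : ℕ) (g : G) : 0 ≤ fac S i M g := by
  have hu : IsSelfAdjoint ((1 / 2 : ℂ) • sine S i M g) := by
    rw [IsSelfAdjoint, star_smul, star_sine]; simp
  rw [fac, ← neg_le_iff_add_nonneg']
  conv_rhs => rw [← cfc_id' ℝ _ hu]
  rw [show (-1 : B) = algebraMap ℝ B (-1) by simp]
  refine algebraMap_le_cfc _ _ _ fun x hx => ?_
  have := (norm_le_of_mem_spectrum hx).trans (norm_half_sine S i M g)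
  linarith [abs_le.1 this]

theorem norm_fac_le (i M : ℕ) (g : G) : ‖fac S i M g‖ ≤ 2 :=
  (norm_add_le _ _).trans (by linarith [norm_one_le_one (B := B), norm_half_sine S i M g])

theorem fac_mem (i M : ℕ) (g : G) : fac S i M g ∈ S.gen (poolUnion {i}) :=
  wordSpan_mem_gen S (fac_mem_wordSpan S i g) M

theorem rt_fac_mem (i M : ℕ) (g : G) : rt (fac S i M g) ∈ S.gen (poolUnion {i}) :=
  cfc_mem (hs := S.gen_isClosed _) (𝕜' := ℂ) Real.sqrt (fac_mem S i M g)

theorem dens_mem_tens (i₀ : ℕ) (g : G) : ∀ n, (fun M => dens S i₀ M g n) ∈ tens S i₀ n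
  | 0 => one_mem_tens S i₀ 0
  | n + 1 => mul_mem_tens_succ S (dens_mem_tens i₀ g n) (fac_mem_wordSpan S _ g)

theorem dens_mem (i₀ M : ℕ) (g : G) (n : ℕ) :
    dens S i₀ M g n ∈ S.gen (poolUnion (Set.Ico i₀ (i₀ + n))) :=
  tens_mem_gen S (dens_mem_tens S i₀ g n) M

theorem gen_singleton_le (i₀ n : ℕ) :
    S.gen (poolUnion {i₀ + n}) ≤ S.gen (poolUnion (Set.Ico i₀ (i₀ + (n + 1)))) := by
  refine S.gen_mono (SlotSystem.poolUnion_subset ?_)
  rw [← Ico_union_singleton]
  exact Set.subset_union_right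

theorem gen_Ico_le (i₀ n : ℕ) : S.gen (poolUnion (Set.Ico i₀ (i₀ + n))) ≤
    S.gen (poolUnion (Set.Ico i₀ (i₀ + (n + 1)))) :=
  S.gen_mono (SlotSystem.poolUnion_subset (Set.Ico_subset_Ico_right (by omega)))

theorem densRt_mem (i₀ M : ℕ) (g : G) : ∀ n,
    densRt S i₀ M g n ∈ S.gen (poolUnion (Set.Ico i₀ (i₀ + n)))
  | 0 => one_mem _
  | n + 1 => mul_mem (gen_Ico_le S i₀ n (densRt_mem i₀ M g n))
      (gen_singleton_le S i₀ n (rt_fac_mem S (i₀ + n) M g))

theorem commute_Ico_single (i₀ n : ℕ) {x y : B}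
    (hx : x ∈ S.gen (poolUnion (Set.Ico i₀ (i₀ + n)))) (hy : y ∈ S.gen (poolUnion {i₀ + n})) :
    Commute x y :=
  S.commute_of_disjoint (SlotSystem.poolUnion_disjoint (Ico_disjoint_singleton i₀ n)) hx hy

theorem dens_nonneg (i₀ M : ℕ) (g : G) : ∀ n, 0 ≤ dens S i₀ M g n
  | 0 => zero_le_one
  | n + 1 => (commute_Ico_single S i₀ n (dens_mem S i₀ M g n) (fac_mem S _ M g)).mul_nonneg
      (dens_nonneg i₀ M g n) (fac_nonneg S _ M g)

theorem densRt_nonneg (i₀ M : ℕ) (g : G) : ∀ n, 0 ≤ densRt S i₀ M g n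
  | 0 => zero_le_one
  | n + 1 => (commute_Ico_single S i₀ n (densRt_mem S i₀ M g n) (rt_fac_mem S _ M g)).mul_nonneg
      (densRt_nonneg i₀ M g n) (rt_nonneg _)

theorem densRt_sq (i₀ M : ℕ) (g : G) : ∀ n,
    densRt S i₀ M g n * densRt S i₀ M g n = dens S i₀ M g n
  | 0 => one_mul _
  | n + 1 => by
    show densRt S i₀ M g n * rt (fac S (i₀ + n) M g) *
      (densRt S i₀ M g n * rt (fac S (i₀ + n) M g)) = dens S i₀ M g n * fac S (i₀ + n) M g
    rw [mul_assoc, ← mul_assoc (rt (fac S (i₀ + n) M g)),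
      ← (commute_Ico_single S i₀ n (densRt_mem S i₀ M g n) (rt_fac_mem S _ M g)).eq,
      mul_assoc, rt_mul_rt (fac_nonneg S _ M g), ← mul_assoc, densRt_sq i₀ M g n]

theorem rt_dens (i₀ M : ℕ) (g : G) (n : ℕ) : rt (dens S i₀ M g n) = densRt S i₀ M g n :=
  rt_unique (densRt_sq S i₀ M g n) (densRt_nonneg S i₀ M g n)

theorem norm_dens_le (i₀ M : ℕ) (g : G) : ∀ n, ‖dens S i₀ M g n‖ ≤ 2 ^ n
  | 0 => by simpa [dens] using norm_one_le_one
  | n + 1 => by
    rw [pow_succ]
    exact (norm_mul_le _ _).trans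
      (mul_le_mul (norm_dens_le i₀ M g n) (norm_fac_le S _ M g) (norm_nonneg _) (by positivity))

theorem act_dens (i₀ M : ℕ) (g k : G) : ∀ n, S.act k (dens S i₀ M g n) = dens S i₀ M (k * g) n
  | 0 => map_one _
  | n + 1 => by
    show S.act k (dens S i₀ M g n * fac S (i₀ + n) M g) = _
    rw [map_mul, act_dens i₀ M g k n]
    simp only [dens, fac, sine, map_add, map_one, map_smul, map_sub, S.act_pulse]

theorem act_rt (k : G) {a : B} (ha : 0 ≤ a) : S.act k (rt a) = rt (S.act k a) := by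
  refine (rt_unique ?_ ?_).symm
  · rw [← map_mul, rt_mul_rt ha]
  · obtain ⟨b, hb⟩ := CStarAlgebra.nonneg_iff_eq_star_mul_self.1 (rt_nonneg a)
    rw [hb, map_mul, map_star]
    exact star_mul_self_nonneg _

/-- The bounds on the factors valid for large pools. -/
theorem eventually_fac (hP : PoolStatement.{u, v}) (ε : ℝ) (hε : 0 < ε) :
    ∀ᶠ M in atTop, ∀ (i : ℕ) (g : G) (τ : B →ₗ[ℂ] ℂ), S.Good τ →
      ‖τ (fac S i M g) - 1‖ ≤ ε ∧ (τ (rt (fac S i M g))).re ≤ 1 - 1 / 160 + ε := by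
  obtain ⟨M₀, hM₀, hM⟩ := hP 1 6 ε hε
  filter_upwards [eventually_ge_atTop M₀] with M hM' i g τ hτ
  have hw : ∀ w : ℝ, |w| ≤ 6 → ‖τ (S.pulse i M g w) -
      Complex.exp (-((w : ℂ) ^ 2 * τ (poolVar S i M (fun _ : Fin 1 => g) fun _ => 1)) / 2)‖ ≤ ε := by
    intro w hw
    obtain ⟨e, -, -, -, h⟩ := hM B G S M hM' i (fun _ : Fin 1 => g) (fun _ => w) fun _ => hw
    have h1 := (h τ hτ).1
    rw [show poolWord S i M (fun _ : Fin 1 => g) (fun _ => w) = S.pulse i M g w by
      simp [poolWord_eq_prod]] at h1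
    rwa [show poolVar S i M (fun _ : Fin 1 => g) (fun _ => w) =
      ((w : ℂ) ^ 2) • poolVar S i M (fun _ : Fin 1 => g) (fun _ => 1) by
      simp only [poolVar, Fin.sum_univ_one, smul_mul_smul_comm, Finset.smul_sum, smul_smul]
      refine Finset.sum_congr rfl fun s _ => ?_
      congr 1
      push_cast
      ring,
      map_smul, smul_eq_mul] at h1
  have h3 := hw 3 (by norm_num)
  have h3' := hw (-3) (by norm_num)
  have h6 := hw 6 (by norm_num)
  have h6' := hw (-6) (by norm_num)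
  -- the second moment in the pool
  set v := τ (poolVar S i M (fun _ : Fin 1 => g) fun _ => 1) with hv
  have hvre : 2 / 9 ≤ v.re := by
    have hM1 : (0 : ℝ) < M := by exact_mod_cast lt_of_lt_of_le hM₀ hM'
    have e : v = ((1 / M : ℝ) : ℂ) * ∑ s ∈ Finset.range M,
        τ (S.act g (S.h (Nat.pair i s)) * S.act g (S.h (Nat.pair i s))) := by
      rw [hv, poolVar, map_smul, map_sum, smul_eq_mul]
      simp
    rw [e, Complex.re_ofReal_mul, Complex.re_sum]
    calc (2 / 9 : ℝ) = 1 / M * ∑ _s ∈ Finset.range M, (2 / 9 : ℝ) := by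
          rw [Finset.sum_const, Finset.card_range, nsmul_eq_mul]; field_simp
      _ ≤ _ := mul_le_mul_of_nonneg_left (Finset.sum_le_sum fun s _ => hτ.var g _) (by positivity)
  have hsin : ‖τ (sine S i M g)‖ ≤ ε := by
    rw [sine, map_smul, map_sub, smul_eq_mul, norm_mul, norm_div, norm_neg, Complex.norm_I,
      Complex.norm_ofNat]
    have hs : ((-3 : ℝ) : ℂ) ^ 2 = ((3 : ℝ) : ℂ) ^ 2 := by push_cast; ring
    rw [hs] at h3'
    have := norm_sub_le_norm_sub_add_norm_sub (τ (S.pulse i M g 3))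
      (Complex.exp (-(((3 : ℝ) : ℂ) ^ 2 * v) / 2)) (τ (S.pulse i M g (-3)))
    rw [norm_sub_rev (Complex.exp _) _] at this
    linarith
  have hsq : 2 / 5 - ε / 2 ≤ (τ (sine S i M g * sine S i M g)).re := by
    rw [sine_sq, map_smul, map_sub, map_sub, map_add, hτ.trace.map_one, smul_eq_mul,
      show (1 / 4 : ℂ) = ((1 / 4 : ℝ) : ℂ) by push_cast; rfl, Complex.re_ofReal_mul]
    simp only [Complex.sub_re, Complex.add_re, Complex.one_re]
    have hb : ∀ w : ℝ, w ^ 2 = 36 →
        (Complex.exp (-((w : ℂ) ^ 2 * v) / 2)).re ≤ 1 / 5 := by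
      intro w hw36
      refine (Complex.re_le_norm _).trans ?_
      rw [Complex.norm_exp, ← Complex.ofReal_pow, hw36]
      have : ((-(((36 : ℝ) : ℂ) * v) / 2)).re = -(36 * v.re) / 2 := by
        simp [Complex.mul_re]
      rw [this]
      have h4 : Real.exp (-(36 * v.re) / 2) ≤ Real.exp (-4) := Real.exp_le_exp.2 (by linarith)
      have h5 : (5 : ℝ) ≤ Real.exp 4 := by linarith [Real.add_one_le_exp (4 : ℝ)]
      rw [Real.exp_neg] at h4
      have h6 : (Real.exp 4)⁻¹ ≤ 1 / 5 := by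
        rw [one_div]; exact inv_anti₀ (by norm_num) h5
      linarith
    have a1 := (Complex.re_le_norm _).trans h6
    have a2 := (Complex.re_le_norm _).trans h6'
    rw [Complex.sub_re] at a1 a2
    linarith [hb 6 (by norm_num), hb (-6) (by norm_num)]
  refine ⟨?_, ?_⟩
  · rw [fac, map_add, map_smul, hτ.trace.map_one, add_sub_cancel_left, smul_eq_mul, norm_mul]
    have h : ‖(1 / 2 : ℂ)‖ = 1 / 2 := by simp
    rw [h]
    linarith [norm_nonneg (τ (sine S i M g))]
  · have h := hτ.trace.map_rt_one_add_le (u := (1 / 2 : ℂ) • sine S i M g)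
      (by simp [star_sine]) ((norm_half_sine S i M g).trans (by norm_num))
    rw [smul_mul_smul_comm, map_smul, map_smul, smul_eq_mul, smul_eq_mul,
      show (1 / 2 : ℂ) = ((1 / 2 : ℝ) : ℂ) by push_cast; rfl, ← Complex.ofReal_mul,
      Complex.re_ofReal_mul, Complex.re_ofReal_mul] at h
    rw [fac, show (1 / 2 : ℂ) = ((1 / 2 : ℝ) : ℂ) by push_cast; rfl]
    linarith [(Complex.re_le_norm _).trans hsin]

theorem eventually_dens (hP : PoolStatement.{u, v}) : ∀ (n : ℕ) (ε : ℝ), 0 < ε →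
    ∀ᶠ M in atTop, ∀ (i₀ : ℕ) (g : G) (τ : B →ₗ[ℂ] ℂ), S.Good τ →
      ‖τ (dens S i₀ M g n) - 1‖ ≤ ε
  | 0, ε, hε => Eventually.of_forall fun M i₀ g τ hτ => by
      simp [dens, hτ.trace.map_one, hε.le]
  | n + 1, ε, hε => by
    filter_upwards [eventually_dens hP n (min 1 (ε / 4)) (by positivity),
      eventually_fac S hP (ε / 4) (by positivity)] with M h1 h2 i₀ g τ hτ
    show ‖τ (dens S i₀ M g n * fac S (i₀ + n) M g) - 1‖ ≤ ε
    rw [SlotSystem.Good.map_mul S hτ (SlotSystem.poolUnion_disjoint (Ico_disjoint_singleton i₀ n))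
      (dens_mem S i₀ M g n) (fac_mem S (i₀ + n) M g)]
    set a := τ (dens S i₀ M g n)
    set b := τ (fac S (i₀ + n) M g)
    have ha := h1 i₀ g τ hτ
    have hb := (h2 (i₀ + n) g τ hτ).1
    rw [show a * b - 1 = (a - 1) * (b - 1) + ((a - 1) + (b - 1)) by ring]
    refine (norm_add_le _ _).trans ?_
    have h3 : ‖(a - 1) * (b - 1)‖ ≤ 1 * (ε / 4) := by
      rw [norm_mul]
      exact mul_le_mul (ha.trans (min_le_left _ _)) hb (norm_nonneg _) zero_le_one
    linarith [norm_add_le (a - 1) (b - 1), ha.trans (min_le_right _ _)]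

theorem eventually_densRt (hP : PoolStatement.{u, v}) (n : ℕ) :
    ∀ᶠ M in atTop, ∀ (i₀ : ℕ) (g : G) (τ : B →ₗ[ℂ] ℂ), S.Good τ →
      (τ (densRt S i₀ M g n)).re ≤ (1 - 1 / 200) ^ n := by
  filter_upwards [eventually_fac S hP (1 / 800) (by norm_num)] with M hM i₀ g τ hτ
  induction n with
  | zero => simp [densRt, hτ.trace.map_one]
  | succ n ih =>
    show (τ (densRt S i₀ M g n * rt (fac S (i₀ + n) M g))).re ≤ _
    rw [SlotSystem.Good.map_mul S hτ (SlotSystem.poolUnion_disjoint (Ico_disjoint_singleton i₀ n))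
      (densRt_mem S i₀ M g n) (rt_fac_mem S (i₀ + n) M g), Complex.mul_re,
      hτ.trace.im_of_sa (IsSelfAdjoint.of_nonneg (densRt_nonneg S i₀ M g n)).star_eq, zero_mul,
      sub_zero, pow_succ]
    exact mul_le_mul ih (((hM _ g τ hτ).2).trans (by norm_num))
      (hτ.trace.map_nonneg (rt_nonneg _)) (by norm_num)

/-- The averaged density. -/
def avgDens (F : Finset G) (i₀ M r : ℕ) : B :=
  ((F.card : ℝ)⁻¹ : ℂ) • ∑ g ∈ F, dens S i₀ M g r

theorem smul_sum_dens_nonneg (c : ℝ) (hc : 0 ≤ c) (F : Finset G) (i₀ M r : ℕ) :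
    0 ≤ (c : ℂ) • ∑ g ∈ F, dens S i₀ M g r := by
  rw [Complex.coe_smul]
  exact smul_nonneg hc (Finset.sum_nonneg fun g _ => dens_nonneg S i₀ M g r)

theorem avgDens_nonneg (F : Finset G) (i₀ M r : ℕ) : 0 ≤ avgDens S F i₀ M r := by
  rw [avgDens, ← Complex.ofReal_inv]
  exact smul_sum_dens_nonneg S _ (by positivity) F i₀ M r

theorem avgDens_mem (F : Finset G) (i₀ M r : ℕ) :
    avgDens S F i₀ M r ∈ S.gen (poolUnion (Set.Ico i₀ (i₀ + r))) :=
  SMulMemClass.smul_mem _ (sum_mem fun g _ => dens_mem S i₀ M g r)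

theorem norm_avgDens_le (F : Finset G) (hF : F.Nonempty) (i₀ M r : ℕ) :
    ‖avgDens S F i₀ M r‖ ≤ 2 ^ r := by
  rw [avgDens, norm_smul]
  refine (mul_le_mul_of_nonneg_left ((norm_sum_le _ _).trans
    (Finset.sum_le_sum fun g _ => norm_dens_le S i₀ M g r)) (norm_nonneg _)).trans_eq ?_
  rw [Finset.sum_const, nsmul_eq_mul, norm_inv, Complex.norm_real,
    Real.norm_of_nonneg (Nat.cast_nonneg _)]
  have : (F.card : ℝ) ≠ 0 := by exact_mod_cast hF.card_pos.ne'
  field_simp

variable [DecidableEq G]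

theorem act_avgDens (F : Finset G) (i₀ M r : ℕ) (k : G) :
    S.act k (avgDens S F i₀ M r) = avgDens S (F.image (k * ·)) i₀ M r := by
  rw [avgDens, avgDens, map_smul, map_sum,
    Finset.card_image_of_injective _ (mul_right_injective k),
    Finset.sum_image fun a _ b _ h => mul_left_cancel h]
  simp only [act_dens]

/-- Almost invariance of the root of the averaged density. -/
theorem l2_rt_avgDens {F : Finset G} (hF : F.Nonempty) (i₀ M r : ℕ) {τ : B →ₗ[ℂ] ℂ}
    (hτ : S.Good τ) {δ : ℝ} (hδ : 0 ≤ δ)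
    (hd : ∀ g, ‖τ (dens S i₀ M g r) - 1‖ ≤ δ) (k : G) :
    l2 τ (S.act k (rt (avgDens S F i₀ M r)) - rt (avgDens S F i₀ M r)) ^ 2 ≤
      ((F.image (k * ·) ∆ F).card : ℝ) / F.card + 2 * δ := by
  rw [act_rt S k (avgDens_nonneg S F i₀ M r), act_avgDens]
  set F' := F.image (k * ·) with hF'
  have hcard : F'.card = F.card := Finset.card_image_of_injective _ (mul_right_injective k)
  set c : ℝ := (F.card : ℝ)⁻¹ with hc
  have hc0 : 0 ≤ c := by positivity
  have h := hτ.trace.l2_rt_sub_sq_le (avgDens_nonneg S F' i₀ M r) (avgDens_nonneg S F i₀ M r)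
    (smul_sum_dens_nonneg S c hc0 (F' \ F) i₀ M r) (smul_sum_dens_nonneg S c hc0 (F \ F') i₀ M r)
    (by
      simp only [avgDens, hcard, hc, Complex.ofReal_inv]
      rw [← smul_add, ← smul_add]
      congr 1
      rw [← Finset.sum_union Finset.disjoint_sdiff, ← Finset.sum_union Finset.disjoint_sdiff,
        Finset.union_sdiff_self_eq_union, Finset.union_sdiff_self_eq_union, Finset.union_comm])
  refine h.trans ?_
  have hbd : ∀ T : Finset G,
      (τ ((c : ℂ) • ∑ g ∈ T, dens S i₀ M g r)).re ≤ c * (T.card * (1 + δ)) := by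
    intro T
    rw [map_smul, map_sum, smul_eq_mul, Complex.re_ofReal_mul, Complex.re_sum]
    refine mul_le_mul_of_nonneg_left ?_ hc0
    rw [← nsmul_eq_mul, ← Finset.sum_const]
    refine Finset.sum_le_sum fun g _ => ?_
    have := (Complex.re_le_norm _).trans (hd g)
    rw [Complex.sub_re, Complex.one_re] at this
    linarith
  have hs : ((F' ∆ F).card : ℝ) = (F' \ F).card + (F \ F').card := by
    rw [symmDiff_def, Finset.sup_eq_union, Finset.card_union_of_disjoint disjoint_sdiff_sdiff,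
      Nat.cast_add]
  have hle : ((F' ∆ F).card : ℝ) ≤ 2 * F.card := by
    have h1 : (F' \ F).card ≤ F'.card := Finset.card_le_card Finset.sdiff_subset
    have h2 : (F \ F').card ≤ F.card := Finset.card_le_card Finset.sdiff_subset
    have h1' : ((F' \ F).card : ℝ) ≤ F.card := by exact_mod_cast hcard ▸ h1
    have h2' : ((F \ F').card : ℝ) ≤ F.card := by exact_mod_cast h2
    linarith
  have hFp : (0 : ℝ) < F.card := by exact_mod_cast hF.card_pos
  refine (add_le_add (hbd _) (hbd _)).trans ?_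
  rw [← mul_add, ← add_mul, ← hs, hc, ← mul_assoc, inv_mul_eq_div, mul_add, mul_one]
  gcongr
  rw [div_le_iff₀ hFp]
  linarith

theorem etaStatement_of (hP : PoolStatement.{u, v}) : EtaStatement.{u, v} := by
  intro B _ G _ _ S F hF
  let _ : PartialOrder B := CStarAlgebra.spectralOrder B
  have _ : StarOrderedRing B := CStarAlgebra.spectralOrderedRing B
  have hFp : (0 : ℝ) < F.card := by exact_mod_cast hF.card_pos
  obtain ⟨r, hr⟩ := exists_pow_lt_of_lt_one (x := 1 / (2 * Real.sqrt F.card))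
    (y := (1 - 1 / 200 : ℝ)) (by positivity) (by norm_num)
  refine ⟨2 ^ r, fun δ hδ i₀ => ⟨i₀ + r, by omega, ?_⟩⟩
  set d := min (1 / 8) (δ / 4) with hd
  have hd0 : 0 < d := by positivity
  obtain ⟨P, hP'⟩ := exists_polynomial_near_of_continuousOn 0 (2 ^ r) Real.sqrt
    Real.continuous_sqrt.continuousOn d hd0
  -- the family to be estimated
  have hXt : (fun M => avgDens S F i₀ M r) ∈ tens S i₀ r := by
    have e : (fun M => avgDens S F i₀ M r) =
        ((F.card : ℝ)⁻¹ : ℂ) • ∑ g ∈ F, fun M => dens S i₀ M g r := by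
      funext M; simp [avgDens]
    rw [e]
    exact Submodule.smul_mem _ _ (Submodule.sum_mem _ fun g _ => dens_mem_tens S i₀ g r)
  have hpow : ∀ k : ℕ, (fun M => avgDens S F i₀ M r ^ k) ∈ tens S i₀ r := by
    intro k
    induction k with
    | zero => simp only [pow_zero]; exact one_mem_tens S i₀ r
    | succ k ih => simp only [pow_succ]; exact tens_mul S ih hXt
  have hPt : (fun M => Polynomial.aeval (avgDens S F i₀ M r) P) ∈ tens S i₀ r := by
    have e : (fun M => Polynomial.aeval (avgDens S F i₀ M r) P) =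
        ∑ k ∈ Finset.range (P.natDegree + 1),
          ((P.coeff k : ℝ) : ℂ) • fun M => avgDens S F i₀ M r ^ k := by
      funext M
      simp [Polynomial.aeval_eq_sum_range, Finset.sum_apply, Complex.coe_smul]
    rw [e]
    exact Submodule.sum_mem _ fun k _ => Submodule.smul_mem _ _ (hpow k)
  obtain ⟨C, -, -, hC⟩ := tens_le_estSub S hP i₀ r hPt
  obtain ⟨M, hM1, hM2, hM3⟩ := ((eventually_dens S hP r d hd0).and
    ((eventually_densRt S hP r).and (hC d hd0))).exists
  obtain ⟨a, ham, -, ha⟩ := hM3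
  set X := avgDens S F i₀ M r with hX
  have hX0 : 0 ≤ X := avgDens_nonneg S F i₀ M r
  have hXn : ‖X‖ ≤ 2 ^ r := norm_avgDens_le S F hF i₀ M r
  refine ⟨rt X, (1 / 2 : ℂ) • (a + star a), cfc_mem (hs := S.gen_isClosed _) (𝕜' := ℂ) Real.sqrt
    (avgDens_mem S F i₀ M r), SMulMemClass.smul_mem _ (add_mem ham (star_mem ham)), star_rt X,
    by simp [add_comm], ?_, fun τ hτ => ?_⟩
  · have h1 : ‖rt X‖ * ‖rt X‖ ≤ 2 ^ r := by
      rw [← CStarRing.norm_star_mul_self, star_rt, rt_mul_rt hX0]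
      exact hXn
    have h2 : (1 : ℝ) ≤ 2 ^ r := one_le_pow₀ one_le_two
    nlinarith [norm_nonneg (rt X)]
  have hPX : ‖Polynomial.aeval X P - rt X‖ ≤ d := by
    rw [← cfc_polynomial P X hX0.isSelfAdjoint, rt,
      ← cfc_sub P.eval Real.sqrt X P.continuous.continuousOn Real.continuous_sqrt.continuousOn]
    refine norm_cfc_le hd0.le fun x hx => (hP' x ⟨spectrum_nonneg_of_nonneg hX0 hx,
      (le_abs_self x).trans ((norm_le_of_mem_spectrum hx).trans hXn)⟩).le
  set q := τ (Polynomial.aeval X P) with hq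
  have hq_im : q.im = 0 := hτ.trace.im_of_sa (by
    rw [← cfc_polynomial P X hX0.isSelfAdjoint]
    exact (cfc_predicate _ X : IsSelfAdjoint _).star_eq)
  have hηq : ‖q - τ (rt X)‖ ≤ d := by
    rw [hq, ← map_sub]
    exact (hτ.trace.norm_map_le_norm _).trans hPX
  have hX1 : |(τ X).re - 1| ≤ d := by
    refine le_trans (le_of_eq ?_) ((Complex.abs_re_le_norm (τ X - 1)).trans ?_)
    · simp
    rw [hX, avgDens, map_smul, map_sum, smul_eq_mul]
    have e : ((F.card : ℝ)⁻¹ : ℂ) * ∑ g ∈ F, τ (dens S i₀ M g r) - 1 =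
        ((F.card : ℝ)⁻¹ : ℂ) * ∑ g ∈ F, (τ (dens S i₀ M g r) - 1) := by
      rw [Finset.sum_sub_distrib, Finset.sum_const, nsmul_eq_mul, mul_sub, mul_one]
      congr 1
      field_simp
      push_cast
      rw [div_self (by exact_mod_cast hF.card_pos.ne')]
    rw [e, norm_mul]
    refine (mul_le_mul_of_nonneg_left ((norm_sum_le _ _).trans
      (Finset.sum_le_sum fun g _ => hM1 i₀ g τ hτ)) (norm_nonneg _)).trans_eq ?_
    rw [Finset.sum_const, nsmul_eq_mul, norm_inv, Complex.norm_real,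
      Real.norm_of_nonneg (Nat.cast_nonneg _)]
    field_simp
  refine ⟨?_, ?_, ?_, fun g => ?_⟩
  · have h1 := ha τ hτ
    have h2 : l2 τ (star a - q • (1 : B)) ≤ d := by
      rw [← hτ.trace.l2_star]
      simpa [Complex.conj_eq_iff_im.2 hq_im] using h1
    have e : (1 / 2 : ℂ) • (a + star a) - τ (rt X) • (1 : B) =
        (1 / 2 : ℂ) • ((a - q • (1 : B)) + (star a - q • (1 : B))) +
          (q - τ (rt X)) • (1 : B) := by
      module
    rw [e]
    refine (hτ.trace.l2_add_le _ _).trans ?_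
    rw [hτ.trace.l2_smul, hτ.trace.l2_smul, hτ.trace.l2_one, mul_one]
    have := hτ.trace.l2_add_le (a - q • (1 : B)) (star a - q • (1 : B))
    have hh : ‖(1 / 2 : ℂ)‖ = 1 / 2 := by simp
    rw [hh]
    linarith [min_le_right (1 / 8 : ℝ) (δ / 4)]
  · rw [rt_mul_rt hX0]
    linarith [abs_le.1 hX1, min_le_left (1 / 8 : ℝ) (δ / 4)]
  · rw [rt_mul_rt hX0]
    have hsmall : (τ (rt X)).re ≤ 1 / 2 := by
      have e : X = ∑ g ∈ F, ((F.card : ℝ)⁻¹ : ℂ) • dens S i₀ M g r := by
        rw [hX, avgDens, Finset.smul_sum]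
      rw [e]
      refine (hτ.trace.map_rt_sum_le F _ fun g _ => by
        rw [← Complex.ofReal_inv, Complex.coe_smul]
        exact smul_nonneg (by positivity) (dens_nonneg S i₀ M g r)).trans ?_
      have hterm : ∀ g, rt (((F.card : ℝ)⁻¹ : ℂ) • dens S i₀ M g r) =
          ((Real.sqrt F.card)⁻¹ : ℂ) • densRt S i₀ M g r := by
        intro g
        refine rt_unique ?_ (by
          rw [← Complex.ofReal_inv, Complex.coe_smul]
          exact smul_nonneg (by positivity) (densRt_nonneg S i₀ M g r))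
        rw [smul_mul_smul_comm, densRt_sq, ← Complex.ofReal_inv, ← Complex.ofReal_inv,
          ← Complex.ofReal_mul, ← mul_inv, Real.mul_self_sqrt hFp.le]
      calc ∑ g ∈ F, (τ (rt (((F.card : ℝ)⁻¹ : ℂ) • dens S i₀ M g r))).re
          ≤ ∑ _g ∈ F, (Real.sqrt F.card)⁻¹ * (1 - 1 / 200) ^ r := Finset.sum_le_sum fun g _ => by
            rw [hterm, map_smul, smul_eq_mul, ← Complex.ofReal_inv, Complex.re_ofReal_mul]
            exact mul_le_mul_of_nonneg_left (hM2 i₀ g τ hτ) (by positivity)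
        _ = Real.sqrt F.card * (1 - 1 / 200) ^ r := by
            rw [Finset.sum_const, nsmul_eq_mul]
            have := Real.mul_self_sqrt hFp.le
            have hs : Real.sqrt F.card ≠ 0 := (Real.sqrt_pos.2 hFp).ne'
            field_simp
            nlinarith
        _ ≤ Real.sqrt F.card * (1 / (2 * Real.sqrt F.card)) := by gcongr
        _ = 1 / 2 := by
            have hs : Real.sqrt F.card ≠ 0 := (Real.sqrt_pos.2 hFp).ne'
            field_simp
    have h0 := hτ.trace.map_nonneg (rt_nonneg X)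
    nlinarith [abs_le.1 hX1, min_le_left (1 / 8 : ℝ) (δ / 4)]
  · refine (l2_rt_avgDens S hF i₀ M r hτ hd0.le (fun g => hM1 i₀ g τ hτ) g).trans ?_
    linarith [min_le_right (1 / 8 : ℝ) (δ / 4)]

end Vale.Agent.P095.Gamma
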