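import Mathlib

/-!
# P095 equivariant property Gamma: partitions of unity on the circle

Continuous partitions of unity of the circle into `k` parts of almost equal mean and small overlap,
and their approximation by trigonometric polynomials.
-/

noncomputable section

namespace Vale.Agent.P095.Gamma

open MeasureTheory

/-- The plateau function of width `1/k`, cut off over a length `1/N`. -/
def plateau (k : ℕ) (N : ℝ) (x : UnitAddCircle) : ℝ :=
  max 0 (1 - N * max 0 (‖x‖ - 1 / (2 * k)))

theorem plateau_nonneg (k : ℕ) (N : ℝ) (x : UnitAddCircle) : 0 ≤ plateau k N x := le_max_left _ _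

theorem continuous_plateau (k : ℕ) (N : ℝ) : Continuous (plateau k N) := by
  unfold plateau; fun_prop

theorem plateau_eq_one {k : ℕ} {N : ℝ} {x : UnitAddCircle} (h : ‖x‖ ≤ 1 / (2 * k)) :
    plateau k N x = 1 := by
  rw [plateau, max_eq_left (sub_nonpos.2 h)]
  simp

theorem plateau_eq_zero {k : ℕ} {N : ℝ} (hN : 0 < N) {x : UnitAddCircle}
    (h : 1 / (2 * k) + 1 / N ≤ ‖x‖) : plateau k N x = 0 := by
  have h1 : 1 / N ≤ ‖x‖ - 1 / (2 * k) := by linarith
  have h2 : 1 ≤ N * max 0 (‖x‖ - 1 / (2 * k)) := by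
    calc (1 : ℝ) = N * (1 / N) := by field_simp
      _ ≤ N * max 0 (‖x‖ - 1 / (2 * k)) :=
        mul_le_mul_of_nonneg_left (h1.trans (le_max_right _ _)) hN.le
  exact max_eq_left (by linarith)

/-- The centres. -/
def centre {k : ℕ} (i : Fin k) : UnitAddCircle := (((i : ℕ) : ℝ) / k : ℝ)

theorem exists_near_centre {k : ℕ} (hk : 0 < k) (x : UnitAddCircle) :
    ∃ i : Fin k, ‖x - centre i‖ ≤ 1 / (2 * k) := by
  obtain ⟨y, rfl⟩ := QuotientAddGroup.mk_surjective x
  set m : ℤ := round ((k : ℝ) * y) with hm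
  have hk0 : (k : ℤ) ≠ 0 := by exact_mod_cast hk.ne'
  have hkR : (0 : ℝ) < k := by exact_mod_cast hk
  refine ⟨⟨(m % k).toNat, ?_⟩, ?_⟩
  · have := Int.emod_lt_of_pos m (b := (k : ℤ)) (by exact_mod_cast hk)
    have := Int.emod_nonneg m hk0
    omega
  · have hr : (((m % k).toNat : ℕ) : ℝ) = (m : ℝ) - k * ((m / k : ℤ) : ℝ) := by
      have h0 : (((m % k).toNat : ℕ) : ℤ) = m - k * (m / k) := by
        rw [Int.toNat_of_nonneg (Int.emod_nonneg m hk0), Int.emod_def]
      exact_mod_cast h0
    have hc : centre (⟨(m % k).toNat, by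
        have := Int.emod_lt_of_pos m (b := (k : ℤ)) (by exact_mod_cast hk)
        have := Int.emod_nonneg m hk0
        omega⟩ : Fin k) = ((((m : ℝ) / k : ℝ)) : UnitAddCircle) := by
      rw [centre, hr, sub_div, mul_div_cancel_left₀ _ hkR.ne', AddCircle.coe_sub]
      simp [show (((m / k : ℤ) : ℝ) : UnitAddCircle) = 0 from
        AddCircle.coe_eq_zero_iff (1 : ℝ) |>.2 ⟨m / k, by simp⟩]
    rw [hc, ← AddCircle.coe_sub, UnitAddCircle.norm_eq]
    refine (round_le _ 0).trans ?_
    have h := abs_sub_round ((k : ℝ) * y)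
    rw [Int.cast_zero, sub_zero, show y - (m : ℝ) / k = ((k : ℝ) * y - m) / k by field_simp,
      abs_div, abs_of_pos hkR, div_le_div_iff₀ hkR (by positivity)]
    nlinarith [h]

theorem le_norm_centre_sub {k : ℕ} {i j : Fin k} (h : i ≠ j) :
    1 / (k : ℝ) ≤ ‖centre i - centre j‖ := by
  have hkR : (0 : ℝ) < k := by exact_mod_cast i.pos
  rw [centre, centre, ← AddCircle.coe_sub, UnitAddCircle.norm_eq, ← sub_div]
  set r := round ((((i : ℕ) : ℝ) - ((j : ℕ) : ℝ)) / k)
  have hne : ((i : ℕ) : ℤ) - ((j : ℕ) : ℤ) - r * k ≠ 0 := by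
    intro h0
    have hi := i.isLt
    have hj := j.isLt
    have hd : (k : ℤ) ∣ ((i : ℕ) : ℤ) - ((j : ℕ) : ℤ) := ⟨r, by linarith⟩
    have h1 := Int.eq_zero_of_abs_lt_dvd hd (by rw [abs_lt]; omega)
    exact h (Fin.ext (by omega))
  have h1 : (1 : ℝ) ≤ |((i : ℕ) : ℝ) - ((j : ℕ) : ℝ) - r * k| := by
    have := Int.one_le_abs hne
    exact_mod_cast this
  rw [show (((i : ℕ) : ℝ) - ((j : ℕ) : ℝ)) / k - r =
    (((i : ℕ) : ℝ) - ((j : ℕ) : ℝ) - r * k) / k by field_simp, abs_div, abs_of_pos hkR]
  gcongr

theorem measureReal_closedBall (c : UnitAddCircle) {r : ℝ} (h0 : 0 ≤ r) (h1 : 2 * r ≤ 1) :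
    (volume (Metric.closedBall c r)).toReal = 2 * r := by
  rw [AddCircle.volume_closedBall, min_eq_right h1, ENNReal.toReal_ofReal (by linarith)]

/-- Partitions of unity of the circle with almost equal means and small overlaps. -/
theorem exists_circle_partition {k : ℕ} (hk : 0 < k) {η : ℝ} (hη : 0 < η) :
    ∃ F : Fin k → C(UnitAddCircle, ℝ), (∀ i x, 0 ≤ F i x) ∧ (∀ x, ∑ i, F i x = 1) ∧
      (∀ i, |(∫ x, F i x) - 1 / k| ≤ η) ∧ ∀ i j, i ≠ j → |∫ x, F i x * F j x| ≤ η := by
  classical
  have hkR : (0 : ℝ) < k := by exact_mod_cast hk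
  set N : ℝ := 4 / η + 4 * k with hN
  have hN0 : 0 < N := by positivity
  have hNk : 1 / N ≤ 1 / (4 * k) := one_div_le_one_div_of_le (by positivity) (by
    have : (0 : ℝ) ≤ 4 / η := by positivity
    linarith)
  have hNη : 4 / N ≤ η := by
    rw [div_le_iff₀ hN0, hN, mul_add, mul_div_cancel₀ _ hη.ne']
    nlinarith
  let g : Fin k → UnitAddCircle → ℝ := fun i x => plateau k N (x - centre i)
  have hS : ∀ x, 0 < ∑ i, g i x := by
    intro x
    obtain ⟨i, hi⟩ := exists_near_centre hk x
    exact lt_of_lt_of_le one_pos ((plateau_eq_one (N := N) hi).ge.trans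
      (Finset.single_le_sum (f := fun j => g j x) (fun j _ => plateau_nonneg k N _) (Finset.mem_univ i)))
  have hg : ∀ i, Continuous (g i) := fun i =>
    (continuous_plateau k N).comp (continuous_id.sub continuous_const)
  let F : Fin k → C(UnitAddCircle, ℝ) := fun i =>
    ⟨fun x => g i x / ∑ j, g j x, (hg i).div (continuous_finsetSum _ fun j _ => hg j)
      fun x => (hS x).ne'⟩
  have hF : ∀ i x, F i x = g i x / ∑ j, g j x := fun i x => rfl
  have h0 : ∀ i x, 0 ≤ F i x := fun i x => by
    rw [hF]; exact div_nonneg (plateau_nonneg _ _ _) (hS x).le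
  have hsum : ∀ x, ∑ i, F i x = 1 := fun x => by
    simp only [hF, ← Finset.sum_div]; exact div_self (hS x).ne'
  have hle : ∀ i x, F i x ≤ 1 := fun i x =>
    (Finset.single_le_sum (f := fun j => F j x) (fun j _ => h0 j x) (Finset.mem_univ i)).trans_eq
      (hsum x)
  set r₁ : ℝ := 1 / (2 * k) - 1 / N with hr₁
  set r₂ : ℝ := 1 / (2 * k) + 1 / N with hr₂
  have hk2 : 1 / (2 * (k : ℝ)) = 2 * (1 / (4 * k)) := by field_simp; ring
  have hN' : 0 < 1 / N := by positivity
  have hr₁0 : 0 ≤ r₁ := by
    have : (0 : ℝ) < 1 / (4 * k) := by positivity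
    linarith
  have hzero : ∀ i x, r₂ < ‖x - centre i‖ → F i x = 0 := fun i x h => by
    rw [hF, show g i x = 0 from plateau_eq_zero hN0 h.le, zero_div]
  have hone : ∀ i x, ‖x - centre i‖ ≤ r₁ → F i x = 1 := by
    intro i x h
    have hz : ∀ j ∈ Finset.univ, j ≠ i → g j x = 0 := by
      intro j _ hj
      refine plateau_eq_zero hN0 ?_
      have := le_norm_centre_sub hj
      have h3 : ‖centre j - centre i‖ ≤ ‖x - centre i‖ + ‖x - centre j‖ := by
        rw [show centre j - centre i = (x - centre i) - (x - centre j) by abel]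
        exact norm_sub_le _ _
      have : 1 / (k : ℝ) = 2 * (1 / (2 * k)) := by field_simp
      linarith
    rw [hF, Finset.sum_eq_single_of_mem i (Finset.mem_univ i) hz]
    exact div_self (ne_of_gt (lt_of_lt_of_le one_pos (plateau_eq_one (by linarith)).ge))
  have hmeas : ∀ (i : Fin k) (r : ℝ), MeasurableSet (Metric.closedBall (centre i) r) :=
    fun i r => Metric.isClosed_closedBall.measurableSet
  have hint : ∀ i : Fin k, ∀ r, Integrable
      ((Metric.closedBall (centre i) r).indicator fun _ => (1 : ℝ)) (volume : Measure UnitAddCircle) :=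
    fun i r => (integrable_const (1 : ℝ)).indicator (hmeas i r)
  have hball : ∀ i : Fin k, ∀ r, 0 ≤ r → 2 * r ≤ 1 →
      ∫ x : UnitAddCircle, (Metric.closedBall (centre i) r).indicator (fun _ => (1 : ℝ)) x = 2 * r := by
    intro i r h1 h2
    rw [integral_indicator_const _ (hmeas i r), Measure.real, measureReal_closedBall _ h1 h2,
      smul_eq_mul, mul_one]
  have hr₂1 : 2 * r₂ ≤ 1 ∨ k = 1 := by
    rcases Nat.lt_or_ge k 2 with h | h
    · exact Or.inr (by omega)
    · left
      have : (2 : ℝ) ≤ k := by exact_mod_cast h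
      have : 1 / (4 * (k : ℝ)) ≤ 1 / 8 := one_div_le_one_div_of_le (by norm_num) (by linarith)
      linarith
  have hFint : ∀ i, Integrable (fun x => F i x) (volume : Measure UnitAddCircle) := fun i =>
    (F i).continuous.integrable_of_hasCompactSupport (HasCompactSupport.of_compactSpace _)
  refine ⟨F, h0, hsum, ?_⟩
  rcases hr₂1 with hr₂1 | rfl
  swap
  · refine ⟨fun i => ?_, fun i j h => absurd (Subsingleton.elim i j) h⟩
    have : ∀ x, F i x = 1 := fun x => by simpa [Subsingleton.elim i 0] using hsum x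
    simp [this, hη.le, Measure.real]
  have hlo : ∀ i x, (Metric.closedBall (centre i) r₁).indicator (fun _ => (1 : ℝ)) x ≤ F i x := by
    intro i x
    refine Set.indicator_apply_le' (fun hx => ?_) (fun _ => h0 i x)
    rw [hone i x (by simpa [dist_eq_norm] using hx)]
  have hhi : ∀ i x, F i x ≤ (Metric.closedBall (centre i) r₂).indicator (fun _ => (1 : ℝ)) x := by
    intro i x
    by_cases hx : x ∈ Metric.closedBall (centre i) r₂
    · rw [Set.indicator_of_mem hx]; exact hle i x
    · rw [Set.indicator_of_notMem hx, hzero i x (by simpa [dist_eq_norm] using hx)]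
  have hr₁1 : 2 * r₁ ≤ 1 := by linarith
  have hr₂0 : 0 ≤ r₂ := by positivity
  have hk1 : 1 / (k : ℝ) = 2 * (1 / (2 * k)) := by field_simp
  have hη4 : 4 * (1 / N) ≤ η := by rw [← mul_div_assoc, mul_one]; exact hNη
  constructor
  · intro i
    have h1 := integral_mono (hint i r₁) (hFint i) (hlo i)
    have h2 := integral_mono (hFint i) (hint i r₂) (hhi i)
    rw [hball i _ hr₁0 hr₁1] at h1
    rw [hball i _ hr₂0 hr₂1] at h2
    rw [abs_le]
    constructor <;> linarith
  · intro i j hij
    have hnn : 0 ≤ ∫ x, F i x * F j x := integral_nonneg fun x => mul_nonneg (h0 i x) (h0 j x)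
    rw [abs_of_nonneg hnn]
    have hpt : ∀ x, F i x * F j x ≤ (Metric.closedBall (centre i) r₂).indicator (fun _ => (1 : ℝ)) x -
        (Metric.closedBall (centre i) r₁).indicator (fun _ => (1 : ℝ)) x := by
      intro x
      have hsj : F i x + F j x ≤ 1 := by
        rw [← Finset.sum_pair (f := fun l => F l x) hij]
        exact (Finset.sum_le_sum_of_subset_of_nonneg (Finset.subset_univ _) fun l _ _ => h0 l x).trans_eq
          (hsum x)
      by_cases hx : x ∈ Metric.closedBall (centre i) r₁
      · have := hone i x (by simpa [dist_eq_norm] using hx)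
        have hj0 : F j x = 0 := le_antisymm (by linarith) (h0 j x)
        rw [hj0, mul_zero, Set.indicator_of_mem hx,
          Set.indicator_of_mem (Metric.closedBall_subset_closedBall (by linarith) hx), sub_self]
      · rw [Set.indicator_of_notMem hx, sub_zero]
        exact le_trans (mul_le_of_le_one_right (h0 i x) (hle j x)) (hhi i x)
    have h := integral_mono
      (((F i).continuous.mul (F j).continuous).integrable_of_hasCompactSupport
        (HasCompactSupport.of_compactSpace _))
      ((hint i r₂).sub (hint i r₁)) hpt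
    refine h.trans ?_
    rw [Pi.sub_def, integral_sub (hint i r₂) (hint i r₁), hball i _ hr₂0 hr₂1, hball i _ hr₁0 hr₁1]
    linarith

theorem integral_fourier (m : ℤ) :
    ∫ x : UnitAddCircle, fourier m x = if m = 0 then 1 else 0 := by
  have hv : (volume : Measure UnitAddCircle) = AddCircle.haarAddCircle := by
    rw [AddCircle.volume_eq_smul_haarAddCircle, ENNReal.ofReal_one, one_smul]
  split_ifs with h
  · simp [h, Measure.real, AddCircle.measure_univ]
  · rw [hv]
    exact integral_eq_zero_of_add_right_eq_neg (fourier_add_half_inv_index h one_pos)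

/-- Approximation by trigonometric polynomials, with control of the constant term. -/
theorem exists_trig_near (G : C(UnitAddCircle, ℂ)) {η : ℝ} (hη : 0 < η) :
    ∃ c : ℤ →₀ ℂ, (∀ x, ‖G x - c.sum (fun m a => a * fourier m x)‖ ≤ η) ∧
      ‖c 0 - ∫ x, G x‖ ≤ η := by
  have hG : G ∈ closure ((Submodule.span ℂ (Set.range (@fourier (1 : ℝ))) : Submodule ℂ
      C(UnitAddCircle, ℂ)) : Set C(UnitAddCircle, ℂ)) := by
    rw [← Submodule.topologicalClosure_coe, span_fourier_closure_eq_top]
    trivial
  obtain ⟨P, hP, hd⟩ := Metric.mem_closure_iff.1 hG η hη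
  obtain ⟨c, rfl⟩ := Finsupp.mem_span_range_iff_exists_finsupp.1 hP
  have hx : ∀ x, ‖G x - c.sum (fun m a => a * fourier m x)‖ ≤ η := fun x => by
    have h := (G - c.sum fun m a => a • fourier m).norm_coe_le_norm x
    simp only [ContinuousMap.sub_apply, Finsupp.sum, ContinuousMap.sum_apply,
      ContinuousMap.smul_apply, smul_eq_mul] at h
    exact h.trans (by rw [← dist_eq_norm]; exact hd.le)
  refine ⟨c, hx, ?_⟩
  have hi : ∀ g : C(UnitAddCircle, ℂ), Integrable (fun x => g x) (volume : Measure UnitAddCircle) :=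
    fun g => g.continuous.integrable_of_hasCompactSupport (HasCompactSupport.of_compactSpace _)
  have hP' : ∫ x : UnitAddCircle, c.sum (fun m a => a * fourier m x) = c 0 := by
    simp only [Finsupp.sum]
    rw [integral_finsetSum _ fun m _ => (hi (fourier m)).const_mul _]
    simp only [integral_const_mul, integral_fourier, mul_ite, mul_one, mul_zero,
      Finset.sum_ite_eq', Finsupp.mem_support_iff]
    split_ifs with h
    · rfl
    · exact (not_not.1 h).symm
  have hcont : Continuous fun x : UnitAddCircle => c.sum (fun m a => a * fourier m x) :=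
    continuous_finsetSum _ fun m _ => continuous_const.mul (fourier m).continuous
  rw [norm_sub_rev, ← hP', ← integral_sub (hi G)
    (hcont.integrable_of_hasCompactSupport (HasCompactSupport.of_compactSpace _))]
  refine (norm_integral_le_of_norm_le_const (Filter.Eventually.of_forall hx)).trans ?_
  simp [Measure.real, AddCircle.measure_univ]

end Vale.Agent.P095.Gamma
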