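import Vale.Agent.P095.Gamma.L2

/-!
# P095 equivariant property Gamma: exponentials of sums of independent elements
-/

noncomputable section

namespace Vale.Agent.P095.Gamma

universe u v

variable {B : Type u} [CStarAlgebra B]

/-- The exponential `exp (i t a)`. -/
def wave (t : ℝ) (a : B) : B := NormedSpace.exp ((Complex.I * (t : ℂ)) • a)

theorem wave_zero_right (t : ℝ) : wave t (0 : B) = 1 := by simp [wave]

theorem wave_zero_left (a : B) : wave 0 a = 1 := by simp [wave]

theorem wave_add (t : ℝ) {a b : B} (h : Commute a b) :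
    wave t (a + b) = wave t a * wave t b := by
  rw [wave, wave, wave, smul_add]
  let : NormedAlgebra ℚ B := NormedAlgebra.restrictScalars ℚ ℂ B
  exact NormedSpace.exp_add_of_commute ((h.smul_left _).smul_right _)

theorem wave_eq_cfc (t : ℝ) {a : B} (ha : IsSelfAdjoint a) :
    wave t a = cfc (fun x : ℂ => Complex.exp (Complex.I * (t : ℂ) * x)) a := by
  have := ha.isStarNormal
  rw [wave, ← CFC.complex_exp_eq_normedSpace_exp (a := (Complex.I * (t : ℂ)) • a),
    cfc_comp' (fun y : ℂ => Complex.exp y) (fun x : ℂ => Complex.I * (t : ℂ) * x) a,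
    cfc_const_mul_id (Complex.I * (t : ℂ)) a]

theorem wave_mem {U : StarSubalgebra ℂ B} (hU : IsClosed (U : Set B)) (t : ℝ) {a : B}
    (ha : a ∈ U) : wave t a ∈ U := by
  refine hU.mem_of_tendsto (NormedSpace.exp_series_hasSum_exp' (𝕂 := ℂ) _).tendsto_sum_nat
    (Filter.Eventually.of_forall fun n => ?_)
  exact sum_mem fun m _ => U.toSubalgebra.smul_mem (pow_mem (U.toSubalgebra.smul_mem ha _) _) _

/-- The characteristic function of a bounded element of positive variance decays. -/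
theorem norm_map_wave_le {τ : B →ₗ[ℂ] ℂ} (hτ : IsTrace B τ) {b : B} (hb : star b = b)
    (hn : ‖b‖ ≤ 5) (hv : 1 / 40 ≤ (τ (b * b)).re - (τ b).re ^ 2) {t : ℝ}
    (ht : |t| ≤ 1 / 160000) : ‖τ (wave t b)‖ ≤ 1 - t ^ 2 / 160 := by
  rcases subsingleton_or_nontrivial B with h | h
  · exact absurd hτ.map_one (by rw [Subsingleton.elim (1 : B) 0, map_zero]; simp)
  have hsa : IsSelfAdjoint b := hb
  have := hsa.isStarNormal
  set c : ℝ := (τ b).re with hc
  have hτb : τ b = (c : ℂ) := Complex.ext (by simp [hc]) (by simp [hτ.im_of_sa hb])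
  have hc5 : |c| ≤ 5 := (Complex.abs_re_le_norm _).trans ((hτ.norm_map_le_norm b).trans hn)
  set e : ℂ := Complex.exp (Complex.I * (t : ℂ) * (c : ℂ))
  let q : ℂ → ℂ := fun x => 1 + Complex.I * (t : ℂ) * (x - (c : ℂ)) +
    (Complex.I * (t : ℂ) * (x - (c : ℂ))) ^ 2 / 2
  have hbd : ‖wave t b - e • cfc q b‖ ≤ 1000 * |t| ^ 3 := by
    rw [wave_eq_cfc t hsa, ← cfc_smul e q b (by fun_prop),
      ← cfc_sub _ _ b (by fun_prop) (by fun_prop)]
    refine norm_cfc_le (by positivity) fun x hx => ?_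
    have hx5 : ‖x‖ ≤ 5 := (spectrum.norm_le_norm_of_mem hx).trans hn
    have hy : ‖Complex.I * (t : ℂ) * (x - (c : ℂ))‖ ≤ |t| * 10 := by
      rw [norm_mul, norm_mul, Complex.norm_I, one_mul, Complex.norm_real, Real.norm_eq_abs]
      refine mul_le_mul_of_nonneg_left ((norm_sub_le _ _).trans ?_) (abs_nonneg _)
      rw [Complex.norm_real, Real.norm_eq_abs]
      linarith
    have hy1 : ‖Complex.I * (t : ℂ) * (x - (c : ℂ))‖ ≤ 1 := hy.trans (by linarith [abs_nonneg t])
    have h3 := Complex.exp_bound hy1 (n := 3) (by norm_num)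
    have he : ‖e‖ = 1 := by
      rw [Complex.norm_exp]; simp
    have heq : Complex.exp (Complex.I * (t : ℂ) * x) - e • q x =
        e * (Complex.exp (Complex.I * (t : ℂ) * (x - (c : ℂ))) -
          ∑ m ∈ Finset.range 3, (Complex.I * (t : ℂ) * (x - (c : ℂ))) ^ m / (m.factorial : ℂ)) := by
      rw [smul_eq_mul, mul_sub, ← Complex.exp_add]
      congr 2
      · ring
      · simp [q, Finset.sum_range_succ, Nat.factorial]
    rw [heq, norm_mul, he, one_mul]
    refine h3.trans ?_
    have : ‖Complex.I * (t : ℂ) * (x - (c : ℂ))‖ ^ 3 ≤ (|t| * 10) ^ 3 :=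
      pow_le_pow_left₀ (norm_nonneg _) hy 3
    rw [mul_pow] at this
    generalize ‖Complex.I * (t : ℂ) * (x - (c : ℂ))‖ ^ 3 = w at this ⊢
    norm_num [Nat.factorial]
    linarith [pow_nonneg (abs_nonneg t) 3]
  set d : B := b - (c : ℂ) • (1 : B) with hd
  have hd' : star d = d := by simp [hd, hb]
  have hq : cfc q b = 1 + (Complex.I * (t : ℂ)) • d +
      ((Complex.I * (t : ℂ)) ^ 2 / 2) • (d * d) := by
    have h1 : cfc (fun x : ℂ => x - (c : ℂ)) b = d := by
      rw [cfc_sub _ _ b, cfc_id' ℂ b, cfc_const _ b, Algebra.algebraMap_eq_smul_one]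
    have hq' : q = fun x : ℂ => 1 + (Complex.I * (t : ℂ)) * (x - (c : ℂ)) +
        ((Complex.I * (t : ℂ)) ^ 2 / 2) * ((x - (c : ℂ)) * (x - (c : ℂ))) := by
      funext x; simp only [q]; ring
    rw [hq', cfc_add (a := b) _ _, cfc_add (a := b) _ _, cfc_const_one ℂ b, cfc_const_mul _ _ b,
      cfc_const_mul _ _ b, cfc_mul _ _ b, h1]
  set V : ℝ := (τ (b * b)).re - c ^ 2 with hV
  have hdd : (τ (d * d)).re = V := by
    have := hτ.l2_sub_map_sq hb
    rw [hτ.l2_sq, hτb, ← hd, hd'] at this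
    simpa [hV] using this
  have hdd' : τ (d * d) = (V : ℂ) :=
    Complex.ext (by simp [hdd]) (by
      rw [Complex.ofReal_im]; exact hτ.im_of_sa (by rw [star_mul, hd']))
  have hV100 : V ≤ 100 := by
    rw [← hdd]
    refine (Complex.re_le_norm _).trans ((hτ.norm_map_le_norm _).trans ((norm_mul_le _ _).trans ?_))
    have : ‖d‖ ≤ 10 := by
      refine (norm_sub_le _ _).trans ?_
      rw [norm_smul, norm_one, mul_one, Complex.norm_real, Real.norm_eq_abs]
      linarith
    nlinarith [norm_nonneg d]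
  have hτq : τ (cfc q b) = ((1 - t ^ 2 * V / 2 : ℝ) : ℂ) := by
    rw [hq, map_add, map_add, map_smul, map_smul, hτ.map_one, hdd',
      show τ d = 0 by rw [hd, map_sub, map_smul, hτ.map_one, hτb]; simp]
    simp [mul_pow, Complex.I_sq]
    ring
  have h1 : ‖τ (e • cfc q b)‖ ≤ 1 - t ^ 2 / 80 := by
    rw [map_smul, smul_eq_mul, norm_mul, hτq, Complex.norm_real, Real.norm_eq_abs,
      show ‖e‖ = 1 by rw [Complex.norm_exp]; simp, one_mul, abs_le]
    have ht2 : t ^ 2 ≤ (1 / 160000) ^ 2 := by rw [← sq_abs]; gcongr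
    constructor <;> nlinarith [sq_nonneg t, hv, hV100]
  calc ‖τ (wave t b)‖ = ‖τ (e • cfc q b) + τ (wave t b - e • cfc q b)‖ := by
        rw [map_sub, add_sub_cancel]
    _ ≤ ‖τ (e • cfc q b)‖ + ‖τ (wave t b - e • cfc q b)‖ := norm_add_le _ _
    _ ≤ (1 - t ^ 2 / 80) + 1000 * |t| ^ 3 :=
        add_le_add h1 ((hτ.norm_map_le_norm _).trans hbd)
    _ ≤ 1 - t ^ 2 / 160 := by
        have : |t| ^ 3 ≤ t ^ 2 * (1 / 160000) := by
          rw [pow_succ, sq_abs]; exact mul_le_mul_of_nonneg_left ht (sq_nonneg _)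
        linarith

namespace SlotSystem

variable {G : Type v} [Group G] (S : SlotSystem B G)

/-- Elements of disjoint sets of slots commute. -/
theorem commute_of_disjoint {P Q : Set ℕ} (h : Disjoint P Q) {x y : B} (hx : x ∈ S.gen P)
    (hy : y ∈ S.gen Q) : Commute x y := by
  have key : ∀ {P Q : Set ℕ}, ∀ s : Set B, (∀ z ∈ s, ∀ g, ∀ i ∈ Q,
      Commute z (S.act g (S.h i)) ∧ Commute (star z) (S.act g (S.h i))) →
      ∀ y ∈ S.gen Q, ∀ z ∈ s, Commute z y := by
    intro P Q s hs y hy z hz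
    have hle : S.gen Q ≤ StarSubalgebra.centralizer ℂ s := by
      refine StarSubalgebra.topologicalClosure_minimal (StarAlgebra.adjoin_le ?_)
        (Set.isClosed_centralizer _)
      rintro _ ⟨g, i, hi, rfl⟩
      rw [SetLike.mem_coe, StarSubalgebra.mem_centralizer_iff]
      exact fun z hz => ⟨(hs z hz g i hi).1.eq, (hs z hz g i hi).2.eq⟩
    exact ((StarSubalgebra.mem_centralizer_iff ℂ).1 (hle hy) z hz).1
  refine (key (P := P) (S.gen Q : Set B) ?_ x hx y hy).symm
  intro z hz g i hi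
  have hsa : ∀ k j, star (S.act k (S.h j)) = S.act k (S.h j) := fun k j => by
    rw [← map_star, S.h_sa]
  have hgen : ∀ w ∈ S.gen Q, Commute (S.act g (S.h i)) w := by
    intro w hw
    refine key (P := Q) {S.act g (S.h i)} ?_ w hw _ rfl
    rintro _ rfl k j hj
    rw [hsa]
    exact ⟨S.comm g k i j fun e => h.ne_of_mem hi hj e,
      S.comm g k i j fun e => h.ne_of_mem hi hj e⟩
  exact ⟨(hgen z hz).symm, (hgen _ (star_mem hz)).symm⟩

theorem disjoint_poolUnion {a b c : ℕ} :
    Disjoint (poolUnion (Set.Ico a b)) (poolUnion (Set.Ico b c)) :=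
  Set.disjoint_left.2 fun _ h1 h2 => absurd h1.2 (not_lt.2 h2.1)

theorem poolUnion_mono {a b a' b' : ℕ} (ha : a' ≤ a) (hb : b ≤ b') :
    poolUnion (Set.Ico a b) ⊆ poolUnion (Set.Ico a' b') := fun _ h =>
  ⟨ha.trans h.1, lt_of_lt_of_le h.2 hb⟩

variable {i : ℕ → ℕ} {b : ℕ → B}

/-- The exponential of a sum of elements from consecutive ranges of pools factorises. -/
theorem Good.map_wave_sum {τ : B →ₗ[ℂ] ℂ} (hτ : S.Good τ) (hi : Monotone i)
    (hb : ∀ l, b l ∈ S.gen (poolUnion (Set.Ico (i l) (i (l + 1))))) (t : ℝ) (K : ℕ) :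
    wave t (∑ l ∈ Finset.range K, b l) ∈ S.gen (poolUnion (Set.Ico (i 0) (i K))) ∧
      τ (wave t (∑ l ∈ Finset.range K, b l)) = ∏ l ∈ Finset.range K, τ (wave t (b l)) := by
  induction K with
  | zero => simpa [wave_zero_right, hτ.trace.map_one] using one_mem (S.gen _)
  | succ K ih =>
    have hsum : ∑ l ∈ Finset.range K, b l ∈ S.gen (poolUnion (Set.Ico (i 0) (i K))) :=
      sum_mem fun l hl => S.gen_mono (poolUnion_mono (hi (Nat.zero_le l))
        (hi (Finset.mem_range.1 hl))) (hb l)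
    rw [Finset.sum_range_succ, wave_add t (S.commute_of_disjoint disjoint_poolUnion hsum (hb K)),
      Finset.prod_range_succ, ← ih.2]
    have hw : wave t (b K) ∈ S.gen (poolUnion (Set.Ico (i K) (i (K + 1)))) :=
      wave_mem (StarSubalgebra.isClosed_topologicalClosure _) t (hb K)
    refine ⟨mul_mem (S.gen_mono (poolUnion_mono le_rfl (hi (Nat.le_succ K))) ih.1)
      (S.gen_mono (poolUnion_mono (hi (Nat.zero_le K)) le_rfl) hw), ?_⟩
    exact hτ.map_mul S disjoint_poolUnion ih.1 hw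

end SlotSystem

/-- The continuous functional calculus is uniformly continuous on bounded sets. -/
theorem exists_cfc_delta (f : ℝ → ℝ) (hf : Continuous f) (R : ℝ) {ε : ℝ} (hε : 0 < ε) :
    ∃ δ, 0 < δ ∧ ∀ x y : B, IsSelfAdjoint x → IsSelfAdjoint y → ‖x‖ ≤ R → ‖y‖ ≤ R → ‖x - y‖ ≤ δ →
      ‖cfc f x - cfc f y‖ ≤ ε := by
  obtain ⟨p, hp⟩ := exists_polynomial_near_of_continuousOn (-R) R f hf.continuousOn (ε / 3)
    (by positivity)
  set R' := max R 1
  set C : ℝ := ∑ n ∈ Finset.range (p.natDegree + 1), |p.coeff n| * (n * R' ^ n)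
  have hC : 0 ≤ C := Finset.sum_nonneg fun n _ => by positivity
  refine ⟨ε / (3 * (C + 1)), by positivity, fun x y hx hy hxR hyR hxy => ?_⟩
  rcases subsingleton_or_nontrivial B with h | h
  · simp [Subsingleton.elim (cfc f x) (cfc f y), hε.le]
  have hnear : ∀ z : B, IsSelfAdjoint z → ‖z‖ ≤ R → ‖cfc f z - Polynomial.aeval z p‖ ≤ ε / 3 := by
    intro z hz hzR
    rw [← cfc_polynomial p z, ← cfc_sub f _ z]
    refine norm_cfc_le (by positivity) fun r hr => ?_
    have hr' : |r| ≤ R := (spectrum.norm_le_norm_of_mem hr).trans hzR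
    rw [Real.norm_eq_abs, abs_sub_comm]
    exact (hp r (abs_le.1 hr')).le
  have hpow : ∀ n : ℕ, ‖x ^ n - y ^ n‖ ≤ n * R' ^ n * ‖x - y‖ := by
    intro n
    induction n with
    | zero => simp
    | succ n ih =>
      have e : x ^ (n + 1) - y ^ (n + 1) = x * (x ^ n - y ^ n) + (x - y) * y ^ n := by
        rw [pow_succ', pow_succ']; noncomm_ring
      have hR1 : (1 : ℝ) ≤ R' := le_max_right _ _
      have hyn : ‖y ^ n‖ ≤ R' ^ n :=
        (norm_pow_le y n).trans (pow_le_pow_left₀ (norm_nonneg _) (hyR.trans (le_max_left _ _)) n)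
      rw [e]
      refine (norm_add_le _ _).trans ?_
      have h1 : ‖x * (x ^ n - y ^ n)‖ ≤ R' * (n * R' ^ n * ‖x - y‖) :=
        (norm_mul_le _ _).trans (mul_le_mul (hxR.trans (le_max_left _ _)) ih (norm_nonneg _)
          (by linarith))
      have h2 : ‖(x - y) * y ^ n‖ ≤ ‖x - y‖ * (R' * R' ^ n) :=
        (norm_mul_le _ _).trans (mul_le_mul_of_nonneg_left
          (hyn.trans (le_mul_of_one_le_left (by positivity) hR1)) (norm_nonneg _))
      refine (add_le_add h1 h2).trans_eq ?_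
      push_cast
      ring
  have hmid : ‖Polynomial.aeval x p - Polynomial.aeval y p‖ ≤ ε / 3 := by
    rw [Polynomial.aeval_eq_sum_range, Polynomial.aeval_eq_sum_range, ← Finset.sum_sub_distrib]
    refine (norm_sum_le _ _).trans ?_
    calc ∑ n ∈ Finset.range (p.natDegree + 1), ‖p.coeff n • x ^ n - p.coeff n • y ^ n‖
        ≤ ∑ n ∈ Finset.range (p.natDegree + 1), |p.coeff n| * (n * R' ^ n) * ‖x - y‖ :=
          Finset.sum_le_sum fun n _ => by
            rw [← smul_sub, norm_smul, Real.norm_eq_abs, mul_assoc]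
            exact mul_le_mul_of_nonneg_left (hpow n) (abs_nonneg _)
      _ = C * ‖x - y‖ := by rw [Finset.sum_mul]
      _ ≤ C * (ε / (3 * (C + 1))) := mul_le_mul_of_nonneg_left hxy hC
      _ ≤ ε / 3 := by
          rw [← mul_div_assoc, div_le_div_iff₀ (by positivity) (by norm_num)]
          nlinarith
  have e : cfc f x - cfc f y = (cfc f x - Polynomial.aeval x p) +
      (Polynomial.aeval x p - Polynomial.aeval y p) - (cfc f y - Polynomial.aeval y p) := by abel
  rw [e]
  refine (norm_sub_le _ _).trans ?_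
  have h1 := hnear x hx hxR
  have h2 := hnear y hy hyR
  have h3 := norm_add_le (cfc f x - Polynomial.aeval x p) (Polynomial.aeval x p - Polynomial.aeval y p)
  linarith

end Vale.Agent.P095.Gamma
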