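import Vale.Agent.P095.Gamma.Specs
import Vale.Agent.P095.Gamma.PhaseCircle
import Vale.Agent.P095.Gamma.PhaseExp

/-!
# P095 equivariant property Gamma: partitions of unity from a phase

A long sum `Z` of independent almost invariant elements of positive variance has a characteristic
function which is small away from zero, so `F (u Z mod 1)` has mean `∫ F` in every good trace,
independently of the base.
-/

noncomputable section

namespace Vale.Agent.P095.Gamma

universe u v

open MeasureTheory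

variable {B : Type u} [CStarAlgebra B] {G : Type v} [Group G] (S : SlotSystem B G)

/-- A function of the phase of `Z` has mean close to its integral, independently of the base. -/
theorem SlotSystem.Good.map_phase_mul {τ : B →ₗ[ℂ] ℂ} (hτ : S.Good τ) {Z : B}
    (hZ : IsSelfAdjoint Z) (hZm : Z ∈ S.gen Set.univ) {g : UnitAddCircle → ℝ} (hg : Continuous g)
    (c : ℤ →₀ ℂ) {η r w : ℝ} (hη : 0 ≤ η)
    (hc : ∀ x, ‖(g x : ℂ) - c.sum (fun m a => a * fourier m x)‖ ≤ η)
    (hr : ∀ m ∈ c.support, m ≠ 0 → ‖τ (wave (2 * Real.pi * m * w) Z)‖ ≤ r) (hr0 : 0 ≤ r)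
    {a : B} (ha : a ∈ S.base) :
    ‖τ (cfc (fun x : ℝ => g ((w * x : ℝ) : UnitAddCircle)) Z * a) - c 0 * τ a‖ ≤
      (η + r * ∑ m ∈ c.support, ‖c m‖) * ‖a‖ := by
  have hsn := hZ.isStarNormal
  set P : B := ∑ m ∈ c.support, c m • wave (2 * Real.pi * m * w) Z with hP
  have hgc : Continuous fun x : ℝ => g ((w * x : ℝ) : UnitAddCircle) :=
    hg.comp ((AddCircle.continuous_mk' (1 : ℝ)).comp (continuous_const_mul w))
  have hnear : ‖cfc (fun x : ℝ => g ((w * x : ℝ) : UnitAddCircle)) Z - P‖ ≤ η := by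
    have hPc : P = cfc (fun x : ℂ => ∑ m ∈ c.support,
        c m * Complex.exp (Complex.I * ((2 * Real.pi * m * w : ℝ) : ℂ) * x)) Z := by
      have hcm : ∀ m ∈ c.support, ContinuousOn (fun x : ℂ =>
          c m * Complex.exp (Complex.I * ((2 * Real.pi * m * w : ℝ) : ℂ) * x)) (spectrum ℂ Z) :=
        fun m _ => (by fun_prop : Continuous fun x : ℂ =>
          c m * Complex.exp (Complex.I * ((2 * Real.pi * m * w : ℝ) : ℂ) * x)).continuousOn
      rw [← Finset.sum_fn, cfc_sum (fun (m : ℤ) (x : ℂ) => c m * Complex.exp (Complex.I * ((2 * Real.pi * m * w : ℝ) : ℂ) * x)) Z c.support hcm]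
      refine Finset.sum_congr rfl fun m _ => ?_
      rw [cfc_const_mul _ _ Z (by fun_prop), wave_eq_cfc _ hZ]
    rw [hPc, cfc_real_eq_complex _ (ha := hZ), ← cfc_sub _ _ Z
      (by exact (Complex.continuous_ofReal.comp (hgc.comp Complex.continuous_re)).continuousOn)
      (by fun_prop)]
    refine norm_cfc_le hη fun x hx => ?_
    have hxre := hZ.mem_spectrum_eq_re hx
    have h := hc ((w * x.re : ℝ) : UnitAddCircle)
    simp only [Finsupp.sum, fourier_coe_apply, Complex.ofReal_one, div_one] at h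
    refine le_of_eq_of_le ?_ h
    congr 2
    refine Finset.sum_congr rfl fun m _ => ?_
    congr 2
    conv_lhs => rw [hxre]
    push_cast
    ring
  have hsplit : ∀ m, τ (wave (2 * Real.pi * m * w) Z * a) =
      τ (wave (2 * Real.pi * m * w) Z) * τ a := fun m =>
    hτ.indep Set.univ _ (wave_mem (StarSubalgebra.isClosed_topologicalClosure _) _ hZm) a
      (S.base_le_genBase _ ha)
  have hna := hτ.trace.norm_map_le_norm a
  have hmain : ‖τ (P * a) - c 0 * τ a‖ ≤ r * (∑ m ∈ c.support, ‖c m‖) * ‖a‖ := by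
    have h0 : c 0 * τ a = ∑ m ∈ c.support, (if m = 0 then c m * τ a else 0) := by
      rw [Finset.sum_ite_eq']
      split_ifs with h
      · rfl
      · rw [Finsupp.notMem_support_iff.1 h, zero_mul]
    have hPa : τ (P * a) = ∑ m ∈ c.support, c m * (τ (wave (2 * Real.pi * m * w) Z) * τ a) := by
      rw [hP, Finset.sum_mul, map_sum]
      refine Finset.sum_congr rfl fun m _ => ?_
      rw [smul_mul_assoc, map_smul, hsplit, smul_eq_mul]
    rw [h0, hPa, ← Finset.sum_sub_distrib, Finset.mul_sum, Finset.sum_mul]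
    refine (norm_sum_le _ _).trans (Finset.sum_le_sum fun m hm => ?_)
    split_ifs with h
    · simp [h, wave_zero_left, hτ.trace.map_one]
      positivity
    · rw [sub_zero, norm_mul, norm_mul]
      calc ‖c m‖ * (‖τ (wave (2 * Real.pi * m * w) Z)‖ * ‖τ a‖) ≤ ‖c m‖ * (r * ‖a‖) :=
            mul_le_mul_of_nonneg_left (mul_le_mul (hr m hm h) hna (norm_nonneg _) hr0) (norm_nonneg _)
        _ = r * ‖c m‖ * ‖a‖ := by ring
  have h1 : ‖τ ((cfc (fun x : ℝ => g ((w * x : ℝ) : UnitAddCircle)) Z - P) * a)‖ ≤ η * ‖a‖ :=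
    (hτ.trace.norm_map_le_norm _).trans ((norm_mul_le _ _).trans
      (mul_le_mul_of_nonneg_right hnear (norm_nonneg _)))
  rw [sub_mul, map_sub] at h1
  have := norm_sub_le_norm_sub_add_norm_sub
    (τ (cfc (fun x : ℝ => g ((w * x : ℝ) : UnitAddCircle)) Z * a)) (τ (P * a)) (c 0 * τ a)
  rw [add_mul]
  linarith

/-- `PartitionStatement` follows from `VarianceStatement`. -/
theorem partitionStatement_of (hvar : VarianceStatement.{u, v}) : PartitionStatement.{u, v} := by
  intro B _ G _ _ hG S k hk ε hε T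
  classical
  set η : ℝ := ε / 4 with hηdef
  have hη : 0 < η := by positivity
  obtain ⟨F, hF0, hF1, hFmean, hFover⟩ := exists_circle_partition hk hη
  let gg : Fin k ⊕ (Fin k × Fin k) → UnitAddCircle → ℝ :=
    Sum.elim (fun i x => F i x) (fun q x => F q.1 x * F q.2 x)
  have hgg : ∀ p, Continuous (gg p) := by
    rintro (i | ⟨i, j⟩)
    · exact (F i).continuous
    · exact (F i).continuous.mul (F j).continuous
  have hex : ∀ p, ∃ c : ℤ →₀ ℂ, (∀ x, ‖(gg p x : ℂ) - c.sum (fun m a => a * fourier m x)‖ ≤ η) ∧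
      ‖c 0 - ((∫ x, gg p x : ℝ) : ℂ)‖ ≤ η := fun p => by
    obtain ⟨c, h1, h2⟩ := exists_trig_near
      ⟨fun x => (gg p x : ℂ), Complex.continuous_ofReal.comp (hgg p)⟩ hη
    refine ⟨c, h1, ?_⟩
    rw [← integral_complex_ofReal]
    exact h2
  choose c hc hc0 using hex
  set M : ℕ := Finset.univ.sup fun p => (c p).support.sup Int.natAbs with hM
  set s : ℝ := 1 / (160000 * (M + 1)) with hs
  set w : ℝ := s / (2 * Real.pi) with hw
  have hs0 : 0 < s := by positivity
  have hs1 : s ≤ 1 / 160000 := one_div_le_one_div_of_le (by norm_num) (by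
    have : (0 : ℝ) ≤ M := Nat.cast_nonneg M
    linarith)
  set ρ : ℝ := 1 - s ^ 2 / 160 with hρ
  have hs2 : s ^ 2 ≤ 1 := pow_le_one₀ hs0.le (by linarith)
  have hρ0 : 0 ≤ ρ := by rw [hρ]; linarith
  have hρ1 : ρ < 1 := by
    have : 0 < s ^ 2 := by positivity
    rw [hρ]; linarith
  set L : ℝ := ∑ p, ∑ m ∈ (c p).support, ‖c p m‖ with hL
  have hL0 : 0 ≤ L := Finset.sum_nonneg fun p _ => Finset.sum_nonneg fun m _ => norm_nonneg _
  obtain ⟨K, hK⟩ := exists_pow_lt_of_lt_one (show 0 < η / (L + 1) by positivity) hρ1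
  have hKL : ∀ p, ρ ^ K * ∑ m ∈ (c p).support, ‖c p m‖ ≤ η := fun p => by
    have h1 : ∑ m ∈ (c p).support, ‖c p m‖ ≤ L :=
      Finset.single_le_sum (f := fun p => ∑ m ∈ (c p).support, ‖c p m‖)
        (fun q _ => Finset.sum_nonneg fun m _ => norm_nonneg _) (Finset.mem_univ p)
    calc ρ ^ K * ∑ m ∈ (c p).support, ‖c p m‖ ≤ η / (L + 1) * (L + 1) :=
          mul_le_mul hK.le (h1.trans (by linarith)) (Finset.sum_nonneg fun m _ => norm_nonneg _)
            (by positivity)
      _ = η := by field_simp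
  let f : Fin k → ℝ → ℝ := fun i x => F i ((w * x : ℝ) : UnitAddCircle)
  have hf : ∀ i, Continuous (f i) := fun i =>
    (F i).continuous.comp ((AddCircle.continuous_mk' (1 : ℝ)).comp (continuous_const_mul w))
  have hδex : ∀ i, ∃ δ, 0 < δ ∧ ∀ x y : B, IsSelfAdjoint x → IsSelfAdjoint y → ‖x‖ ≤ 5 * K →
      ‖y‖ ≤ 5 * K → ‖x - y‖ ≤ δ → ‖cfc (f i) x - cfc (f i) y‖ ≤ ε :=
    fun i => exists_cfc_delta (f i) (hf i) (5 * K) hε
  choose δ₀ hδ₀ hδ using hδex
  have : NeZero k := ⟨hk.ne'⟩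
  set δ : ℝ := Finset.univ.inf' Finset.univ_nonempty δ₀ with hδdef
  have hδpos : 0 < δ := (Finset.lt_inf'_iff _).2 fun i _ => hδ₀ i
  have hδle : ∀ i, δ ≤ δ₀ i := fun i => Finset.inf'_le _ (Finset.mem_univ i)
  have hε' : 0 < δ / (K + 1) := by positivity
  choose nx hnx el helmem helsa helnorm helinv helvar using
    fun i₀ => hvar B G hG S T (δ / (K + 1)) hε' i₀
  let idx : ℕ → ℕ := fun l => Nat.rec 0 (fun _ a => nx a) l
  have hidx : ∀ l, idx (l + 1) = nx (idx l) := fun l => rfl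
  have hmono : Monotone idx := monotone_nat_of_le_succ fun l => hidx l ▸ hnx (idx l)
  let b : ℕ → B := fun l => el (idx l)
  have hb : ∀ l, b l ∈ S.gen (poolUnion (Set.Ico (idx l) (idx (l + 1)))) := fun l => helmem (idx l)
  set Z : B := ∑ l ∈ Finset.range K, b l with hZdef
  have hZ : IsSelfAdjoint Z := isSelfAdjoint_sum _ fun l _ => helsa (idx l)
  have hZm : Z ∈ S.gen Set.univ := sum_mem fun l _ => S.gen_mono (Set.subset_univ _) (hb l)
  have hZn : ‖Z‖ ≤ 5 * K :=
    (norm_sum_le _ _).trans ((Finset.sum_le_sum fun l _ => helnorm (idx l)).trans_eq (by simp [mul_comm]))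
  refine ⟨Z, hZm, hZ, f, hf, fun i x => hF0 i _, fun x => hF1 _, fun i g hg => ?_, fun τ hτ => ?_⟩
  · have h1 : S.act g (cfc (f i) Z) = cfc (f i) (S.act g Z) :=
      StarAlgHom.map_cfc (S.act g) (f i) Z (hf i).continuousOn (S.continuous_act g) hZ
        (hZ.map (S.act g))
    rw [h1]
    refine hδ i _ _ (hZ.map (S.act g)) hZ ((NonUnitalStarAlgHom.norm_apply_le (S.act g) Z).trans hZn)
      hZn ((le_trans ?_) (hδle i))
    rw [hZdef, map_sum, ← Finset.sum_sub_distrib]
    refine (norm_sum_le _ _).trans ((Finset.sum_le_sum fun l _ => helinv (idx l) g hg).trans ?_)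
    simp only [Finset.sum_const, Finset.card_range, nsmul_eq_mul]
    rw [← mul_div_assoc, div_le_iff₀ (by positivity)]
    nlinarith
  · have hr : ∀ p, ∀ m ∈ (c p).support, m ≠ 0 → ‖τ (wave (2 * Real.pi * m * w) Z)‖ ≤ ρ ^ K := by
      intro p m hm hm0
      have hπ : 2 * Real.pi * (m : ℝ) * w = m * s := by
        rw [hw]; field_simp
      have hmM : |(m : ℝ)| ≤ M := by
        have h : m.natAbs ≤ M := (Finset.le_sup hm).trans
          (Finset.le_sup (f := fun p => (c p).support.sup Int.natAbs) (Finset.mem_univ p))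
        rw [← Int.cast_abs, Int.abs_eq_natAbs]
        exact_mod_cast h
      have ht : |(m : ℝ) * s| ≤ 1 / 160000 := by
        rw [abs_mul, abs_of_pos hs0, hs, ← mul_div_assoc, mul_one,
          div_le_div_iff₀ (by positivity) (by norm_num)]
        linarith
      have hts : s ^ 2 ≤ ((m : ℝ) * s) ^ 2 := by
        have h1 : (1 : ℝ) ≤ (m : ℝ) ^ 2 := by
          rw [← sq_abs, ← Int.cast_abs]
          exact one_le_pow₀ (by exact_mod_cast Int.one_le_abs hm0)
        rw [mul_pow]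
        exact le_mul_of_one_le_left (sq_nonneg s) h1
      rw [hπ, hZdef, (hτ.map_wave_sum S hmono hb _ K).2, norm_prod]
      calc ∏ l ∈ Finset.range K, ‖τ (wave ((m : ℝ) * s) (b l))‖ ≤ ∏ _l ∈ Finset.range K, ρ :=
            Finset.prod_le_prod (fun l _ => norm_nonneg _) fun l _ =>
              (norm_map_wave_le hτ.trace (helsa (idx l)) (helnorm (idx l))
                (helvar (idx l) τ hτ) ht).trans (by rw [hρ]; linarith)
        _ = ρ ^ K := by simp
    have hkey : ∀ p, ∀ a ∈ S.base,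
        ‖τ (cfc (fun x : ℝ => gg p ((w * x : ℝ) : UnitAddCircle)) Z * a) -
          ((∫ x, gg p x : ℝ) : ℂ) * τ a‖ ≤ 3 * η * ‖a‖ := by
      intro p a ha
      have h1 := hτ.map_phase_mul S hZ hZm (hgg p) (c p) hη.le (hc p) (hr p) (by positivity) ha
      have h2 : ‖c p 0 * τ a - ((∫ x, gg p x : ℝ) : ℂ) * τ a‖ ≤ η * ‖a‖ := by
        rw [← sub_mul, norm_mul]
        exact mul_le_mul (hc0 p) (hτ.trace.norm_map_le_norm a) (norm_nonneg _) hη.le
      have h3 : (η + ρ ^ K * ∑ m ∈ (c p).support, ‖c p m‖) * ‖a‖ ≤ (η + η) * ‖a‖ :=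
        mul_le_mul_of_nonneg_right (add_le_add le_rfl (hKL p)) (norm_nonneg a)
      have := norm_sub_le_norm_sub_add_norm_sub
        (τ (cfc (fun x : ℝ => gg p ((w * x : ℝ) : UnitAddCircle)) Z * a)) (c p 0 * τ a)
        (((∫ x, gg p x : ℝ) : ℂ) * τ a)
      linarith
    refine ⟨fun i a ha => ?_, fun i j hij => ?_⟩
    · have h1 : ‖τ (cfc (f i) Z * a) - ((∫ x, F i x : ℝ) : ℂ) * τ a‖ ≤ 3 * η * ‖a‖ :=
        hkey (Sum.inl i) a ha
      have h2 : ‖((∫ x, F i x : ℝ) : ℂ) * τ a - τ a / k‖ ≤ η * ‖a‖ := by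
        rw [show ((∫ x, F i x : ℝ) : ℂ) * τ a - τ a / k =
          (((∫ x, F i x) - 1 / k : ℝ) : ℂ) * τ a by push_cast; ring, norm_mul, Complex.norm_real,
          Real.norm_eq_abs]
        exact mul_le_mul (hFmean i) (hτ.trace.norm_map_le_norm a) (norm_nonneg _) hη.le
      have := norm_sub_le_norm_sub_add_norm_sub (τ (cfc (f i) Z * a))
        (((∫ x, F i x : ℝ) : ℂ) * τ a) (τ a / k)
      rw [hηdef] at h1 h2
      linarith
    · have h1 : ‖τ (cfc (fun x => f i x * f j x) Z * 1) -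
          ((∫ x, F i x * F j x : ℝ) : ℂ) * τ 1‖ ≤ 3 * η * ‖(1 : B)‖ :=
        hkey (Sum.inr (i, j)) 1 (one_mem _)
      rw [mul_one, cfc_mul (f i) (f j) Z (hf i).continuousOn (hf j).continuousOn, hτ.trace.map_one,
        mul_one] at h1
      have hone : ‖(1 : B)‖ ≤ 1 := by
        rcases subsingleton_or_nontrivial B with h | h
        · simp [Subsingleton.elim (1 : B) 0]
        · rw [norm_one]
      have h2 : ‖((∫ x, F i x * F j x : ℝ) : ℂ)‖ ≤ η := by
        rw [Complex.norm_real, Real.norm_eq_abs]; exact hFover i j hij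
      have := norm_le_norm_sub_add (τ (cfc (f i) Z * cfc (f j) Z))
        ((∫ x, F i x * F j x : ℝ) : ℂ)
      rw [hηdef] at h1 h2
      nlinarith

end Vale.Agent.P095.Gamma
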