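import Vale.Agent.P095.Gamma.Specs
import Vale.Agent.P095.Gamma.L2

/-!
# P095 equivariant property Gamma: the value of a word in a pool

In a good trace the value of a product of exponentials of pool sums is `exp (-q/2)` up to
`O(M^(-1/2))`, where `q` is the trace of the quadratic form `poolVar`, and `exp (-poolVar/2)` is an
element within `O(M^(-1/2))` of this number in the `L²`-seminorm.
-/

noncomputable section

namespace Vale.Agent.P095.Gamma

universe u v

open scoped ComplexOrder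

set_option linter.unusedSectionVars false

/-! ### Second order expansion of products of exponentials -/

section Taylor

variable {B : Type u} [CStarAlgebra B]

theorem norm_one_le' : ‖(1 : B)‖ ≤ 1 := by
  rcases subsingleton_or_nontrivial B with h | h
  · simp [Subsingleton.elim (1 : B) 0]
  · simp

theorem hasSum_exp (x : B) :
    HasSum (fun n : ℕ => ((n.factorial : ℂ))⁻¹ • x ^ n) (NormedSpace.exp x) :=
  NormedSpace.exp_series_hasSum_exp' (𝕂 := ℂ) x

/-- The second order remainder of the exponential. -/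
theorem norm_exp_sub_le {x : B} {ρ : ℝ} (hρ : ρ ≤ 1) (hx : ‖x‖ ≤ ρ) :
    ‖NormedSpace.exp x - (1 + x + (1 / 2 : ℂ) • (x * x))‖ ≤ 3 * ρ ^ 3 := by
  have hρ0 : 0 ≤ ρ := (norm_nonneg x).trans hx
  have h := (hasSum_nat_add_iff' 3).2 (hasSum_exp x)
  simp only [Finset.sum_range_succ, Finset.sum_range_zero, zero_add, pow_zero, pow_one, pow_two,
    Nat.factorial_zero, Nat.factorial_one, Nat.factorial_two, Nat.cast_one, inv_one, one_smul,
    Nat.cast_ofNat] at h
  rw [one_div, ← h.tsum_eq]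
  have hg : HasSum (fun m : ℕ => ρ ^ 3 * ((m.factorial : ℝ))⁻¹) (ρ ^ 3 * Real.exp 1) := by
    have := NormedSpace.exp_series_hasSum_exp' (𝕂 := ℝ) (1 : ℝ)
    simp only [one_pow, smul_eq_mul, mul_one, ← Real.exp_eq_exp_ℝ] at this
    exact this.mul_left _
  refine (tsum_of_norm_bounded hg fun m => ?_).trans ?_
  · rw [norm_smul, norm_inv, Complex.norm_natCast, mul_comm (ρ ^ 3)]
    refine mul_le_mul (inv_anti₀ (by positivity) ?_) ?_ (norm_nonneg _) (by positivity)
    · exact_mod_cast Nat.factorial_le (Nat.le_add_right m 3)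
    · calc ‖x ^ (m + 3)‖ ≤ ‖x‖ ^ (m + 3) := norm_pow_le' x (by omega)
        _ ≤ ρ ^ (m + 3) := pow_le_pow_left₀ (norm_nonneg x) hx _
        _ ≤ ρ ^ 3 := pow_le_pow_of_le_one hρ0 hρ (by omega)
  · nlinarith [Real.exp_one_lt_d9, pow_nonneg hρ0 3]

/-- A product of exponentials up to third order, with the second order term evaluated in a
trace. -/
theorem exists_expansion (n : ℕ) : ∃ C : ℝ, 0 ≤ C ∧ ∀ (B : Type u) [CStarAlgebra B]
    (τ : B →ₗ[ℂ] ℂ), IsTrace B τ → ∀ (x : Fin n → B) (ρ : ℝ), 0 ≤ ρ → ρ ≤ 1 →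
      (∀ j, ‖x j‖ ≤ ρ) → ∃ Q : B, ‖Q‖ ≤ C * ρ ^ 2 ∧
        ‖(List.ofFn fun j => NormedSpace.exp (x j)).prod - (1 + ∑ j, x j + Q)‖ ≤ C * ρ ^ 3 ∧
        τ Q = τ ((∑ j, x j) * ∑ j, x j) / 2 := by
  induction n with
  | zero => exact ⟨0, le_rfl, fun B _ τ _ x ρ _ _ _ => ⟨0, by simp, by simp, by simp⟩⟩
  | succ n ih =>
    obtain ⟨C, hC, ih⟩ := ih
    refine ⟨3 * (1 + n + 2 * C) + 5 * C + 2 * n + 1, by positivity,
      fun B _ τ hτ x ρ hρ0 hρ hx => ?_⟩
    obtain ⟨Q, hQ, hE, hτQ⟩ := ih B τ hτ (fun j => x j.succ) ρ hρ0 hρ fun j => hx _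
    set L := ∑ j : Fin n, x j.succ with hL
    set P := (List.ofFn fun j : Fin n => NormedSpace.exp (x j.succ)).prod with hP
    set y := x 0 with hy
    refine ⟨(1 / 2 : ℂ) • (y * y) + y * L + Q, ?_, ?_, ?_⟩
    · have hh : ‖(1 / 2 : ℂ) • (y * y)‖ ≤ ρ * ρ := by
        rw [norm_smul]
        have := (norm_mul_le y y).trans
          (mul_le_mul (hx 0) (hx 0) (norm_nonneg _) hρ0)
        rw [show ‖(1 / 2 : ℂ)‖ = 1 / 2 by simp]
        nlinarith [norm_nonneg (y * y)]
      have hL' : ‖L‖ ≤ n * ρ := (norm_sum_le _ _).trans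
        ((Finset.sum_le_card_nsmul _ _ _ fun j _ => hx _).trans (by simp))
      have hyL : ‖y * L‖ ≤ n * ρ ^ 2 := by
        refine (norm_mul_le _ _).trans ((mul_le_mul (hx 0) hL' (norm_nonneg _) hρ0).trans ?_)
        nlinarith
      calc ‖(1 / 2 : ℂ) • (y * y) + y * L + Q‖
          ≤ ρ * ρ + n * ρ ^ 2 + C * ρ ^ 2 :=
            (norm_add₃_le).trans (by linarith)
        _ ≤ _ := by
            have : (0 : ℝ) ≤ ρ ^ 2 * n := by positivity
            have : (0 : ℝ) ≤ ρ ^ 2 * C := by positivity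
            nlinarith [sq_nonneg ρ]
    · rw [List.ofFn_succ, List.prod_cons, Fin.sum_univ_succ, ← hP, ← hy, ← hL]
      set E := P - (1 + L + Q) with hE'
      set D := NormedSpace.exp y - (1 + y + (1 / 2 : ℂ) • (y * y)) with hD'
      set z := (1 / 2 : ℂ) • (y * y) with hz'
      have e : NormedSpace.exp y * P - (1 + (y + L) + (z + y * L + Q)) =
          D * P + (y * E + z * E) + E + y * Q + z * (L + Q) := by
        simp only [hD', hE', sub_mul, mul_sub, add_mul, mul_add, one_mul, mul_one]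
        abel
      rw [e]
      have hD : ‖D‖ ≤ 3 * ρ ^ 3 := norm_exp_sub_le hρ (hx 0)
      have hz : ‖z‖ ≤ ρ ^ 2 := by
        rw [hz', norm_smul, show ‖(1 / 2 : ℂ)‖ = 1 / 2 by simp]
        have := (norm_mul_le y y).trans (mul_le_mul (hx 0) (hx 0) (norm_nonneg _) hρ0)
        nlinarith [norm_nonneg (y * y)]
      have hL' : ‖L‖ ≤ n * ρ := (norm_sum_le _ _).trans
        ((Finset.sum_le_card_nsmul _ _ _ fun j _ => hx _).trans (by simp))
      have hρ3 : ρ ^ 3 ≤ ρ ^ 2 := pow_le_pow_of_le_one hρ0 hρ (by norm_num)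
      have hρ2 : ρ ^ 2 ≤ ρ := by nlinarith
      have hPn : ‖P‖ ≤ 1 + n + 2 * C := by
        have : ‖P‖ ≤ ‖E‖ + (‖(1 : B)‖ + ‖L‖ + ‖Q‖) := by
          calc ‖P‖ = ‖E + (1 + L + Q)‖ := by rw [hE']; abel_nf
            _ ≤ _ := (norm_add_le _ _).trans (by linarith [norm_add₃_le (a := (1 : B)) (b := L) (c := Q)])
        nlinarith [norm_one_le' (B := B), mul_le_mul_of_nonneg_left (hρ3.trans (hρ2.trans hρ)) hC,
          mul_le_mul_of_nonneg_left (hρ2.trans hρ) hC, mul_le_mul_of_nonneg_left hρ (Nat.cast_nonneg (α := ℝ) n)]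
      have hLQ : ‖L + Q‖ ≤ (n + C) * ρ := (norm_add_le _ _).trans (by
        nlinarith [mul_le_mul_of_nonneg_left hρ2 hC])
      have h3 : (0 : ℝ) ≤ ρ ^ 3 := by positivity
      have b1 : ‖D * P‖ ≤ 3 * ρ ^ 3 * (1 + n + 2 * C) :=
        (norm_mul_le _ _).trans (mul_le_mul hD hPn (norm_nonneg _) (by positivity))
      have b2 : ‖y * E + z * E‖ ≤ 2 * (C * ρ ^ 3) := by
        refine (norm_add_le _ _).trans ?_
        have := (norm_mul_le y E).trans (mul_le_mul ((hx 0).trans hρ) hE (norm_nonneg _) zero_le_one)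
        have := (norm_mul_le z E).trans (mul_le_mul (hz.trans (hρ2.trans hρ)) hE (norm_nonneg _) zero_le_one)
        linarith
      have b4 : ‖y * Q‖ ≤ C * ρ ^ 3 :=
        (norm_mul_le _ _).trans ((mul_le_mul (hx 0) hQ (norm_nonneg _) hρ0).trans (by
          rw [pow_succ ρ 2]; linarith))
      have b5 : ‖z * (L + Q)‖ ≤ (n + C) * ρ ^ 3 :=
        (norm_mul_le _ _).trans ((mul_le_mul hz hLQ (norm_nonneg _) (by positivity)).trans (by
          rw [pow_succ ρ 2]; linarith))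
      calc _ ≤ ‖D * P‖ + ‖y * E + z * E‖ + ‖E‖ + ‖y * Q‖ + ‖z * (L + Q)‖ :=
            (norm_add_le _ _).trans (by
              linarith [norm_add_le (D * P + (y * E + z * E) + E) (y * Q),
                norm_add_le (D * P + (y * E + z * E)) E, norm_add_le (D * P) (y * E + z * E)])
        _ ≤ _ := by nlinarith [mul_nonneg h3 (Nat.cast_nonneg (α := ℝ) n), mul_nonneg h3 hC]
    · rw [Fin.sum_univ_succ, ← hy, ← hL]
      simp only [map_add, map_smul, smul_eq_mul, hτQ, mul_add, add_mul, hτ.comm L y]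
      ring

end Taylor

/-! ### Elements of the slots -/

section Mem

variable {B : Type u} [CStarAlgebra B] {G : Type v} [Group G] (S : SlotSystem B G)

theorem isClosed_gen (P : Set ℕ) : IsClosed (S.gen P : Set B) :=
  StarSubalgebra.isClosed_topologicalClosure _

theorem exp_mem_gen {P : Set ℕ} {x : B} (hx : x ∈ S.gen P) : NormedSpace.exp x ∈ S.gen P :=
  (isClosed_gen S P).mem_of_tendsto (hasSum_exp x).tendsto_sum_nat
    (Filter.Eventually.of_forall fun _ => sum_mem fun _ _ =>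
      SMulMemClass.smul_mem _ (pow_mem hx _))

theorem commute_of_mem_gen {P Q : Set ℕ} (h : Disjoint P Q) {x y : B} (hx : x ∈ S.gen P)
    (hy : y ∈ S.gen Q) : Commute x y := by
  have h1 : ∀ g, ∀ s ∈ P, ∀ z ∈ S.gen Q, Commute (S.act g (S.h s)) z := by
    intro g s hs
    have hsa : star (S.act g (S.h s)) = S.act g (S.h s) := by rw [← map_star, S.h_sa]
    have hle : S.gen Q ≤ StarSubalgebra.centralizer ℂ {S.act g (S.h s)} := by
      refine StarSubalgebra.topologicalClosure_minimal (StarAlgebra.adjoin_le ?_) ?_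
      · rintro _ ⟨k, t, ht, rfl⟩
        rw [SetLike.mem_coe, StarSubalgebra.mem_centralizer_iff]
        rintro _ rfl
        have := (S.comm g k s t (h.ne_of_mem hs ht)).eq
        exact ⟨this, by rw [hsa]; exact this⟩
      · rw [StarSubalgebra.coe_centralizer]
        exact Set.isClosed_centralizer _
    intro z hz
    exact ((StarSubalgebra.mem_centralizer_iff ℂ).1 (hle hz) _ rfl).1
  have hle : S.gen P ≤ StarSubalgebra.centralizer ℂ {y} := by
    refine StarSubalgebra.topologicalClosure_minimal (StarAlgebra.adjoin_le ?_) ?_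
    · rintro _ ⟨k, t, ht, rfl⟩
      rw [SetLike.mem_coe, StarSubalgebra.mem_centralizer_iff]
      intro z hz
      rw [Set.mem_singleton_iff.1 hz]
      exact ⟨(h1 k t ht y hy).eq.symm, (h1 k t ht _ (star_mem hy)).eq.symm⟩
    · rw [StarSubalgebra.coe_centralizer]
      exact Set.isClosed_centralizer _
  exact (((StarSubalgebra.mem_centralizer_iff ℂ).1 (hle hx) _ rfl).1).symm

/-- Two interleaved products of commuting families. -/
theorem prod_ofFn_mul {n : ℕ} (a b : Fin n → B) (h : ∀ j l, Commute (a j) (b l)) :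
    (List.ofFn fun j => a j * b j).prod = (List.ofFn a).prod * (List.ofFn b).prod := by
  induction n with
  | zero => simp
  | succ n ih =>
    rw [List.ofFn_succ, List.ofFn_succ, List.ofFn_succ, List.prod_cons, List.prod_cons,
      List.prod_cons, ih (fun j => a j.succ) (fun j => b j.succ) fun j l => h _ _]
    have hc : Commute (b 0) (List.ofFn fun j : Fin n => a j.succ).prod :=
      Commute.list_prod_right _ _ fun x hx => by
        obtain ⟨j, rfl⟩ := List.mem_ofFn.1 hx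
        exact (h _ _).symm
    rw [show a 0 * (List.ofFn fun j : Fin n => a j.succ).prod * (b 0 * (List.ofFn fun j : Fin n => b j.succ).prod)
        = a 0 * ((List.ofFn fun j : Fin n => a j.succ).prod * b 0) * (List.ofFn fun j : Fin n => b j.succ).prod by
          simp only [mul_assoc], ← hc.eq]
    simp only [mul_assoc]

end Mem

/-! ### Scalars -/

theorem norm_prod_sub_prod_le (a b : ℕ → ℂ) (ha : ∀ s, ‖a s‖ ≤ 1) (hb : ∀ s, ‖b s‖ ≤ 1) (m : ℕ) :
    ‖∏ s ∈ Finset.range m, a s - ∏ s ∈ Finset.range m, b s‖ ≤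
      ∑ s ∈ Finset.range m, ‖a s - b s‖ := by
  induction m with
  | zero => simp
  | succ m ih =>
    rw [Finset.prod_range_succ, Finset.prod_range_succ, Finset.sum_range_succ]
    have hA : ‖∏ s ∈ Finset.range m, a s‖ ≤ 1 := by
      rw [norm_prod]; exact Finset.prod_le_one (fun _ _ => norm_nonneg _) fun s _ => ha s
    calc _ = ‖(∏ s ∈ Finset.range m, a s) * (a m - b m) +
          ((∏ s ∈ Finset.range m, a s) - ∏ s ∈ Finset.range m, b s) * b m‖ := by ring_nf
      _ ≤ 1 * ‖a m - b m‖ + (∑ s ∈ Finset.range m, ‖a s - b s‖) * 1 := by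
        refine (norm_add_le _ _).trans (add_le_add ?_ ?_) <;> rw [norm_mul]
        · exact mul_le_mul_of_nonneg_right hA (norm_nonneg _)
        · exact mul_le_mul ih (hb m) (norm_nonneg _) ((norm_nonneg _).trans ih)
      _ = _ := by ring

theorem sq_exp_sub_le {x q : ℝ} (hx : 0 ≤ x) (hq : 0 ≤ q) :
    (Real.exp (-x / 2) - Real.exp (-q / 2)) ^ 2 ≤ 1 / 4 * (x - q) ^ 2 := by
  wlog h : x ≤ q generalizing x q
  · have := this hq hx (le_of_not_ge h)
    linarith [show (Real.exp (-x / 2) - Real.exp (-q / 2)) ^ 2 =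
      (Real.exp (-q / 2) - Real.exp (-x / 2)) ^ 2 by ring,
      show (x - q) ^ 2 = (q - x) ^ 2 by ring]
  have h1 : Real.exp (-q / 2) = Real.exp (-x / 2) * Real.exp (-(q - x) / 2) := by
    rw [← Real.exp_add]; ring_nf
  have h2 := Real.exp_le_one_iff.2 (show -x / 2 ≤ 0 by linarith)
  have h3 := Real.exp_le_one_iff.2 (show -(q - x) / 2 ≤ 0 by linarith)
  have h4 := Real.add_one_le_exp (-(q - x) / 2)
  have h5 := Real.exp_pos (-x / 2)
  have h0 : 0 ≤ Real.exp (-x / 2) - Real.exp (-q / 2) := by rw [h1]; nlinarith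
  have h6 : Real.exp (-x / 2) - Real.exp (-q / 2) ≤ (q - x) / 2 := by rw [h1]; nlinarith
  nlinarith

/-! ### The pool -/

section Pool

variable {B : Type u} [CStarAlgebra B] {G : Type v} [Group G] (S : SlotSystem B G) (i : ℕ)
  {n : ℕ} (g : Fin n → G) (w : Fin n → ℝ)

/-- The translate by `g j` of slot `s` of the pool `i`. -/
def slotElem (s : ℕ) (j : Fin n) : B := S.act (g j) (S.h (Nat.pair i s))

/-- The weighted translates of slot `s` of the pool `i`. -/
def slotComb (s : ℕ) : B := ∑ j, (w j : ℂ) • slotElem S i g s j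

theorem star_slotElem (s : ℕ) (j : Fin n) : star (slotElem S i g s j) = slotElem S i g s j := by
  rw [slotElem, ← map_star, S.h_sa]

theorem slotElem_mem (s : ℕ) (j : Fin n) : slotElem S i g s j ∈ S.gen {Nat.pair i s} :=
  S.act_h_mem _ rfl

theorem norm_slotElem_le (s : ℕ) (j : Fin n) : ‖slotElem S i g s j‖ ≤ 1 :=
  (NonUnitalStarAlgHom.norm_apply_le _ _).trans (S.h_norm _)

theorem star_slotComb (s : ℕ) : star (slotComb S i g w s) = slotComb S i g w s := by
  simp [slotComb, star_slotElem]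

theorem slotComb_mem (s : ℕ) : slotComb S i g w s ∈ S.gen {Nat.pair i s} :=
  sum_mem fun j _ => SMulMemClass.smul_mem _ (slotElem_mem S i g s j)

theorem norm_slotComb_le {R : ℝ} (hw : ∀ j, |w j| ≤ R) (s : ℕ) :
    ‖slotComb S i g w s‖ ≤ n * R := by
  refine (norm_sum_le _ _).trans ((Finset.sum_le_card_nsmul _ _ R fun j _ => ?_).trans
    (le_of_eq (by simp)))
  rw [norm_smul, Complex.norm_real, Real.norm_eq_abs]
  calc |w j| * ‖slotElem S i g s j‖ ≤ |w j| * 1 :=
        mul_le_mul_of_nonneg_left (norm_slotElem_le S i g s j) (abs_nonneg _)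
    _ ≤ R := by simpa using hw j

/-- The exponentials of slot `s`, scaled by `θ`. -/
def slotWord (θ : ℝ) (s : ℕ) : B :=
  (List.ofFn fun j => NormedSpace.exp ((Complex.I * (w j : ℂ) * (θ : ℂ)) • slotElem S i g s j)).prod

/-- The exponentials of the first `m` slots, scaled by `θ`. -/
def partWord (θ : ℝ) (m : ℕ) : B :=
  (List.ofFn fun j => NormedSpace.exp
    ((Complex.I * (w j : ℂ) * (θ : ℂ)) • ∑ s ∈ Finset.range m, slotElem S i g s j)).prod

theorem slotWord_mem (θ : ℝ) (s : ℕ) : slotWord S i g w θ s ∈ S.gen {Nat.pair i s} :=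
  list_prod_mem fun x hx => by
    obtain ⟨j, rfl⟩ := List.mem_ofFn.1 hx
    exact exp_mem_gen S (SMulMemClass.smul_mem _ (slotElem_mem S i g s j))

theorem partWord_mem (θ : ℝ) (m : ℕ) : partWord S i g w θ m ∈ S.gen (pool i m) :=
  list_prod_mem fun x hx => by
    obtain ⟨j, rfl⟩ := List.mem_ofFn.1 hx
    exact exp_mem_gen S (SMulMemClass.smul_mem _
      (sum_mem fun s hs => S.act_h_mem _ ⟨s, Finset.mem_range.1 hs, rfl⟩))

theorem disjoint_slot_pool (m : ℕ) : Disjoint ({Nat.pair i m} : Set ℕ) (pool i m) := by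
  rw [Set.disjoint_singleton_left]
  rintro ⟨s, hs, e⟩
  obtain ⟨-, rfl⟩ := Nat.pair_eq_pair.1 e
  exact lt_irrefl _ hs

theorem norm_map_slotWord_le {τ : B →ₗ[ℂ] ℂ} (hτ : IsTrace B τ) (θ : ℝ) (s : ℕ) :
    ‖τ (slotWord S i g w θ s)‖ ≤ 1 := by
  have hu : slotWord S i g w θ s ∈ unitary B := list_prod_mem fun x hx => by
    obtain ⟨j, rfl⟩ := List.mem_ofFn.1 hx
    rw [show (Complex.I * (w j : ℂ) * (θ : ℂ)) • slotElem S i g s j =
      Complex.I • (((w j * θ : ℝ) : ℂ) • slotElem S i g s j) by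
        rw [smul_smul]; push_cast; rw [mul_assoc]]
    exact (selfAdjoint.expUnitary ⟨((w j * θ : ℝ) : ℂ) • slotElem S i g s j, by
      simp [selfAdjoint.mem_iff, star_slotElem]⟩).2
  refine (hτ.norm_map_le _).trans ?_
  rw [l2, hu.1, hτ.map_one]
  simp

variable {S i g w}

theorem map_partWord {τ : B →ₗ[ℂ] ℂ} (hτ : S.Good τ) (θ : ℝ) (m : ℕ) :
    τ (partWord S i g w θ m) = ∏ s ∈ Finset.range m, τ (slotWord S i g w θ s) := by
  let _ : NormedAlgebra ℚ B := NormedAlgebra.restrictScalars ℚ ℂ B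
  induction m with
  | zero =>
    simp [partWord, NormedSpace.exp_zero, hτ.trace.map_one]
  | succ m ih =>
    have e : partWord S i g w θ (m + 1) = slotWord S i g w θ m * partWord S i g w θ m := by
      rw [slotWord, partWord, partWord, ← prod_ofFn_mul]
      · refine congrArg List.prod (congrArg List.ofFn (funext fun j => ?_))
        rw [Finset.sum_range_succ, add_comm, smul_add]
        exact NormedSpace.exp_add_of_commute ((commute_of_mem_gen S (disjoint_slot_pool i m)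
          (SMulMemClass.smul_mem _ (slotElem_mem S i g m j)) (SMulMemClass.smul_mem _
            (sum_mem fun s hs => S.act_h_mem _ ⟨s, Finset.mem_range.1 hs, rfl⟩))))
      · intro j l
        exact commute_of_mem_gen S (disjoint_slot_pool i m)
          (exp_mem_gen S (SMulMemClass.smul_mem _ (slotElem_mem S i g m j)))
          (exp_mem_gen S (SMulMemClass.smul_mem _
            (sum_mem fun s hs => S.act_h_mem _ ⟨s, Finset.mem_range.1 hs, rfl⟩)))
    rw [e, hτ.map_mul S (disjoint_slot_pool i m) (slotWord_mem S i g w θ m)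
      (partWord_mem S i g w θ m), ih, Finset.prod_range_succ, mul_comm]

theorem map_slotComb_sq {τ : B →ₗ[ℂ] ℂ} (hτ : IsTrace B τ) (s : ℕ) :
    ∃ r : ℝ, 0 ≤ r ∧ τ (slotComb S i g w s * slotComb S i g w s) = (r : ℂ) := by
  refine ⟨(τ (star (slotComb S i g w s) * slotComb S i g w s)).re, hτ.re_nonneg _, ?_⟩
  rw [star_slotComb]
  refine Complex.ext rfl ?_
  have := hτ.im_eq_zero (slotComb S i g w s)
  rw [star_slotComb] at this
  simp [this]

/-- One slot. -/
theorem norm_map_slotWord_sub {τ : B →ₗ[ℂ] ℂ} (hτ : S.Good τ) {C R θ : ℝ}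
    (hC : ∀ (τ : B →ₗ[ℂ] ℂ), IsTrace B τ → ∀ (x : Fin n → B) (ρ : ℝ), 0 ≤ ρ → ρ ≤ 1 →
      (∀ j, ‖x j‖ ≤ ρ) → ∃ Q : B, ‖Q‖ ≤ C * ρ ^ 2 ∧
        ‖(List.ofFn fun j => NormedSpace.exp (x j)).prod - (1 + ∑ j, x j + Q)‖ ≤ C * ρ ^ 3 ∧
        τ Q = τ ((∑ j, x j) * ∑ j, x j) / 2)
    (hR : 0 ≤ R) (hw : ∀ j, |w j| ≤ R) (hθ : 0 ≤ θ) (hθR : θ * R ≤ 1) (s : ℕ) :
    ‖τ (slotWord S i g w θ s) -
      (1 - (θ : ℂ) ^ 2 / 2 * τ (slotComb S i g w s * slotComb S i g w s))‖ ≤ C * (θ * R) ^ 3 := by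
  obtain ⟨Q, -, hE, hQ⟩ := hC τ hτ.trace
    (fun j => (Complex.I * (w j : ℂ) * (θ : ℂ)) • slotElem S i g s j) (θ * R)
    (mul_nonneg hθ hR) hθR fun j => by
      rw [norm_smul, norm_mul, norm_mul, Complex.norm_I, one_mul, Complex.norm_real,
        Complex.norm_real, Real.norm_eq_abs, Real.norm_eq_abs, abs_of_nonneg hθ, mul_comm θ R]
      calc |w j| * θ * ‖slotElem S i g s j‖ ≤ |w j| * θ * 1 :=
            mul_le_mul_of_nonneg_left (norm_slotElem_le S i g s j) (by positivity)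
        _ ≤ R * θ := by rw [mul_one]; exact mul_le_mul_of_nonneg_right (hw j) hθ
  have hsum : ∑ j, (Complex.I * (w j : ℂ) * (θ : ℂ)) • slotElem S i g s j =
      (Complex.I * (θ : ℂ)) • slotComb S i g w s := by
    rw [slotComb, Finset.smul_sum]
    exact Finset.sum_congr rfl fun j _ => by rw [smul_smul]; ring_nf
  have hL : τ ((Complex.I * (θ : ℂ)) • slotComb S i g w s) = 0 := by
    simp [slotComb, slotElem, map_sum, hτ.mean]
  rw [hsum] at hE hQ
  refine le_of_eq_of_le ?_ ((hτ.trace.norm_map_le_norm _).trans hE)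
  rw [map_sub, map_add, map_add, hτ.trace.map_one, hL, hQ, smul_mul_smul_comm, map_smul, smul_eq_mul]
  refine congrArg norm ?_
  rw [slotWord]
  linear_combination ((θ : ℂ) ^ 2 * τ (slotComb S i g w s * slotComb S i g w s) / 2) * Complex.I_sq

theorem poolVar_eq (M : ℕ) : poolVar S i M g w = ((1 / M : ℝ) : ℂ) •
    ∑ s ∈ Finset.range M, slotComb S i g w s * slotComb S i g w s := rfl

theorem poolWord_eq (M : ℕ) :
    poolWord S i M g w = partWord S i g w (1 / Real.sqrt M) M := by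
  simp only [poolWord, partWord, SlotSystem.poolSum, slotElem, smul_smul]

/-- The quadratic form has variance `O(1/M)`. -/
theorem var_poolVar {τ : B →ₗ[ℂ] ℂ} (hτ : S.Good τ) {R : ℝ} (hR : 0 ≤ R) (hw : ∀ j, |w j| ≤ R)
    {M : ℕ} (hM : 0 < M) :
    l2 τ (poolVar S i M g w - τ (poolVar S i M g w) • (1 : B)) ^ 2 ≤ 4 * (n * R) ^ 4 / M := by
  set d : ℕ → B := fun s => slotComb S i g w s * slotComb S i g w s -
    τ (slotComb S i g w s * slotComb S i g w s) • (1 : B) with hd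
  have hsa : ∀ s, star (d s) = d s := fun s => by
    obtain ⟨r, -, hr⟩ := map_slotComb_sq (S := S) (i := i) (g := g) (w := w) hτ.trace s
    simp [hd, hr, star_slotComb]
  have hmem : ∀ s, d s ∈ S.gen {Nat.pair i s} := fun s =>
    sub_mem (mul_mem (slotComb_mem S i g w s) (slotComb_mem S i g w s))
      (SMulMemClass.smul_mem _ (one_mem _))
  have hz : ∀ s, τ (d s) = 0 := fun s => by simp [hd, hτ.trace.map_one]
  have hbound : ∀ s, ‖d s‖ ≤ 2 * (n * R) ^ 2 := by
    intro s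
    have h1 : ‖slotComb S i g w s * slotComb S i g w s‖ ≤ (n * R) ^ 2 := by
      refine (norm_mul_le _ _).trans ?_
      rw [pow_two]
      exact mul_le_mul (norm_slotComb_le S i g w hw s) (norm_slotComb_le S i g w hw s)
        (norm_nonneg _) (by positivity)
    refine (norm_sub_le _ _).trans ?_
    have h2 : ‖τ (slotComb S i g w s * slotComb S i g w s) • (1 : B)‖ ≤ (n * R) ^ 2 := by
      rw [norm_smul]
      exact (mul_le_mul ((hτ.trace.norm_map_le_norm _).trans h1) norm_one_le' (norm_nonneg _)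
        (by positivity)).trans_eq (mul_one _)
    linarith
  have e : poolVar S i M g w - τ (poolVar S i M g w) • (1 : B) =
      ((1 / M : ℝ) : ℂ) • ∑ s ∈ Finset.range M, d s := by
    simp only [poolVar_eq, hd, map_smul, map_sum, Finset.sum_sub_distrib, smul_sub, smul_eq_mul,
      ← Finset.sum_smul, smul_smul]
  have hsum : ‖τ ((∑ s ∈ Finset.range M, d s) * ∑ s ∈ Finset.range M, d s)‖ ≤
      M * (2 * (n * R) ^ 2) ^ 2 := by
    rw [Finset.sum_mul, map_sum]
    refine (norm_sum_le _ _).trans ((Finset.sum_le_card_nsmul _ _ ((2 * (n * R) ^ 2) ^ 2)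
      fun s hs => ?_).trans (le_of_eq (by simp)))
    rw [Finset.mul_sum, map_sum, Finset.sum_eq_single_of_mem s hs fun t _ hts => ?_]
    · refine (hτ.trace.norm_map_le_norm _).trans ((norm_mul_le _ _).trans ?_)
      rw [pow_two]
      exact mul_le_mul (hbound s) (hbound s) (norm_nonneg _) (by positivity)
    · rw [hτ.map_mul S (by
        rw [Set.disjoint_singleton]
        exact fun h => hts (Nat.pair_eq_pair.1 h).2.symm) (hmem s) (hmem t), hz, zero_mul]
  rw [e, hτ.trace.l2_smul, mul_pow, hτ.trace.l2_sq, star_sum]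
  simp only [hsa]
  have h' := (Complex.re_le_norm _).trans hsum
  rw [Complex.norm_real, Real.norm_eq_abs, sq_abs]
  refine (mul_le_mul_of_nonneg_left h' (sq_nonneg _)).trans_eq ?_
  field_simp
  ring

/-- The word of a pool is close to `exp (-q/2)`. -/
theorem norm_map_partWord_sub {τ : B →ₗ[ℂ] ℂ} (hτ : S.Good τ) {C R : ℝ}
    (hC : ∀ (τ : B →ₗ[ℂ] ℂ), IsTrace B τ → ∀ (x : Fin n → B) (ρ : ℝ), 0 ≤ ρ → ρ ≤ 1 →
      (∀ j, ‖x j‖ ≤ ρ) → ∃ Q : B, ‖Q‖ ≤ C * ρ ^ 2 ∧
        ‖(List.ofFn fun j => NormedSpace.exp (x j)).prod - (1 + ∑ j, x j + Q)‖ ≤ C * ρ ^ 3 ∧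
        τ Q = τ ((∑ j, x j) * ∑ j, x j) / 2)
    (hR : 1 ≤ R) (hw : ∀ j, |w j| ≤ R) {M : ℕ} (hM : 0 < M)
    (hMR : R ^ 2 ≤ M) (hMv : (n * R) ^ 2 ≤ M) :
    ∃ q : ℝ, 0 ≤ q ∧ τ (poolVar S i M g w) = (q : ℂ) ∧
      ‖τ (poolWord S i M g w) - (Real.exp (-q / 2) : ℂ)‖ ≤
        (C * R ^ 3 + (n * R) ^ 4) * (1 / Real.sqrt M) := by
  set θ : ℝ := 1 / Real.sqrt M with hθdef
  have hM' : (0 : ℝ) < M := Nat.cast_pos.2 hM
  have hθ2 : θ ^ 2 = 1 / M := by rw [hθdef, div_pow, one_pow, Real.sq_sqrt hM'.le]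
  have hθ : 0 ≤ θ := by positivity
  have hθR : θ * R ≤ 1 := by
    have : (θ * R) ^ 2 ≤ 1 := by rw [mul_pow, hθ2, one_div, inv_mul_le_one₀ hM']; exact hMR
    nlinarith [mul_nonneg hθ (zero_le_one.trans hR)]
  have hθ1 : θ ≤ 1 := (le_mul_of_one_le_right hθ hR).trans hθR
  choose v hv0 hv using fun s => map_slotComb_sq (S := S) (i := i) (g := g) (w := w) hτ.trace s
  have hvle : ∀ s, v s ≤ (n * R) ^ 2 := fun s => by
    have := (hτ.trace.norm_map_le_norm _).trans ((norm_mul_le (slotComb S i g w s)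
      (slotComb S i g w s)).trans (mul_le_mul (norm_slotComb_le S i g w hw s)
        (norm_slotComb_le S i g w hw s) (norm_nonneg _) (by positivity)))
    rw [hv, Complex.norm_real, Real.norm_eq_abs, abs_of_nonneg (hv0 s)] at this
    rwa [pow_two]
  refine ⟨1 / M * ∑ s ∈ Finset.range M, v s,
    mul_nonneg (by positivity) (Finset.sum_nonneg fun s _ => hv0 s), ?_, ?_⟩
  · simp [poolVar_eq, map_sum, hv]
  have hexp : (Real.exp (-(1 / M * ∑ s ∈ Finset.range M, v s) / 2) : ℂ) =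
      ∏ s ∈ Finset.range M, (Real.exp (-(θ ^ 2 * v s / 2)) : ℂ) := by
    rw [← Complex.ofReal_prod, ← Real.exp_sum]
    refine congrArg _ (congrArg Real.exp ?_)
    rw [Finset.sum_neg_distrib, ← Finset.sum_div, ← Finset.mul_sum, hθ2]
    ring
  rw [poolWord_eq, map_partWord hτ, hexp]
  refine (norm_prod_sub_prod_le _ _ (fun s => norm_map_slotWord_le S i g w hτ.trace _ s)
    (fun s => ?_) M).trans ?_
  · rw [Complex.norm_real, Real.norm_eq_abs, abs_of_pos (Real.exp_pos _)]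
    exact Real.exp_le_one_iff.2 (neg_nonpos.2 (by have := hv0 s; positivity))
  refine (Finset.sum_le_card_nsmul _ _ ((C * R ^ 3 + (n * R) ^ 4) * θ ^ 3) fun s _ => ?_).trans ?_
  · set y := θ ^ 2 * v s / 2 with hy
    have hy0 : 0 ≤ y := by have := hv0 s; positivity
    have hyle : y ≤ θ ^ 2 * (n * R) ^ 2 / 2 := by
      rw [hy]; have := mul_le_mul_of_nonneg_left (hvle s) (sq_nonneg θ); linarith
    have hy1 : y ≤ 1 := hyle.trans (by
      have : θ ^ 2 * (n * R) ^ 2 ≤ 1 := by rw [hθ2, one_div, inv_mul_le_one₀ hM']; exact hMv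
      linarith)
    have h1 := norm_map_slotWord_sub (S := S) (i := i) (g := g) (w := w) hτ hC
      (zero_le_one.trans hR) hw hθ hθR s
    have h2 : |Real.exp (-y) - (1 - y)| ≤ y ^ 2 := by
      have := Real.norm_exp_sub_one_sub_id_le (x := -y) (by rwa [Real.norm_eq_abs, abs_neg, abs_of_nonneg hy0])
      rw [show Real.exp (-y) - (1 - y) = Real.exp (-y) - 1 - -y by ring]
      simpa [Real.norm_eq_abs] using this
    have h3 : y ^ 2 ≤ (n * R) ^ 4 * θ ^ 3 := by
      refine (pow_le_pow_left₀ hy0 hyle 2).trans ?_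
      have : θ ^ 4 ≤ θ ^ 3 := pow_le_pow_of_le_one hθ hθ1 (by norm_num)
      have h4 : (0 : ℝ) ≤ (n * R) ^ 4 := by positivity
      nlinarith [mul_le_mul_of_nonneg_left this h4, mul_nonneg h4 (pow_nonneg hθ 3)]
    rw [hv, show (1 : ℂ) - (θ : ℂ) ^ 2 / 2 * (v s : ℂ) = ((1 - y : ℝ) : ℂ) by
      rw [hy]; push_cast; ring] at h1
    calc ‖τ (slotWord S i g w θ s) - (Real.exp (-y) : ℂ)‖
        ≤ ‖τ (slotWord S i g w θ s) - ((1 - y : ℝ) : ℂ)‖ +
            ‖((1 - y : ℝ) : ℂ) - (Real.exp (-y) : ℂ)‖ := norm_sub_le_norm_sub_add_norm_sub _ _ _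
      _ ≤ C * (θ * R) ^ 3 + (n * R) ^ 4 * θ ^ 3 := add_le_add h1 (by
          rw [← Complex.ofReal_sub, Complex.norm_real, Real.norm_eq_abs, abs_sub_comm]
          exact h2.trans h3)
      _ = _ := by ring
  · rw [Finset.card_range, nsmul_eq_mul]
    have : (M : ℝ) * θ ^ 3 = θ := by
      rw [pow_succ, hθ2, ← mul_assoc, mul_one_div_cancel hM'.ne', one_mul]
    exact le_of_eq (by linear_combination (C * R ^ 3 + (n * R) ^ 4) * this)

theorem poolVar_mem (M : ℕ) : poolVar S i M g w ∈ S.gen (pool i M) := by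
  rw [poolVar_eq]
  refine SMulMemClass.smul_mem _ (sum_mem fun s hs => ?_)
  have hle : S.gen {Nat.pair i s} ≤ S.gen (pool i M) :=
    S.gen_mono (Set.singleton_subset_iff.2 ⟨s, Finset.mem_range.1 hs, rfl⟩)
  exact mul_mem (hle (slotComb_mem S i g w s)) (hle (slotComb_mem S i g w s))

end Pool

/-- The value of a word in a pool is `exp (-Q/2)`, and an element estimates it. -/
theorem poolStatement : PoolStatement.{u, v} := by
  intro n R₀ ε hε
  obtain ⟨C, hC0, hC⟩ := exists_expansion.{u} n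
  set R : ℝ := max R₀ 1 with hRdef
  have hR : 1 ≤ R := le_max_right _ _
  set K : ℝ := C * R ^ 3 + (n * R) ^ 4 + (n * R) ^ 2 with hK
  obtain ⟨M₀, hM₀⟩ := exists_nat_ge (max (max (R ^ 2) ((n * R) ^ 2)) ((K / ε) ^ 2))
  refine ⟨M₀ + 1, Nat.succ_pos _, fun B _ G _ S M hM i g w hw => ?_⟩
  have hMnat : 0 < M := (Nat.succ_pos _).trans_le hM
  have hM' : (0 : ℝ) < M := Nat.cast_pos.2 hMnat
  have hbig : max (max (R ^ 2) ((n * R) ^ 2)) ((K / ε) ^ 2) ≤ M :=
    hM₀.trans (by exact_mod_cast (Nat.le_succ _).trans hM)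
  simp only [max_le_iff] at hbig
  have hw' : ∀ j, |w j| ≤ R := fun j => (hw j).trans (le_max_left _ _)
  have hθ : (0 : ℝ) ≤ 1 / Real.sqrt M := by positivity
  have hKε : K * (1 / Real.sqrt M) ≤ ε := by
    rw [mul_one_div, div_le_iff₀ (Real.sqrt_pos.2 hM')]
    have h1 : K / ε ≤ Real.sqrt M := Real.le_sqrt_of_sq_le hbig.2
    rw [div_le_iff₀ hε] at h1
    linarith
  let _ : PartialOrder B := CStarAlgebra.spectralOrder B
  have : StarOrderedRing B := CStarAlgebra.spectralOrderedRing B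
  set V := poolVar S i M g w with hV
  have hVnn : 0 ≤ V := by
    rw [hV, poolVar_eq, Complex.coe_smul]
    refine smul_nonneg (by positivity) (Finset.sum_nonneg fun s _ => ?_)
    have := star_mul_self_nonneg (slotComb S i g w s)
    rwa [star_slotComb] at this
  have hVsa : IsSelfAdjoint V := hVnn.isSelfAdjoint
  set φ : ℝ → ℝ := fun x => Real.exp (-x / 2) with hφ
  have : IsClosed (S.gen (pool i M) : Set B) := isClosed_gen S _
  refine ⟨cfc φ V, cfc_mem (𝕜' := ℂ) φ (poolVar_mem M), (cfc_predicate φ V).star_eq,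
    norm_cfc_le zero_le_one fun x hx => ?_, fun τ hτ => ?_⟩
  · rw [Real.norm_eq_abs, abs_of_pos (Real.exp_pos _)]
    exact Real.exp_le_one_iff.2 (by have := spectrum_nonneg_of_nonneg hVnn hx; linarith)
  obtain ⟨q, hq0, hq, hW⟩ := norm_map_partWord_sub (S := S) (i := i) (g := g) (w := w) hτ
    (hC B) hR hw' hMnat hbig.1.1 hbig.1.2
  refine ⟨?_, ?_⟩
  · refine le_of_eq_of_le ?_ (hW.trans (le_trans ?_ hKε))
    · rw [← hV] at hq
      rw [hq]
      push_cast
      ring_nf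
    · exact mul_le_mul_of_nonneg_right (le_add_of_nonneg_right (sq_nonneg _)) hθ
  have he : cfc φ V - ((φ q : ℝ) : ℂ) • (1 : B) = cfc (fun x => φ x - φ q) V := by
    rw [cfc_sub φ (fun _ => φ q) V (by rw [hφ]; fun_prop) continuousOn_const,
      cfc_const (φ q) V hVsa, Algebra.algebraMap_eq_smul_one, Complex.coe_smul]
  have hle : cfc (fun x => (φ x - φ q) * (φ x - φ q)) V ≤
      cfc (fun x => 1 / 4 * ((x - q) * (x - q))) V := by
    refine cfc_mono (fun x hx => ?_) (by rw [hφ]; fun_prop) (by fun_prop)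
    simpa [hφ, pow_two] using sq_exp_sub_le (spectrum_nonneg_of_nonneg hVnn hx) hq0
  have hsub : cfc (fun x => x - q) V = V - (q : ℂ) • (1 : B) := by
    rw [cfc_sub (fun x : ℝ => x) (fun _ => q) V (by fun_prop) continuousOn_const,
      cfc_id' ℝ V hVsa, cfc_const q V hVsa, Algebra.algebraMap_eq_smul_one, Complex.coe_smul]
  have hl2 : l2 τ (cfc φ V - ((φ q : ℝ) : ℂ) • (1 : B)) ^ 2 ≤
      1 / 4 * l2 τ (V - (q : ℂ) • (1 : B)) ^ 2 := by
    rw [hτ.trace.l2_sq, hτ.trace.l2_sq, he, ← hsub,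
      (IsSelfAdjoint.cfc (f := fun x => φ x - φ q) (a := V)).star_eq,
      (IsSelfAdjoint.cfc (f := fun x => x - q) (a := V)).star_eq,
      ← cfc_mul (fun x => φ x - φ q) (fun x => φ x - φ q) V (by rw [hφ]; fun_prop) (by rw [hφ]; fun_prop),
      ← cfc_mul (fun x => x - q) (fun x => x - q) V (by fun_prop) (by fun_prop)]
    rw [cfc_const_mul (1 / 4 : ℝ) (fun x => (x - q) * (x - q)) V (by fun_prop)] at hle
    obtain ⟨d, hd⟩ := CStarAlgebra.nonneg_iff_eq_star_mul_self.1 (sub_nonneg.2 hle)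
    have h0 := hτ.trace.re_nonneg d
    rw [← hd, map_sub, Complex.sub_re, ← Complex.coe_smul, map_smul, smul_eq_mul,
      Complex.re_ofReal_mul] at h0
    linarith
  have h1 : l2 τ (cfc φ V - ((φ q : ℝ) : ℂ) • (1 : B)) ≤ (n * R) ^ 2 * (1 / Real.sqrt M) := by
    have := var_poolVar (S := S) (i := i) (g := g) (w := w) hτ (zero_le_one.trans hR) hw' hMnat
    rw [← hV] at this hq
    rw [hq] at this
    refine (pow_le_pow_iff_left₀ (hτ.trace.l2_nonneg _) (by positivity) two_ne_zero).1 ?_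
    rw [mul_pow, div_pow, one_pow, Real.sq_sqrt hM'.le, ← pow_mul]
    calc _ ≤ 1 / 4 * (4 * (n * R) ^ 4 / M) := hl2.trans (by linarith)
      _ = _ := by ring
  calc l2 τ (cfc φ V - τ (poolWord S i M g w) • (1 : B))
      ≤ l2 τ (cfc φ V - ((φ q : ℝ) : ℂ) • (1 : B)) +
        l2 τ (((φ q : ℝ) : ℂ) • (1 : B) - τ (poolWord S i M g w) • (1 : B)) :=
        hτ.trace.l2_sub_le _ _ _
    _ ≤ (n * R) ^ 2 * (1 / Real.sqrt M) + (C * R ^ 3 + (n * R) ^ 4) * (1 / Real.sqrt M) := by
        refine add_le_add h1 ?_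
        rw [← sub_smul, hτ.trace.l2_smul, hτ.trace.l2_one, mul_one, norm_sub_rev]
        exact hW
    _ = K * (1 / Real.sqrt M) := by rw [hK]; ring
    _ ≤ ε := hKε

end Vale.Agent.P095.Gamma
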