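import Vale.Agent.P095.Gamma.Specs
import Vale.Agent.P095.Gamma.L2

/-!
# P095 equivariant property Gamma: bounded almost invariant elements of positive variance

Step 3 (end) of notes/P095_gamma_helper21.md.  Many disjoint copies of the elements of `EtaStatement`,
centred with the estimating elements, are cut down by the bounded function `x / (1 + x²/100)` and
averaged over a Følner set.
-/

noncomputable section

namespace Vale.Agent.P095.Gamma

universe u v

open scoped symmDiff

variable {B : Type u} [CStarAlgebra B] {G : Type v} [Group G] {τ : B →ₗ[ℂ] ℂ}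

namespace SlotSystem

variable (S : SlotSystem B G)

/-- Disjoint sets of slots generate commuting algebras. -/
theorem commute_gen {P Q : Set ℕ} (h : Disjoint P Q) {x y : B} (hx : x ∈ S.gen P)
    (hy : y ∈ S.gen Q) : Commute x y := by
  have hc : ∀ s : Set B, IsClosed (StarSubalgebra.centralizer ℂ s : Set B) := fun s => by
    rw [StarSubalgebra.coe_centralizer]
    exact Set.isClosed_centralizer _
  have hsa : ∀ g s, star (S.act g (S.h s)) = S.act g (S.h s) := fun g s => by
    rw [← map_star, S.h_sa]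
  have h1 : S.gen P ≤ StarSubalgebra.centralizer ℂ {x | ∃ g, ∃ s ∈ Q, S.act g (S.h s) = x} := by
    refine StarSubalgebra.topologicalClosure_minimal (StarAlgebra.adjoin_le ?_) (hc _)
    rintro _ ⟨g, s, hs, rfl⟩
    refine (StarSubalgebra.mem_centralizer_iff ℂ).2 ?_
    rintro _ ⟨k, t, ht, rfl⟩
    rw [hsa]
    exact ⟨(S.comm k g t s (h.ne_of_mem hs ht).symm).eq, (S.comm k g t s (h.ne_of_mem hs ht).symm).eq⟩
  have h2 : S.gen Q ≤ StarSubalgebra.centralizer ℂ {x} := by
    refine StarSubalgebra.topologicalClosure_minimal (StarAlgebra.adjoin_le ?_) (hc _)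
    rintro _ ⟨g, s, hs, rfl⟩
    refine (StarSubalgebra.mem_centralizer_iff ℂ).2 ?_
    rintro _ rfl
    have e := (StarSubalgebra.mem_centralizer_iff ℂ).1 (h1 hx) _ ⟨g, s, hs, rfl⟩
    have e' := congrArg star e.1
    rw [star_mul, star_mul, hsa] at e'
    exact ⟨e.1.symm, e'⟩
  exact ((StarSubalgebra.mem_centralizer_iff ℂ).1 (h2 hy) x rfl).1

theorem isClosed_gen (P : Set ℕ) : IsClosed (S.gen P : Set B) :=
  StarSubalgebra.isClosed_topologicalClosure _

/-- Moments of a sum of centred independent self-adjoint elements. -/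
theorem Good.moments (hτ : S.Good τ) (P : ℕ → Set ℕ) (hP : ∀ m n, m ≠ n → Disjoint (P m) (P n))
    (z : ℕ → B) {V K : ℝ} (hV : 0 ≤ V) (hz : ∀ l, z l ∈ S.gen (P l)) (hsa : ∀ l, star (z l) = z l)
    (h0 : ∀ l, τ (z l) = 0) (h2 : ∀ l, (τ (z l * z l)).re ≤ V) (hK : ∀ l, ‖z l‖ ≤ K) (n : ℕ) :
    let S₂ := (∑ l ∈ Finset.range n, z l) * ∑ l ∈ Finset.range n, z l
    τ (∑ l ∈ Finset.range n, z l) = 0 ∧ τ S₂ = ∑ l ∈ Finset.range n, τ (z l * z l) ∧
      (τ (S₂ * S₂)).re ≤ 3 * V ^ 2 * n ^ 2 + K ^ 2 * V * n := by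
  induction n with
  | zero => simp
  | succ n ih =>
    obtain ⟨i1, i2, i4⟩ := ih
    simp only [Finset.sum_range_succ]
    set p := ∑ l ∈ Finset.range n, z l with hp
    set w := z n with hw
    have hpm : p ∈ S.gen (⋃ l ∈ Finset.range n, P l) := by
      refine sum_mem fun l hl => ?_
      exact S.gen_mono (Set.subset_iUnion₂_of_subset l hl subset_rfl) (hz l)
    have hd : Disjoint (⋃ l ∈ Finset.range n, P l) (P n) := by
      simp only [Set.disjoint_iUnion_left]
      intro l hl
      exact hP l n (Finset.mem_range.1 hl).ne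
    have hc : w * p = p * w := (S.commute_gen hd hpm (hz n)).eq.symm
    have hc' : ∀ c, w * (p * c) = p * (w * c) := fun c => by rw [← mul_assoc, hc, mul_assoc]
    have m := fun a b (ha : a ∈ S.gen (⋃ l ∈ Finset.range n, P l)) (hb : b ∈ S.gen (P n)) =>
      hτ.map_mul S hd ha hb
    have hpw : τ (p * w) = 0 := by rw [m _ _ hpm (hz n), i1, zero_mul]
    refine ⟨by rw [map_add, i1, h0, add_zero], ?_, ?_⟩
    · rw [add_mul, mul_add, mul_add, map_add, map_add, map_add, hc, hpw, i2]
      ring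
    · have e : (p + w) * (p + w) * ((p + w) * (p + w)) =
          p * p * (p * p) + (4 : ℂ) • (p * p * p * w) + (6 : ℂ) • (p * p * (w * w)) +
            (4 : ℂ) • (p * (w * w * w)) + w * w * (w * w) := by
        simp only [add_mul, mul_add, mul_assoc, hc, hc']
        module
      have hpp := mul_mem hpm hpm
      have hwm : w ∈ S.gen (P n) := hz n
      have hww := mul_mem hwm hwm
      have hw0 : τ w = 0 := h0 n
      rw [e]
      simp only [map_add, map_smul, smul_eq_mul, m _ _ (mul_mem hpp hpm) hwm,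
        m _ _ hpp hww, m _ _ hpm (mul_mem hww hwm), i1, hw0, mul_zero, zero_mul,
        Complex.add_re, Complex.mul_re, Complex.mul_im, add_zero, i2]
      have hwim : (τ (w * w)).im = 0 := by
        have := hτ.trace.im_eq_zero w
        rwa [hsa] at this
      have hw2 : 0 ≤ (τ (w * w)).re := by
        have := hτ.trace.re_nonneg w
        rwa [hsa] at this
      have h4 : (τ (w * w * (w * w))).re ≤ K ^ 2 * V := by
        have h' := hτ.trace.l2_mul_le w w
        have hK0 : 0 ≤ K := (norm_nonneg _).trans (hK n)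
        have h'' := pow_le_pow_left₀ (hτ.trace.l2_nonneg _) (h'.trans
          (mul_le_mul_of_nonneg_right (hK n) (hτ.trace.l2_nonneg _))) 2
        rw [mul_pow, hτ.trace.l2_sq, hτ.trace.l2_sq, hsa, star_mul, hsa] at h''
        exact h''.trans (mul_le_mul_of_nonneg_left (h2 n) (sq_nonneg K))
      have hs : (∑ l ∈ Finset.range n, τ (z l * z l)).re ≤ n * V := by
        rw [Complex.re_sum]
        refine (Finset.sum_le_sum fun l _ => h2 l).trans ?_
        simp
      have h6 : (∑ l ∈ Finset.range n, τ (z l * z l)).re * (τ (w * w)).re ≤ n * V * V :=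
        mul_le_mul hs (h2 n) hw2 (by positivity)
      simp only [hwim, mul_zero, sub_zero]
      rw [Complex.re_sum] at h6
      norm_num
      nlinarith [i4, h4, h6, sq_nonneg V]

end SlotSystem

/-- The bounded cut-off `x / (1 + x²/100)`. -/
def cut (x : ℝ) : ℝ := x / (1 + x ^ 2 / 100)

theorem abs_cut_le (x : ℝ) : |cut x| ≤ 5 := by
  rw [cut, abs_div, abs_of_pos (show (0 : ℝ) < 1 + x ^ 2 / 100 by positivity),
    div_le_iff₀ (by positivity)]
  cases abs_cases x <;> nlinarith [sq_nonneg (|x| - 10), sq_abs x]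

theorem continuous_cut : Continuous cut :=
  continuous_id.div (by fun_prop) fun x => by positivity

theorem norm_cfc_cut_le (y : B) : ‖cfc cut y‖ ≤ 5 :=
  norm_cfc_le (by norm_num) fun x _ => by simpa using abs_cut_le x

/-- The resolvent of the cut-off. -/
theorem cut_resolvent {y : B} (hy : IsSelfAdjoint y) :
    ∃ r : B, ‖r‖ ≤ 1 ∧ cfc cut y = y * r ∧ cfc cut y = r * y ∧
      (1 + ((1 / 100 : ℝ) : ℂ) • (y * y)) * r = 1 ∧ r * (1 + ((1 / 100 : ℝ) : ℂ) • (y * y)) = 1 := by
  have hne : ∀ x : ℝ, 1 + x ^ 2 / 100 ≠ 0 := fun x => by positivity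
  have hcr : Continuous fun x : ℝ => 1 / (1 + x ^ 2 / 100) :=
    continuous_const.div (by fun_prop) hne
  have hu : cfc (fun x : ℝ => 1 + x ^ 2 / 100) y = 1 + ((1 / 100 : ℝ) : ℂ) • (y * y) := by
    rw [show (fun x : ℝ => 1 + x ^ 2 / 100) = fun x => (1 : ℝ) + (1 / 100 : ℝ) * (x * x) by
      funext x; ring, cfc_const_add _ _ _, cfc_const_mul _ _ _, cfc_mul _ _ _, cfc_id' ℝ y,
      map_one, Complex.coe_smul]
  refine ⟨cfc (fun x : ℝ => 1 / (1 + x ^ 2 / 100)) y, norm_cfc_le zero_le_one fun x _ => ?_,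
    ?_, ?_, ?_, ?_⟩
  · rw [Real.norm_eq_abs, abs_of_nonneg (by positivity), div_le_one (by positivity)]
    nlinarith [sq_nonneg x]
  · conv_rhs => rw [← cfc_id' ℝ y]; arg 2; rw [cfc_id' ℝ y]
    rw [← cfc_mul _ _ _ (by fun_prop) hcr.continuousOn]
    exact cfc_congr fun x _ => by simp [cut, div_eq_mul_inv]
  · conv_rhs => rw [← cfc_id' ℝ y]; arg 1; rw [cfc_id' ℝ y]
    rw [← cfc_mul _ _ _ hcr.continuousOn (by fun_prop)]
    exact cfc_congr fun x _ => by simp [cut, div_eq_mul_inv, mul_comm]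
  · rw [← hu, ← cfc_mul _ _ _ (by fun_prop) hcr.continuousOn, ← cfc_one ℝ y]
    exact cfc_congr fun x _ => mul_one_div_cancel (hne x)
  · rw [← hu, ← cfc_mul _ _ _ hcr.continuousOn (by fun_prop), ← cfc_one ℝ y]
    exact cfc_congr fun x _ => one_div_mul_cancel (hne x)

namespace IsTrace

variable (hτ : IsTrace B τ)
include hτ

/-- A centred self-adjoint element is self-adjoint. -/
theorem star_centred {x : B} (hx : star x = x) : star (x - τ x • (1 : B)) = x - τ x • (1 : B) := by
  rw [star_sub, star_smul, star_one, hx, Complex.star_def, Complex.conj_eq_iff_im.2 (hτ.im_of_sa hx)]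

/-- Centring at most doubles the norm. -/
theorem norm_centred_le (x : B) : ‖x - τ x • (1 : B)‖ ≤ 2 * ‖x‖ := by
  have : Nontrivial B := ⟨⟨1, 0, fun h => by simpa [h] using hτ.map_one⟩⟩
  refine (norm_sub_le _ _).trans ?_
  rw [norm_smul, CStarRing.norm_one, mul_one]
  linarith [hτ.norm_map_le_norm x]

/-- The cut-off is Lipschitz in every trace. -/
theorem l2_cut_sub_le {y z : B} (hy : IsSelfAdjoint y) (hz : IsSelfAdjoint z) :
    l2 τ (cfc cut y - cfc cut z) ≤ 5 / 4 * l2 τ (y - z) := by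
  obtain ⟨r, hr, hfy, -, hru, -⟩ := cut_resolvent hy
  obtain ⟨s, hs, hfz', hfz, -, hsu⟩ := cut_resolvent hz
  set κ : ℂ := ((1 / 100 : ℝ) : ℂ)
  have e : cfc cut y - cfc cut z =
      s * ((y - z) * r) + κ • (cfc cut z * ((z - y) * cfc cut y)) := by
    calc cfc cut y - cfc cut z
        = s * (1 + κ • (z * z)) * (y * r) - s * z * ((1 + κ • (y * y)) * r) := by
          rw [hru, hsu, one_mul, mul_one, hfy, hfz]
      _ = _ := by
          rw [hfy, hfz]
          simp only [mul_add, add_mul, mul_sub, sub_mul, mul_one, one_mul, smul_mul_assoc,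
            mul_smul_comm, smul_sub, mul_assoc]
          abel
  rw [e]
  refine (hτ.l2_add_le _ _).trans ?_
  rw [hτ.l2_smul]
  have hsw : l2 τ (z - y) = l2 τ (y - z) := by rw [← hτ.l2_neg, neg_sub]
  have hd := hτ.l2_nonneg (y - z)
  have h1 : l2 τ (s * ((y - z) * r)) ≤ 1 * (l2 τ (y - z) * 1) :=
    (hτ.l2_mul_le _ _).trans (mul_le_mul hs ((hτ.l2_mul_le' _ _).trans
      (mul_le_mul_of_nonneg_left hr hd)) (hτ.l2_nonneg _) zero_le_one)
  have h2 : l2 τ (cfc cut z * ((z - y) * cfc cut y)) ≤ 5 * (l2 τ (y - z) * 5) :=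
    (hτ.l2_mul_le _ _).trans (mul_le_mul (norm_cfc_cut_le z) (((hτ.l2_mul_le' _ _).trans
      (mul_le_mul_of_nonneg_left (norm_cfc_cut_le y) (hτ.l2_nonneg _))).trans (by rw [hsw]))
      (hτ.l2_nonneg _) (by norm_num))
  have hκ : ‖κ‖ = 1 / 100 := by rw [Complex.norm_real, Real.norm_eq_abs, abs_of_nonneg (by norm_num)]
  rw [hκ]
  linarith

/-- The cut-off of a centred element keeps most of the variance. -/
theorem l2_cut_centred {y : B} (hy : IsSelfAdjoint y) (h0 : τ y = 0)
    (h2 : 1 / 2 ≤ (τ (y * y)).re) (h4 : (τ (y * y * (y * y))).re ≤ 13) :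
    1 / 2 ≤ l2 τ (cfc cut y - τ (cfc cut y) • (1 : B)) := by
  obtain ⟨r, -, hfy, -, -, -⟩ := cut_resolvent hy
  set d := cfc (fun x : ℝ => 1 / 100 * x ^ 3 / Real.sqrt (1 + x ^ 2 / 100)) y with hd
  have hdc : Continuous fun x : ℝ => 1 / 100 * x ^ 3 / Real.sqrt (1 + x ^ 2 / 100) :=
    (by fun_prop : Continuous fun x : ℝ => 1 / 100 * x ^ 3).div (by fun_prop) fun x =>
      (Real.sqrt_pos.2 (by positivity)).ne'
  have e : y * cfc cut y = y * y - ((1 / 100 : ℝ) : ℂ) • (y * y * (y * y)) + star d * d := by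
    have hds : star d = d := cfc_predicate (R := ℝ) _ y
    have hl : y * cfc cut y = cfc (fun x => x * cut x) y := by
      rw [cfc_mul _ _ _ (by fun_prop) continuous_cut.continuousOn, cfc_id' ℝ y]
    have hr2 : y * y = cfc (fun x : ℝ => x * x) y := by
      rw [cfc_mul _ _ _ (by fun_prop) (by fun_prop), cfc_id' ℝ y]
    rw [hds, hl, hr2, hd, ← cfc_mul _ _ _ hdc.continuousOn hdc.continuousOn,
      ← cfc_mul _ _ _ (by fun_prop) (by fun_prop), Complex.coe_smul,
      ← cfc_const_mul _ _ _ (by fun_prop), ← cfc_sub _ _ _ (by fun_prop) (by fun_prop),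
      ← cfc_add _ (fun x : ℝ => x * x - 1 / 100 * (x * x * (x * x))) _ (by fun_prop)
        (hdc.fun_mul hdc).continuousOn]
    refine cfc_congr fun x _ => ?_
    have hpos : (0 : ℝ) < 1 + x ^ 2 / 100 := by positivity
    simp only [cut]
    rw [div_mul_div_comm, Real.mul_self_sqrt hpos.le]
    field_simp
    ring
  have hpos := hτ.re_nonneg d
  set g := cfc cut y - τ (cfc cut y) • (1 : B) with hg
  have e2 : τ (star y * g) = τ (y * cfc cut y) := by
    rw [hy.star_eq, hg, mul_sub, map_sub, mul_smul_comm, map_smul, mul_one, h0, smul_zero, sub_zero]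
  have hcs := hτ.norm_map_mul_le y g
  rw [e2] at hcs
  by_contra hlt
  push Not at hlt
  have hy2 := hτ.l2_sq y
  rw [hy.star_eq] at hy2
  have hm : (τ (y * y)).re - 1 / 100 * (τ (y * y * (y * y))).re ≤ l2 τ y * l2 τ g := by
    refine le_trans ?_ ((Complex.re_le_norm _).trans hcs)
    rw [e]
    simp only [map_add, map_sub, map_smul, smul_eq_mul, Complex.add_re, Complex.sub_re,
      Complex.re_ofReal_mul]
    linarith
  nlinarith [hτ.l2_nonneg y, hy2, hm, h2, h4, sq_nonneg (l2 τ y - 7 / 10)]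

end IsTrace

namespace SlotSystem

variable (S : SlotSystem B G)

/-- The translate of the cut-off. -/
theorem act_cfc_cut (g : G) {y : B} (hy : IsSelfAdjoint y) :
    S.act g (cfc cut y) = cfc cut (S.act g y) :=
  StarAlgHomClass.map_cfc (S.act g) cut y continuous_cut.continuousOn (S.continuous_act g) hy
    (hy.map (S.act g))

theorem norm_act_le (g : G) (x : B) : ‖S.act g x‖ ≤ ‖x‖ :=
  NonUnitalStarAlgHom.norm_apply_le (S.act g) x

end SlotSystem

/-- **Step 3 of the proof.** -/
theorem varianceStatement_of (heta : EtaStatement.{u, v}) : VarianceStatement.{u, v} := by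
  intro B _ G _ _ hG S T ε hε i₀
  obtain ⟨F', hF'ne, hF'⟩ := hG T (ε / 5) (by positivity)
  obtain ⟨F, hFne, hF⟩ := hG F' (1 / 100) (by norm_num)
  obtain ⟨H, hH⟩ := heta B G S F hFne
  obtain ⟨L, hL⟩ := exists_nat_gt (8 * H ^ 2 + 1)
  have hL1 : (1 : ℝ) ≤ L := le_trans (by linarith [sq_nonneg H]) hL.le
  have hL0 : (0 : ℝ) < L := by linarith
  set sL := Real.sqrt L with hsLdef
  have hsL : 1 ≤ sL := Real.one_le_sqrt.2 hL1
  set δ : ℝ := 1 / (250 * sL) with hδdef
  have hδ : 0 < δ := by positivity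
  have hδ1 : δ ≤ 1 / 250 := by
    rw [hδdef]; exact div_le_div_of_nonneg_left zero_le_one (by norm_num) (by linarith)
  have hsLδ : sL * δ = 1 / 250 := by rw [hδdef]; field_simp
  choose nxt hnxt η a hη ha hηsa hasa hηH hτs using hH δ hδ
  let I : ℕ → ℕ := fun l => Nat.rec i₀ (fun _ i => nxt i) l
  have hmono : Monotone I := monotone_nat_of_le_succ fun l => hnxt (I l)
  refine ⟨I L, hmono (Nat.zero_le L), ?_⟩
  set c : ℂ := ((1 / sL : ℝ) : ℂ) with hcdef
  set Y : B := c • ∑ l ∈ Finset.range L, (η (I l) - a (I l)) with hYdef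
  have hYsa : IsSelfAdjoint Y := by
    simp [isSelfAdjoint_iff, hYdef, star_smul, star_sum, hηsa, hasa, hcdef]
  have hYm : Y ∈ S.gen (poolUnion (Set.Ico i₀ (I L))) := by
    refine SMulMemClass.smul_mem _ (sum_mem fun l hl => ?_)
    have hsub : poolUnion (Set.Ico (I l) (nxt (I l))) ⊆ poolUnion (Set.Ico i₀ (I L)) := by
      intro n hn
      exact ⟨le_trans (hmono (Nat.zero_le l)) hn.1,
        lt_of_lt_of_le hn.2 (hmono (Nat.succ_le_of_lt (Finset.mem_range.1 hl)))⟩
    exact sub_mem (S.gen_mono hsub (hη (I l))) (S.gen_mono hsub (ha (I l)))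
  have hdis : ∀ m n, m ≠ n → Disjoint (poolUnion (Set.Ico (I m) (I (m + 1))))
      (poolUnion (Set.Ico (I n) (I (n + 1)))) := by
    intro m n hmn
    refine Set.disjoint_left.2 fun x hx hx' => ?_
    rcases Nat.lt_or_gt_of_ne hmn with h | h
    · exact absurd (hx.2.trans_le ((hmono (Nat.succ_le_of_lt h)).trans hx'.1)) (lt_irrefl _)
    · exact absurd (hx'.2.trans_le ((hmono (Nat.succ_le_of_lt h)).trans hx.1)) (lt_irrefl _)
  set f := cfc cut Y with hfdef
  have hfsa : star f = f := (cfc_predicate cut Y : IsSelfAdjoint _)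
  have hfm : f ∈ S.gen (poolUnion (Set.Ico i₀ (I L))) := cfc_mem (hs := S.isClosed_gen _) _ hYm
  set b : B := ((1 / F'.card : ℝ) : ℂ) • ∑ k ∈ F', S.act k f with hbdef
  have hn0 : (0 : ℝ) < F'.card := by exact_mod_cast hF'ne.card_pos
  have hbsa : star b = b := by
    simp [hbdef, star_smul, star_sum, ← map_star, hfsa]
  refine ⟨b, SMulMemClass.smul_mem _ (sum_mem fun k _ => S.act_mem_gen k hfm), hbsa, ?_, ?_, ?_⟩
  · rw [hbdef, norm_smul, Complex.norm_real, Real.norm_eq_abs, abs_of_nonneg (by positivity),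
      div_mul_eq_mul_div, one_mul, div_le_iff₀ hn0, mul_comm (5 : ℝ), ← nsmul_eq_mul]
    exact (norm_sum_le _ _).trans (Finset.sum_le_card_nsmul _ _ _ fun k _ =>
      (S.norm_act_le k f).trans (norm_cfc_cut_le Y))
  · -- almost invariance in norm
    intro g hg
    have e : S.act g b - b = ((1 / F'.card : ℝ) : ℂ) •
        (∑ k ∈ F'.image (g * ·), S.act k f - ∑ k ∈ F', S.act k f) := by
      rw [hbdef, map_smul, map_sum, smul_sub, Finset.sum_image (by simp)]
      simp only [S.act_mul]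
    rw [e, norm_smul, Complex.norm_real, Real.norm_eq_abs, abs_of_nonneg (by positivity),
      div_mul_eq_mul_div, one_mul, div_le_iff₀ hn0]
    set X := F'.image (g * ·) with hX
    have e2 : ∑ k ∈ X, S.act k f - ∑ k ∈ F', S.act k f =
        ∑ k ∈ X \ F', S.act k f - ∑ k ∈ F' \ X, S.act k f := by
      rw [Finset.sum_sdiff_sub_sum_sdiff]
    rw [e2]
    have hb : ∀ s : Finset G, ‖∑ k ∈ s, S.act k f‖ ≤ s.card * 5 := fun s =>
      (norm_sum_le _ _).trans (by
        simpa [nsmul_eq_mul] using Finset.sum_le_card_nsmul s _ (5 : ℝ) fun k _ =>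
          (S.norm_act_le k f).trans (norm_cfc_cut_le Y))
    have hcard : ((X \ F').card : ℝ) + (F' \ X).card = (symmDiff X F').card := by
      rw [← Nat.cast_add, ← Finset.card_union_of_disjoint disjoint_sdiff_sdiff]
      rfl
    refine (norm_sub_le _ _).trans ?_
    have h := hF' g hg
    rw [← hX] at h
    nlinarith [hb (X \ F'), hb (F' \ X)]
  intro τ hτ
  have ht := hτ.trace
  -- the ideal sum
  have hIdeal : ∀ σ : B →ₗ[ℂ] ℂ, S.Good σ →
      l2 σ (Y - c • ∑ l ∈ Finset.range L, (η (I l) - σ (η (I l)) • (1 : B))) ≤ 1 / 250 := by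
    intro σ hσ
    rw [hYdef, ← smul_sub, ← Finset.sum_sub_distrib, hσ.trace.l2_smul, hcdef, Complex.norm_real,
      Real.norm_eq_abs, abs_of_nonneg (by positivity)]
    have hone : ∀ l, l2 σ (η (I l) - a (I l) - (η (I l) - σ (η (I l)) • (1 : B))) ≤ δ := by
      intro l
      rw [sub_sub_sub_cancel_left, ← hσ.trace.l2_neg, neg_sub]
      exact (hτs (I l) σ hσ).1
    refine (mul_le_mul_of_nonneg_left ((hσ.trace.l2_sum_le _ _).trans
      (Finset.sum_le_card_nsmul _ _ δ fun l _ => hone l)) (by positivity)).trans ?_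
    rw [Finset.card_range, nsmul_eq_mul, ← Real.mul_self_sqrt hL0.le, ← hsLdef]
    field_simp
    linarith
  set Y₀ := c • ∑ l ∈ Finset.range L, (η (I l) - τ (η (I l)) • (1 : B)) with hY₀
  have hmom := hτ.moments S (fun l => poolUnion (Set.Ico (I l) (I (l + 1)))) hdis
    (fun l => η (I l) - τ (η (I l)) • (1 : B)) (V := 2) (K := 2 * H) (by norm_num)
    (fun l => sub_mem (hη (I l)) (SMulMemClass.smul_mem _ (one_mem _)))
    (fun l => ht.star_centred (hηsa (I l)))
    (fun l => by simp [ht.map_one])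
    (fun l => by
      have h := ht.l2_sub_map_sq (hηsa (I l))
      rw [ht.l2_sq] at h
      have hsa' := ht.star_centred (hηsa (I l))
      rw [hsa'] at h
      rw [h]
      nlinarith [(hτs (I l) τ hτ).2.1, sq_nonneg (τ (η (I l))).re])
    (fun l => (ht.norm_centred_le _).trans (by linarith [hηH (I l)])) L
  obtain ⟨m1, m2, m4⟩ := hmom
  have hY₀sa : IsSelfAdjoint Y₀ := by
    simp [isSelfAdjoint_iff, hY₀, star_smul, star_sum, hηsa, hcdef,
      Complex.conj_eq_iff_im.2 (ht.im_of_sa (hηsa _))]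
  have hc2 : c * c = ((1 / L : ℝ) : ℂ) := by
    rw [hcdef, ← Complex.ofReal_mul, hsLdef, div_mul_div_comm, one_mul,
      Real.mul_self_sqrt hL0.le]
  have g0 : τ Y₀ = 0 := by rw [hY₀, map_smul, m1, smul_zero]
  have g2 : 1 / 2 ≤ (τ (Y₀ * Y₀)).re := by
    rw [hY₀, smul_mul_smul_comm, hc2, map_smul, smul_eq_mul, Complex.re_ofReal_mul, m2,
      Complex.re_sum]
    have hb : ∀ l ∈ Finset.range L, (1 / 2 : ℝ) ≤
        (τ ((η (I l) - τ (η (I l)) • (1 : B)) * (η (I l) - τ (η (I l)) • (1 : B)))).re := by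
      intro l _
      have h := ht.l2_sub_map_sq (hηsa (I l))
      rw [ht.l2_sq] at h
      have hsa' := ht.star_centred (hηsa (I l))
      rw [hsa'] at h
      rw [h]
      exact (hτs (I l) τ hτ).2.2.1
    have h := Finset.card_nsmul_le_sum _ _ _ hb
    rw [Finset.card_range, nsmul_eq_mul] at h
    rw [one_div_mul_eq_div, le_div_iff₀ hL0]
    linarith
  have g4 : (τ (Y₀ * Y₀ * (Y₀ * Y₀))).re ≤ 13 := by
    rw [hY₀, smul_mul_smul_comm, smul_mul_smul_comm, hc2, ← Complex.ofReal_mul, map_smul,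
      smul_eq_mul, Complex.re_ofReal_mul, div_mul_div_comm, one_mul, one_div_mul_eq_div,
      div_le_iff₀ (by positivity)]
    refine m4.trans ?_
    nlinarith
  have hcent := ht.l2_cut_centred hY₀sa g0 g2 g4
  -- translates stay close
  have hmove : ∀ k ∈ F', l2 τ (S.act k Y - Y) ≤ 3 / 20 := by
    intro k hk
    set σ := τ.comp (S.act k).toAlgHom.toLinearMap with hσdef
    have hσ : S.Good σ := hτ.comp_act S k
    set w := fun l => (S.act k (η (I l)) - η (I l)) - τ (S.act k (η (I l)) - η (I l)) • (1 : B)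
      with hw
    have hwsa : ∀ l, star (S.act k (η (I l)) - η (I l)) = S.act k (η (I l)) - η (I l) := by
      intro l; simp [← map_star, hηsa]
    have hwb : ∀ l, (τ (w l * w l)).re ≤ 1 / 100 + δ := by
      intro l
      have h := ht.l2_sub_map_sq (hwsa l)
      rw [ht.l2_sq] at h
      have hsa' : star (w l) = w l := ht.star_centred (hwsa l)
      change (τ (star (w l) * w l)).re = _ at h
      rw [hsa'] at h
      have h2 := (hτs (I l) τ hτ).2.2.2 k
      rw [ht.l2_sq, hwsa] at h2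
      have hcard : (0 : ℝ) < F.card := by exact_mod_cast hFne.card_pos
      have h3 : ((F.image (k * ·) ∆ F).card : ℝ) / F.card ≤ 1 / 100 :=
        (div_le_iff₀ hcard).2 (hF k hk)
      rw [h]
      nlinarith [sq_nonneg (τ (S.act k (η (I l)) - η (I l))).re]
    obtain ⟨-, w2, -⟩ := hτ.moments S (fun l => poolUnion (Set.Ico (I l) (I (l + 1)))) hdis w
      (V := 1 / 100 + δ) (K := 4 * H) (by positivity)
      (fun l => sub_mem (sub_mem (S.act_mem_gen k (hη (I l))) (hη (I l)))
        (SMulMemClass.smul_mem _ (one_mem _)))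
      (fun l => ht.star_centred (hwsa l))
      (fun l => by simp [hw, ht.map_one]) hwb
      (fun l => by
        have h1 : ‖S.act k (η (I l)) - η (I l)‖ ≤ 2 * H := (norm_sub_le _ _).trans (by
          linarith [(S.norm_act_le k (η (I l))).trans (hηH (I l)), hηH (I l)])
        exact (ht.norm_centred_le _).trans (by linarith)) L
    have hmid : l2 τ (c • ∑ l ∈ Finset.range L, w l) ≤ 12 / 100 := by
      have hwa : ∀ l, star (w l) = w l := fun l => ht.star_centred (hwsa l)
      refine Real.sqrt_le_iff.2 ⟨by norm_num, ?_⟩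
      have hstar : star (c • ∑ l ∈ Finset.range L, w l) = c • ∑ l ∈ Finset.range L, w l := by
        simp [star_smul, star_sum, hwa, hcdef]
      rw [hstar, smul_mul_smul_comm, hc2, map_smul, smul_eq_mul, Complex.re_ofReal_mul, w2,
        Complex.re_sum, one_div_mul_eq_div, div_le_iff₀ hL0]
      refine (Finset.sum_le_card_nsmul _ _ _ fun l _ => hwb l).trans ?_
      rw [Finset.card_range, nsmul_eq_mul]
      nlinarith
    have hsig := hIdeal σ hσ
    have hσl2 : ∀ x : B, l2 σ x = l2 τ (S.act k x) := fun x => by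
      simp [hσdef, l2, map_mul, map_star]
    have hk2 : S.act k (c • ∑ l ∈ Finset.range L, (η (I l) - σ (η (I l)) • (1 : B))) =
        c • ∑ l ∈ Finset.range L, S.act k (η (I l) - σ (η (I l)) • (1 : B)) := by
      rw [map_smul, map_sum]
    rw [hσl2, map_sub, hk2] at hsig
    have hsplit : c • ∑ l ∈ Finset.range L, w l =
        c • (∑ l ∈ Finset.range L, S.act k (η (I l) - σ (η (I l)) • (1 : B))) - Y₀ := by
      rw [hY₀, ← smul_sub, ← Finset.sum_sub_distrib]
      refine congrArg _ (Finset.sum_congr rfl fun l _ => ?_)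
      simp only [hw, hσdef, map_sub, map_smul, map_one, LinearMap.comp_apply,
        AlgHom.toLinearMap_apply, StarAlgHom.coe_toAlgHom, sub_smul]
      abel
    rw [hsplit] at hmid
    have hid := hIdeal τ hτ
    rw [← hY₀] at hid
    have t1 := ht.l2_sub_le (S.act k Y)
      (c • ∑ l ∈ Finset.range L, S.act k (η (I l) - σ (η (I l)) • (1 : B))) Y
    have t2 := ht.l2_sub_le (c • ∑ l ∈ Finset.range L, S.act k (η (I l) - σ (η (I l)) • (1 : B))) Y₀ Y
    have t3 : l2 τ (Y₀ - Y) = l2 τ (Y - Y₀) := by rw [← ht.l2_neg, neg_sub]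
    linarith [t1, t2, t3, hsig, hid, hmid]
  -- the average is close to the ideal cut-off
  have hclose : l2 τ (b - cfc cut Y₀) ≤ 1 / 5 := by
    have e : b - cfc cut Y₀ =
        ((1 / F'.card : ℝ) : ℂ) • ∑ k ∈ F', (S.act k f - cfc cut Y₀) := by
      rw [Finset.sum_sub_distrib, Finset.sum_const, smul_sub, ← hbdef, ← Nat.cast_smul_eq_nsmul ℂ,
        smul_smul, ← Complex.ofReal_natCast, ← Complex.ofReal_mul, one_div_mul_cancel hn0.ne',
        Complex.ofReal_one, one_smul]
    have hid := hIdeal τ hτ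
    rw [← hY₀] at hid
    have hk : ∀ k ∈ F', l2 τ (S.act k f - cfc cut Y₀) ≤ 1 / 5 := by
      intro k hk
      rw [hfdef, S.act_cfc_cut k hYsa]
      refine (ht.l2_cut_sub_le (hYsa.map (S.act k)) hY₀sa).trans ?_
      have := ht.l2_sub_le (S.act k Y) Y Y₀
      linarith [hmove k hk]
    rw [e, ht.l2_smul, Complex.norm_real, Real.norm_eq_abs, abs_of_nonneg (by positivity),
      div_mul_eq_mul_div, one_mul, div_le_iff₀ hn0, mul_comm]
    exact (ht.l2_sum_le _ _).trans ((Finset.sum_le_card_nsmul _ _ _ hk).trans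
      (by rw [nsmul_eq_mul]))
  set g₀ := cfc cut Y₀ with hg₀
  have hgsa : star g₀ = g₀ := (cfc_predicate cut Y₀ : IsSelfAdjoint _)
  have h3 : l2 τ (g₀ - τ g₀ • (1 : B)) ≤
      l2 τ (g₀ - b - τ (g₀ - b) • (1 : B)) + l2 τ (b - τ b • (1 : B)) := by
    refine le_trans (le_of_eq ?_) (ht.l2_add_le _ _)
    rw [map_sub, sub_smul]
    congr 1
    abel
  have h4 : l2 τ (g₀ - b - τ (g₀ - b) • (1 : B)) ≤ l2 τ (g₀ - b) := by
    have hsa : star (g₀ - b) = g₀ - b := by simp [hgsa, hbsa]
    refine (pow_le_pow_iff_left₀ (ht.l2_nonneg _) (ht.l2_nonneg _) two_ne_zero).1 ?_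
    rw [ht.l2_sub_map_sq hsa, ht.l2_sq, hsa]
    nlinarith [sq_nonneg (τ (g₀ - b)).re]
  have h5 : l2 τ (g₀ - b) = l2 τ (b - g₀) := by rw [← ht.l2_neg, neg_sub]
  have h6 : 3 / 10 ≤ l2 τ (b - τ b • (1 : B)) := by linarith
  rw [← ht.l2_sub_map_sq hbsa]
  nlinarith

end Vale.Agent.P095.Gamma
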