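import Vale.Agent.P095.Gamma.Specs
import Vale.Agent.P095.Gamma.L2

/-!
# P095 equivariant property Gamma: words in pools and estimable families

A family `x : ℕ → B` (indexed by the pool size) is estimable on the pools `I` if, for large pool
sizes, an element of those pools is `L²`-close to the scalar `τ (x M)` in every good trace.
-/

noncomputable section

namespace Vale.Agent.P095.Gamma

universe u v

open Filter Topology

variable {B : Type u} [CStarAlgebra B] {G : Type v} [Group G]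

namespace SlotSystem

variable (S : SlotSystem B G)

theorem gen_isClosed (P : Set ℕ) : IsClosed (S.gen P : Set B) :=
  StarSubalgebra.isClosed_topologicalClosure _

theorem commute_of_disjoint {P Q : Set ℕ} (h : Disjoint P Q) {x y : B} (hx : x ∈ S.gen P)
    (hy : y ∈ S.gen Q) : Commute x y := by
  have key : ∀ (R : Set ℕ) (c : Set B), (∀ g, ∀ s ∈ R, S.act g (S.h s) ∈ StarSubalgebra.centralizer ℂ c) →
      S.gen R ≤ StarSubalgebra.centralizer ℂ c := fun R c hc =>
    StarSubalgebra.topologicalClosure_minimal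
      (StarAlgebra.adjoin_le (by rintro _ ⟨g, s, hs, rfl⟩; exact hc g s hs))
      (by rw [StarSubalgebra.coe_centralizer]; exact Set.isClosed_centralizer _)
  have h1 : ∀ k, ∀ t ∈ Q, Commute x (S.act k (S.h t)) := fun k t ht => by
    have hx' := key P {S.act k (S.h t)} (fun g s hs => by
      rw [StarSubalgebra.mem_centralizer_iff]
      intro b hb
      rw [Set.mem_singleton_iff.1 hb]
      have hne : s ≠ t := h.ne_of_mem hs ht
      refine ⟨(S.comm g k s t hne).symm.eq, ?_⟩
      rw [← map_star, S.h_sa]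
      exact (S.comm g k s t hne).symm.eq) hx
    rw [StarSubalgebra.mem_centralizer_iff] at hx'
    exact (hx' _ rfl).1.symm
  have hy' := key Q {x} (fun k t ht => by
    rw [StarSubalgebra.mem_centralizer_iff]
    intro b hb
    rw [Set.mem_singleton_iff.1 hb]
    refine ⟨(h1 k t ht).eq, ?_⟩
    have h2 := (h1 k t ht).star_star
    rw [← map_star, S.h_sa] at h2
    exact h2.eq) hy
  rw [StarSubalgebra.mem_centralizer_iff] at hy'
  exact (hy' x rfl).1

theorem pool_subset {i M : ℕ} {I : Set ℕ} (hi : i ∈ I) : pool i M ⊆ poolUnion I := by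
  rintro n ⟨s, -, rfl⟩
  simpa [poolUnion] using hi

theorem poolUnion_disjoint {I J : Set ℕ} (h : Disjoint I J) :
    Disjoint (poolUnion I) (poolUnion J) :=
  Set.disjoint_left.2 fun _ hI hJ => Set.disjoint_left.1 h hI hJ

theorem poolUnion_subset {I J : Set ℕ} (h : I ⊆ J) : poolUnion I ⊆ poolUnion J := fun _ hn => h hn

theorem poolSum_mem (i M : ℕ) (g : G) : S.poolSum i M g ∈ S.gen (pool i M) :=
  SMulMemClass.smul_mem _ (sum_mem fun s hs => S.act_h_mem g ⟨s, Finset.mem_range.1 hs, rfl⟩)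

theorem star_poolSum (i M : ℕ) (g : G) : star (S.poolSum i M g) = S.poolSum i M g := by
  simp only [poolSum, star_smul, star_sum, Complex.star_def, Complex.conj_ofReal, ← map_star,
    S.h_sa]

theorem act_poolSum (i M : ℕ) (g k : G) : S.act k (S.poolSum i M g) = S.poolSum i M (k * g) := by
  simp only [poolSum, map_smul, map_sum, ← S.act_mul]

/-- A single exponential of a translated pool sum. -/
def pulse (i M : ℕ) (g : G) (w : ℝ) : B :=
  NormedSpace.exp ((Complex.I * (w : ℂ)) • S.poolSum i M g)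

theorem pulse_mem (i M : ℕ) (g : G) (w : ℝ) : S.pulse i M g w ∈ S.gen (pool i M) :=
  let +nondep : NormedAlgebra ℚ B := .restrictScalars ℚ ℂ B
  NormedSpace.exp_mem (R := ℂ) (S.gen_isClosed _) (SMulMemClass.smul_mem _ (S.poolSum_mem i M g))

theorem pulse_unitary (i M : ℕ) (g : G) (w : ℝ) : S.pulse i M g w ∈ unitary B := by
  let +nondep : NormedAlgebra ℚ B := .restrictScalars ℚ ℂ B
  refine NormedSpace.exp_mem_unitary_of_mem_skewAdjoint ?_
  rw [skewAdjoint.mem_iff, star_smul, S.star_poolSum, ← neg_smul]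
  congr 1
  simp

theorem norm_pulse_le (i M : ℕ) (g : G) (w : ℝ) : ‖S.pulse i M g w‖ ≤ 1 := by
  rcases subsingleton_or_nontrivial B with h | h
  · simp [Subsingleton.elim (S.pulse i M g w) 0]
  · exact (CStarRing.norm_of_mem_unitary (S.pulse_unitary i M g w)).le

theorem pulse_add (i M : ℕ) (g : G) (w w' : ℝ) :
    S.pulse i M g (w + w') = S.pulse i M g w * S.pulse i M g w' := by
  let +nondep : NormedAlgebra ℚ B := .restrictScalars ℚ ℂ B
  rw [pulse, pulse, pulse, ← NormedSpace.exp_add_of_commute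
    (((Commute.refl _).smul_left _).smul_right _), ← add_smul]
  congr 2
  push_cast
  ring

theorem pulse_zero (i M : ℕ) (g : G) : S.pulse i M g 0 = 1 := by
  simp [pulse]

theorem star_pulse (i M : ℕ) (g : G) (w : ℝ) : star (S.pulse i M g w) = S.pulse i M g (-w) := by
  rw [pulse, pulse, NormedSpace.star_exp, star_smul, S.star_poolSum]
  congr 2
  simp

theorem act_pulse (i M : ℕ) (g k : G) (w : ℝ) :
    S.act k (S.pulse i M g w) = S.pulse i M (k * g) w := by
  let +nondep : NormedAlgebra ℚ B := .restrictScalars ℚ ℂ B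
  rw [pulse, pulse, NormedSpace.map_exp (S.act k) (S.continuous_act k), map_smul, S.act_poolSum]

end SlotSystem

variable (S : SlotSystem B G)

theorem norm_one_le_one : ‖(1 : B)‖ ≤ 1 := by
  rcases subsingleton_or_nontrivial B with h | h
  · simp [Subsingleton.elim (1 : B) 0]
  · exact CStarRing.norm_one.le

theorem poolWord_eq_prod (i M : ℕ) {n : ℕ} (g : Fin n → G) (w : Fin n → ℝ) :
    poolWord S i M g w = (List.ofFn fun j => S.pulse i M (g j) (w j)).prod := rfl

theorem norm_poolWord_le (i M : ℕ) {n : ℕ} (g : Fin n → G) (w : Fin n → ℝ) :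
    ‖poolWord S i M g w‖ ≤ 1 := by
  rcases subsingleton_or_nontrivial B with h | h
  · simp [Subsingleton.elim (poolWord S i M g w) 0]
  · refine (CStarRing.norm_of_mem_unitary ?_).le
    rw [poolWord_eq_prod]
    refine list_prod_mem fun x hx => ?_
    rw [List.mem_ofFn] at hx
    obtain ⟨j, rfl⟩ := hx
    exact S.pulse_unitary i M _ _

theorem poolWord_mem (i M : ℕ) {n : ℕ} (g : Fin n → G) (w : Fin n → ℝ) :
    poolWord S i M g w ∈ S.gen (pool i M) := by
  rw [poolWord_eq_prod]
  refine list_prod_mem fun x hx => ?_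
  rw [List.mem_ofFn] at hx
  obtain ⟨j, rfl⟩ := hx
  exact S.pulse_mem i M _ _

/-- Estimable families. -/
def Est (I : Set ℕ) (x : ℕ → B) : Prop :=
  ∃ C : ℝ, (∀ M, ‖x M‖ ≤ C) ∧ (∀ M, x M ∈ S.gen (poolUnion I)) ∧
    ∀ ε : ℝ, 0 < ε → ∀ᶠ M in atTop, ∃ a ∈ S.gen (poolUnion I), ‖a‖ ≤ C ∧
      ∀ τ : B →ₗ[ℂ] ℂ, S.Good τ → l2 τ (a - τ (x M) • (1 : B)) ≤ ε

/-- The estimable families on `I`, as a submodule. -/
def estSub (I : Set ℕ) : Submodule ℂ (ℕ → B) where
  carrier := {x | Est S I x}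
  zero_mem' := ⟨0, fun M => by simp, fun M => zero_mem _, fun ε hε => Eventually.of_forall fun M =>
    ⟨0, zero_mem _, by simp, fun τ hτ => by simp [hτ.trace.l2_zero, hε.le]⟩⟩
  add_mem' := by
    rintro x y ⟨C, hC, hCm, hx⟩ ⟨D, hD, hDm, hy⟩
    refine ⟨C + D, fun M => (norm_add_le _ _).trans (add_le_add (hC M) (hD M)),
      fun M => add_mem (hCm M) (hDm M), fun ε hε => ?_⟩
    filter_upwards [hx (ε / 2) (half_pos hε), hy (ε / 2) (half_pos hε)] with M ha hb
    obtain ⟨a, ham, han, ha⟩ := ha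
    obtain ⟨b, hbm, hbn, hb⟩ := hb
    refine ⟨a + b, add_mem ham hbm, (norm_add_le _ _).trans (add_le_add han hbn), fun τ hτ => ?_⟩
    rw [Pi.add_apply, map_add, add_smul, add_sub_add_comm]
    exact (hτ.trace.l2_add_le _ _).trans (by linarith [ha τ hτ, hb τ hτ])
  smul_mem' := by
    rintro c x ⟨C, hC, hCm, hx⟩
    refine ⟨‖c‖ * C, fun M => by
      rw [Pi.smul_apply, norm_smul]; gcongr; exact hC M, fun M => SMulMemClass.smul_mem _ (hCm M),
      fun ε hε => ?_⟩
    filter_upwards [hx (ε / (‖c‖ + 1)) (by positivity)] with M ha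
    obtain ⟨a, ham, han, ha⟩ := ha
    refine ⟨c • a, SMulMemClass.smul_mem _ ham, by rw [norm_smul]; gcongr, fun τ hτ => ?_⟩
    rw [Pi.smul_apply, map_smul, smul_eq_mul, mul_smul, ← smul_sub, hτ.trace.l2_smul]
    calc ‖c‖ * l2 τ (a - τ (x M) • (1 : B)) ≤ (‖c‖ + 1) * (ε / (‖c‖ + 1)) :=
          mul_le_mul (by linarith) (ha τ hτ) (hτ.trace.l2_nonneg _) (by positivity)
      _ = ε := by field_simp

theorem mem_estSub {I : Set ℕ} {x : ℕ → B} : x ∈ estSub S I ↔ Est S I x := Iff.rfl

/-- Estimable families on disjoint pools multiply. -/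
theorem Est.mul {I J : Set ℕ} (h : Disjoint I J) {x y : ℕ → B} (hx : Est S I x) (hy : Est S J y) :
    Est S (I ∪ J) (x * y) := by
  obtain ⟨C, hC, hCm, hx⟩ := hx
  obtain ⟨D, hD, hDm, hy⟩ := hy
  have hC0 : 0 ≤ C := (norm_nonneg _).trans (hC 0)
  have hD0 : 0 ≤ D := (norm_nonneg _).trans (hD 0)
  have hI : S.gen (poolUnion I) ≤ S.gen (poolUnion (I ∪ J)) :=
    S.gen_mono (SlotSystem.poolUnion_subset Set.subset_union_left)
  have hJ : S.gen (poolUnion J) ≤ S.gen (poolUnion (I ∪ J)) :=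
    S.gen_mono (SlotSystem.poolUnion_subset Set.subset_union_right)
  refine ⟨C * D, fun M => (norm_mul_le _ _).trans (mul_le_mul (hC M) (hD M) (norm_nonneg _) hC0),
    fun M => mul_mem (hI (hCm M)) (hJ (hDm M)), fun ε hε => ?_⟩
  filter_upwards [hx (ε / 2 / (D + 1)) (by positivity), hy (ε / 2 / (C + 1)) (by positivity)]
    with M ha hb
  obtain ⟨a, ham, han, ha⟩ := ha
  obtain ⟨b, hbm, hbn, hb⟩ := hb
  refine ⟨a * b, mul_mem (hI ham) (hJ hbm),
    (norm_mul_le _ _).trans (mul_le_mul han hbn (norm_nonneg _) hC0), fun τ hτ => ?_⟩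
  rw [Pi.mul_apply, SlotSystem.Good.map_mul S hτ (SlotSystem.poolUnion_disjoint h) (hCm M) (hDm M)]
  have e : a * b - (τ (x M) * τ (y M)) • (1 : B) =
      a * (b - τ (y M) • (1 : B)) + τ (y M) • (a - τ (x M) • (1 : B)) := by
    rw [mul_sub, smul_sub, mul_smul_comm, mul_one, smul_smul, mul_comm (τ (y M))]
    abel
  rw [e]
  refine (hτ.trace.l2_add_le _ _).trans ?_
  have h1 : l2 τ (a * (b - τ (y M) • (1 : B))) ≤ ε / 2 := by
    refine (hτ.trace.l2_mul_le _ _).trans ?_
    calc ‖a‖ * l2 τ (b - τ (y M) • (1 : B)) ≤ (C + 1) * (ε / 2 / (C + 1)) :=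
          mul_le_mul (by linarith) (hb τ hτ) (hτ.trace.l2_nonneg _) (by positivity)
      _ = ε / 2 := by field_simp
  have h2 : l2 τ (τ (y M) • (a - τ (x M) • (1 : B))) ≤ ε / 2 := by
    rw [hτ.trace.l2_smul]
    calc ‖τ (y M)‖ * l2 τ (a - τ (x M) • (1 : B)) ≤ (D + 1) * (ε / 2 / (D + 1)) :=
          mul_le_mul (by linarith [hτ.trace.norm_map_le_norm (y M), hD M]) (ha τ hτ)
            (hτ.trace.l2_nonneg _) (by positivity)
      _ = ε / 2 := by field_simp
  linarith

/-- The span of the words of pool `i`. -/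
def wordSpan (i : ℕ) : Submodule ℂ (ℕ → B) :=
  Submodule.span ℂ {x | ∃ (n : ℕ) (g : Fin n → G) (w : Fin n → ℝ),
    x = fun M => poolWord S i M g w}

theorem wordSpan_mul {i : ℕ} {x y : ℕ → B} (hx : x ∈ wordSpan S i) (hy : y ∈ wordSpan S i) :
    x * y ∈ wordSpan S i := by
  induction hx, hy using Submodule.span_induction₂ with
  | mem_mem x y hx hy =>
    obtain ⟨n, g, w, rfl⟩ := hx
    obtain ⟨m, k, z, rfl⟩ := hy
    refine Submodule.subset_span ⟨n + m, Fin.append g k, Fin.append w z, funext fun M => ?_⟩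
    rw [Pi.mul_apply, poolWord_eq_prod, poolWord_eq_prod, poolWord_eq_prod, ← List.prod_append,
      ← List.ofFn_fin_append]
    congr 2
    funext j
    induction j using Fin.addCases <;> simp
  | zero_left y _ => rw [zero_mul]; exact zero_mem _
  | zero_right x _ => rw [mul_zero]; exact zero_mem _
  | add_left x y z _ _ _ hxz hyz => rw [add_mul]; exact add_mem hxz hyz
  | add_right x y z _ _ _ hxy hxz => rw [mul_add]; exact add_mem hxy hxz
  | smul_left r x y _ _ h => rw [smul_mul_assoc]; exact Submodule.smul_mem _ r h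
  | smul_right r x y _ _ h => rw [mul_smul_comm]; exact Submodule.smul_mem _ r h

theorem one_mem_wordSpan (i : ℕ) : (1 : ℕ → B) ∈ wordSpan S i :=
  Submodule.subset_span ⟨0, Fin.elim0, Fin.elim0, funext fun M => by simp [poolWord_eq_prod]⟩

theorem pulse_mem_wordSpan (i : ℕ) (g : G) (w : ℝ) :
    (fun M => S.pulse i M g w) ∈ wordSpan S i :=
  Submodule.subset_span ⟨1, fun _ => g, fun _ => w, funext fun M => by simp [poolWord_eq_prod]⟩

theorem wordSpan_mem_gen {i : ℕ} {x : ℕ → B} (hx : x ∈ wordSpan S i) (M : ℕ) :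
    x M ∈ S.gen (poolUnion {i}) := by
  induction hx using Submodule.span_induction with
  | mem x hx =>
    obtain ⟨n, g, w, rfl⟩ := hx
    have h : pool i M ⊆ poolUnion {i} := SlotSystem.pool_subset (Set.mem_singleton i)
    exact (S.gen_mono h) (poolWord_mem S i M g w)
  | zero =>
    rw [Pi.zero_apply]
    exact zero_mem (S.gen (poolUnion {i}))
  | add x y _ _ hx hy =>
    rw [Pi.add_apply]
    exact add_mem hx hy
  | smul c x _ hx =>
    rw [Pi.smul_apply]
    exact SMulMemClass.smul_mem c hx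

theorem wordSpan_le_estSub (hP : PoolStatement.{u, v}) (i : ℕ) :
    wordSpan S i ≤ estSub S {i} := by
  refine Submodule.span_le.2 ?_
  rintro _ ⟨n, g, w, rfl⟩
  refine ⟨1, fun M => norm_poolWord_le S i M g w,
    fun M => (S.gen_mono (SlotSystem.pool_subset (Set.mem_singleton i))) (poolWord_mem S i M g w),
    fun ε hε => ?_⟩
  obtain ⟨M₀, -, hM⟩ := hP n (∑ j, |w j|) ε hε
  filter_upwards [eventually_ge_atTop M₀] with M hM'
  obtain ⟨e, he, -, hen, h⟩ := hM B G S M hM' i g w fun j =>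
    Finset.single_le_sum (fun k _ => abs_nonneg (w k)) (Finset.mem_univ j)
  exact ⟨e, (S.gen_mono (SlotSystem.pool_subset (Set.mem_singleton i))) he, hen, fun τ hτ => (h τ hτ).2⟩

/-- Products of words over the pools `i₀, …, i₀ + n - 1`. -/
def tens (i₀ : ℕ) : ℕ → Submodule ℂ (ℕ → B)
  | 0 => Submodule.span ℂ {1}
  | n + 1 => Submodule.span ℂ {z | ∃ x ∈ tens i₀ n, ∃ y ∈ wordSpan S (i₀ + n), z = x * y}

theorem one_mem_tens (i₀ : ℕ) : ∀ n, (1 : ℕ → B) ∈ tens S i₀ n
  | 0 => Submodule.subset_span rfl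
  | n + 1 => Submodule.subset_span
      ⟨1, one_mem_tens i₀ n, 1, one_mem_wordSpan S _, (one_mul 1).symm⟩

theorem mul_mem_tens_succ {i₀ n : ℕ} {x y : ℕ → B} (hx : x ∈ tens S i₀ n)
    (hy : y ∈ wordSpan S (i₀ + n)) : x * y ∈ tens S i₀ (n + 1) :=
  Submodule.subset_span ⟨x, hx, y, hy, rfl⟩

theorem Ico_disjoint_singleton (i₀ n : ℕ) : Disjoint (Set.Ico i₀ (i₀ + n)) {i₀ + n} :=
  Set.disjoint_singleton_right.2 fun h => lt_irrefl _ h.2

theorem Ico_union_singleton (i₀ n : ℕ) :
    Set.Ico i₀ (i₀ + n) ∪ {i₀ + n} = Set.Ico i₀ (i₀ + (n + 1)) := by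
  ext k; simp only [Set.mem_union, Set.mem_Ico, Set.mem_singleton_iff]; omega

theorem tens_mem_gen {i₀ : ℕ} : ∀ {n : ℕ} {x : ℕ → B}, x ∈ tens S i₀ n → ∀ M,
    x M ∈ S.gen (poolUnion (Set.Ico i₀ (i₀ + n))) := by
  intro n
  induction n with
  | zero =>
    intro x hx M
    obtain ⟨c, rfl⟩ := Submodule.mem_span_singleton.1 hx
    exact SMulMemClass.smul_mem _ (one_mem _)
  | succ n ih =>
    intro x hx M
    induction hx using Submodule.span_induction with
    | mem x hx =>
      obtain ⟨a, ha, b, hb, rfl⟩ := hx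
      rw [← Ico_union_singleton]
      exact mul_mem (S.gen_mono (SlotSystem.poolUnion_subset Set.subset_union_left) (ih ha M))
        (S.gen_mono (SlotSystem.poolUnion_subset Set.subset_union_right) (wordSpan_mem_gen S hb M))
    | zero => exact zero_mem _
    | add x y _ _ hx hy => exact add_mem hx hy
    | smul c x _ hx => exact SMulMemClass.smul_mem _ hx

theorem tens_mul {i₀ : ℕ} : ∀ {n : ℕ} {x y : ℕ → B}, x ∈ tens S i₀ n → y ∈ tens S i₀ n →
    x * y ∈ tens S i₀ n := by
  intro n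
  induction n with
  | zero =>
    intro x y hx hy
    obtain ⟨c, rfl⟩ := Submodule.mem_span_singleton.1 hx
    obtain ⟨d, rfl⟩ := Submodule.mem_span_singleton.1 hy
    exact Submodule.mem_span_singleton.2 ⟨c * d, by simp [smul_smul, mul_comm]⟩
  | succ n ih =>
    intro x y hx hy
    induction hx, hy using Submodule.span_induction₂ with
    | mem_mem x y hx hy =>
      obtain ⟨a, ha, b, hb, rfl⟩ := hx
      obtain ⟨c, hc, d, hd, rfl⟩ := hy
      refine Submodule.subset_span ⟨a * c, ih ha hc, b * d, wordSpan_mul S hb hd, funext fun M => ?_⟩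
      have h : Commute (b M) (c M) := (S.commute_of_disjoint
        (SlotSystem.poolUnion_disjoint (Ico_disjoint_singleton i₀ n).symm)
        (wordSpan_mem_gen S hb M) (tens_mem_gen S hc M))
      simp only [Pi.mul_apply]
      rw [mul_assoc, ← mul_assoc (b M), h.eq, mul_assoc, mul_assoc]
    | zero_left y _ => rw [zero_mul]; exact zero_mem _
    | zero_right x _ => rw [mul_zero]; exact zero_mem _
    | add_left x y z _ _ _ hxz hyz => rw [add_mul]; exact add_mem hxz hyz
    | add_right x y z _ _ _ hxy hxz => rw [mul_add]; exact add_mem hxy hxz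
    | smul_left r x y _ _ h => rw [smul_mul_assoc]; exact Submodule.smul_mem _ r h
    | smul_right r x y _ _ h => rw [mul_smul_comm]; exact Submodule.smul_mem _ r h

theorem tens_le_estSub (hP : PoolStatement.{u, v}) (i₀ : ℕ) :
    ∀ n, tens S i₀ n ≤ estSub S (Set.Ico i₀ (i₀ + n))
  | 0 => Submodule.span_le.2 (by
      rintro _ rfl
      refine ⟨1, fun M => norm_one_le_one, fun M => one_mem _, fun ε hε =>
        Eventually.of_forall fun M => ⟨1, one_mem _, norm_one_le_one, fun τ hτ => ?_⟩⟩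
      simp [hτ.trace.map_one, hτ.trace.l2_zero, hε.le])
  | n + 1 => Submodule.span_le.2 (by
      rintro _ ⟨x, hx, y, hy, rfl⟩
      rw [← Ico_union_singleton]
      exact Est.mul S (Ico_disjoint_singleton i₀ n) (tens_le_estSub hP i₀ n hx)
        (wordSpan_le_estSub S hP _ hy))

end Vale.Agent.P095.Gamma
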