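import Vale.Agent.P095.Gamma.Defs

/-!
# P095 equivariant property Gamma: examples of Følner groups

Finite groups, commutative groups, and groups in which every finite set lies in a Følner subgroup.
-/

noncomputable section

namespace Vale.Agent.P095.Gamma

universe v

open scoped symmDiff

variable {G : Type v} [Group G] [DecidableEq G]

/-- Finite groups are Følner. -/
theorem isFolnerGroup_of_finite [Finite G] : IsFolnerGroup G := by
  have _ := Fintype.ofFinite G
  intro T ε hε
  refine ⟨Finset.univ, Finset.univ_nonempty, fun g _ => ?_⟩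
  rw [Finset.image_univ_of_surjective (Group.mulLeft_bijective g).surjective, symmDiff_self]
  simp only [Finset.bot_eq_empty, Finset.card_empty, Nat.cast_zero]
  positivity

/-- A group is Følner if every finite set lies in a Følner subgroup. -/
theorem isFolnerGroup_of_subgroups
    (h : ∀ T : Finset G, ∃ H : Subgroup G, (∀ g ∈ T, g ∈ H) ∧ IsFolnerGroup H) :
    IsFolnerGroup G := by
  intro T ε hε
  obtain ⟨H, hTH, hH⟩ := h T
  classical
  obtain ⟨F, hF, hinv⟩ := hH (T.subtype (· ∈ H)) ε hε
  refine ⟨F.image Subtype.val, hF.image _, fun g hg => ?_⟩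
  have key : (F.image Subtype.val).image (g * ·) =
      (F.image ((⟨g, hTH g hg⟩ : H) * ·)).image Subtype.val := by
    rw [Finset.image_image, Finset.image_image]
    rfl
  rw [key, ← Finset.image_symmDiff _ _ Subtype.val_injective,
    Finset.card_image_of_injective _ Subtype.val_injective,
    Finset.card_image_of_injective _ Subtype.val_injective]
  exact hinv _ (Finset.mem_subtype.2 hg)

/-- A directed union of Følner subgroups is Følner. -/
theorem isFolnerGroup_of_directed {ι : Type*} [Nonempty ι] (H : ι → Subgroup G)
    (hdir : Directed (· ≤ ·) H) (hcov : ∀ g, ∃ i, g ∈ H i) (hH : ∀ i, IsFolnerGroup (H i)) :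
    IsFolnerGroup G := by
  refine isFolnerGroup_of_subgroups fun T => ?_
  classical
  choose f hf using hcov
  obtain ⟨i, hi⟩ := hdir.finset_le (T.image f)
  exact ⟨H i, fun g hg => hi (f g) (Finset.mem_image_of_mem f hg) (hf g), hH i⟩

section Comm

variable {A : Type v} [CommGroup A] [DecidableEq A]

/-- Products of the elements of `T` with exponents at most `N`. -/
def powBox (T : Finset A) (N : ℕ) : Finset A :=
  (Fintype.piFinset fun _ : T => Finset.range (N + 1)).image fun e => ∏ t : T, (t : A) ^ e t

theorem powBox_subset (T : Finset A) (N : ℕ) : powBox T N ⊆ powBox T (N + 1) := by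
  refine Finset.image_subset_image (Fintype.piFinset_subset _ _ fun _ => ?_)
  exact Finset.range_mono (Nat.le_succ _)

theorem mul_powBox_subset (T : Finset A) (N : ℕ) {g : A} (hg : g ∈ T) :
    (powBox T N).image (g * ·) ⊆ powBox T (N + 1) := by
  classical
  intro x hx
  simp only [powBox, Finset.mem_image, exists_exists_and_eq_and, Fintype.mem_piFinset,
    Finset.mem_range] at hx ⊢
  obtain ⟨e, he, rfl⟩ := hx
  refine ⟨e + Pi.single ⟨g, hg⟩ 1, fun t => ?_, ?_⟩
  · have := he t
    rcases eq_or_ne t ⟨g, hg⟩ with h | h
    · simp [h] at this ⊢; omega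
    · simp [h]; omega
  · simp only [Pi.add_apply, pow_add, Finset.prod_mul_distrib]
    rw [mul_comm]
    congr 1
    rw [Finset.prod_eq_single ⟨g, hg⟩ (fun b _ hb => by simp [hb]) (by simp)]
    simp

/-- Commutative groups are Følner. -/
theorem isFolnerGroup_comm : IsFolnerGroup A := by
  intro T ε hε
  set r : ℝ := 1 + ε / 2 with hr
  obtain ⟨N, hN⟩ : ∃ N, ((powBox T (N + 1)).card : ℝ) ≤ r * (powBox T N).card := by
    by_contra hne
    push Not at hne
    have hgrow : ∀ N, r ^ N ≤ ((powBox T N).card : ℝ) := by
      intro N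
      induction N with
      | zero =>
        simp only [pow_zero, Nat.one_le_cast, Finset.one_le_card]
        exact (Fintype.piFinset_nonempty.2 fun _ => Finset.nonempty_range_add_one).image _
      | succ N ih =>
        rw [pow_succ']
        exact (mul_le_mul_of_nonneg_left ih (by positivity)).trans (hne N).le
    have hle : ∀ N, ((powBox T N).card : ℝ) ≤ ((N + 1 : ℕ) : ℝ) ^ T.card := fun N => by
      have := (Finset.card_image_le (s := Fintype.piFinset fun _ : T => Finset.range (N + 1))
        (f := fun e => ∏ t : T, (t : A) ^ e t))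
      simp only [Fintype.card_piFinset, Finset.prod_const, Finset.card_range, Finset.card_univ,
        Fintype.card_coe] at this
      exact_mod_cast this
    have h0 := (tendsto_pow_const_div_const_pow_of_one_lt T.card
      (show 1 < r by rw [hr]; linarith)).const_mul ((2 : ℝ) ^ T.card)
    rw [mul_zero] at h0
    obtain ⟨N, hN, hN1⟩ :=
      ((h0.eventually (gt_mem_nhds zero_lt_one)).and (Filter.eventually_ge_atTop 1)).exists
    have h2 : ((N + 1 : ℕ) : ℝ) ^ T.card ≤ (2 : ℝ) ^ T.card * (N : ℝ) ^ T.card := by
      rw [← mul_pow]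
      refine pow_le_pow_left₀ (by positivity) ?_ _
      have : (1 : ℝ) ≤ N := by exact_mod_cast hN1
      push_cast
      linarith
    rw [← mul_div_assoc, div_lt_one (by positivity)] at hN
    linarith [hgrow N, hle N]
  refine ⟨powBox T N, (Fintype.piFinset_nonempty.2 fun _ => Finset.nonempty_range_add_one).image _,
    fun g hg => ?_⟩
  set F := powBox T N
  set F' := powBox T (N + 1)
  have h1 : F.image (g * ·) ⊆ F' := mul_powBox_subset T N hg
  have h2 : F ⊆ F' := powBox_subset T N
  have hsub : F.image (g * ·) ∆ F ⊆ F' \ F ∪ F' \ F.image (g * ·) := by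
    intro x hx
    rw [Finset.mem_symmDiff] at hx
    simp only [Finset.mem_union, Finset.mem_sdiff]
    rcases hx with ⟨a, b⟩ | ⟨a, b⟩
    · exact Or.inl ⟨h1 a, b⟩
    · exact Or.inr ⟨h2 a, b⟩
  have hc : ((F.image (g * ·) ∆ F).card : ℝ) ≤
      ((F'.card : ℝ) - F.card) + ((F'.card : ℝ) - (F.image (g * ·)).card) := by
    have := (Finset.card_le_card hsub).trans (Finset.card_union_le _ _)
    rw [Finset.card_sdiff_of_subset h2, Finset.card_sdiff_of_subset h1] at this
    rw [← Nat.cast_sub (Finset.card_le_card h2), ← Nat.cast_sub (Finset.card_le_card h1)]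
    exact_mod_cast this
  rw [Finset.card_image_of_injective _ (mul_right_injective g)] at hc
  refine hc.trans ?_
  rw [hr] at hN
  nlinarith

end Comm

/-- The integers are Følner. -/
theorem isFolnerGroup_int : IsFolnerGroup (Multiplicative ℤ) := isFolnerGroup_comm

end Vale.Agent.P095.Gamma
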