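import Vale.Agent.P095.Gamma.Outer
import Vale.Agent.P095.InvariantDrop

/-!
# P095 equivariant property Gamma: assembly

The theorem from the statements of the modules, with the hypothesis on the algebra read as a unital
homomorphism from `Z_{2,3}` into `A_∞ ∩ A'`.
-/

noncomputable section

namespace Vale.Agent.P095.Gamma

open Vale.Agent.P101

universe u v

/-- Every action of a countable Følner group on a separable unital C*-algebra receiving a unital
homomorphism from `Z_{2,3}` into its central sequence algebra has equivariant property Gamma. -/
theorem main_of (hprod : ProductStatement.{u}) (hext : ExtremalStatement.{u})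
    (hpool : PoolStatement.{u, v}) (heta : PoolStatement.{u, v} → EtaStatement.{u, v})
    (hvar : EtaStatement.{u, v} → VarianceStatement.{u, v})
    (hpart : VarianceStatement.{u, v} → PartitionStatement.{u, v})
    (A : Type u) [CStarAlgebra A] [TopologicalSpace.SeparableSpace A]
    (h : ∃ φ, IsCentralDropHom A φ) (G : Type v) [Group G] [Countable G] [DecidableEq G]
    (hG : IsFolnerGroup G) (α : G →* (A ≃⋆ₐ[ℂ] A)) : HasEquivariantGamma A α := by
  obtain ⟨φ, hφ⟩ := h
  exact hasEquivariantGamma_of hprod hext (hpart (hvar (heta hpool)))
    (hasCentralDimensionDrop_of_dropHom hφ) hG α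

end Vale.Agent.P095.Gamma
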